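import Vale.Agent.Lib.P058C.SDef

/-!
# P058L, module AlgA: elements of `ℝ ⊗[ℚ] ℝ` supported on the diagonal

For finitely many algebraic numbers `x` there is `ε` with `mu ε = 1` and `(x ⊗ 1) ε = (1 ⊗ x) ε`.

PROOF.  Let `m` be the minimal polynomial of `x`, `X = x ⊗ 1`, `Y = 1 ⊗ x`.  In `TT[t]`: `m = (t - X) G`, so
`0 = m(Y) = (Y - X) G(Y)` and `mu (G(Y)) = mu (G(X)) = mu (m'(X)) = m'(x) ≠ 0`.
-/

namespace Vale.Agent.Lib.P058

open Polynomial

/-- inclusion of the left factor -/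
private noncomputable def inL : ℝ →ₐ[ℚ] TT := Algebra.TensorProduct.includeLeft

private noncomputable def inR : ℝ →ₐ[ℚ] TT := Algebra.TensorProduct.includeRight

private theorem inL_apply (x : ℝ) : inL x = tp x 1 := rfl

private theorem inR_apply (x : ℝ) : inR x = tp 1 x := rfl

theorem exists_diag_one (x : ℝ) (hx : IsAlgebraic ℚ x) :
    ∃ ε : TT, mu ε = 1 ∧ ε * tp 1 x = ε * tp x 1 := by
  have hint : IsIntegral ℚ x := hx.isIntegral
  set m := minpoly ℚ x with hm
  have hX : aeval (tp x 1) m = 0 := by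
    rw [← inL_apply, aeval_algHom_apply, hm, minpoly.aeval, map_zero]
  have hY : aeval (tp 1 x) m = 0 := by
    rw [← inR_apply, aeval_algHom_apply, hm, minpoly.aeval, map_zero]
  set P : TT[X] := m.map (algebraMap ℚ TT) with hP
  have hroot : P.IsRoot (tp x 1) := by
    rw [IsRoot, hP, eval_map_algebraMap]
    exact hX
  obtain ⟨G, hG⟩ := dvd_iff_isRoot.2 hroot
  have h1 : (tp 1 x - tp x 1) * G.eval (tp 1 x) = 0 := by
    have h2 : P.eval (tp 1 x) = 0 := by
      rw [hP, eval_map_algebraMap]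
      exact hY
    rw [hG, eval_mul, eval_sub, eval_X, eval_C] at h2
    exact h2
  have h3 : P.derivative.eval (tp x 1) = G.eval (tp x 1) := by
    rw [hG, derivative_mul]
    simp
  have h4 : ∀ s : TT, mu s = x → mu (G.eval s) = (G.map (mu : TT →+* ℝ)).eval x := by
    intro s hs
    rw [← hs, eval_map]
    exact (eval₂_at_apply (mu : TT →+* ℝ) s).symm
  have h5 : mu (P.derivative.eval (tp x 1)) = aeval x (derivative m) := by
    rw [hP, derivative_map, eval_map_algebraMap]
    have : tp x 1 = inL x := rfl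
    rw [this, aeval_algHom_apply, inL_apply, mu_tp, mul_one]
  have h6 : aeval x (derivative m) ≠ 0 :=
    (minpoly.irreducible hint).separable.aeval_derivative_ne_zero (minpoly.aeval ℚ x)
  have h7 : mu (G.eval (tp 1 x)) = aeval x (derivative m) := by
    rw [h4 _ (by rw [mu_tp, one_mul]), ← h4 (tp x 1) (by rw [mu_tp, mul_one]), ← h3, h5]
  refine ⟨G.eval (tp 1 x) * tp (aeval x (derivative m))⁻¹ 1, ?_, ?_⟩
  · rw [map_mul, h7, mu_tp, mul_one, mul_inv_cancel₀ h6]
  · have h8 : tp 1 x * G.eval (tp 1 x) = tp x 1 * G.eval (tp 1 x) := by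
      rw [sub_mul] at h1
      exact sub_eq_zero.1 h1
    calc G.eval (tp 1 x) * tp (aeval x (derivative m))⁻¹ 1 * tp 1 x
        = (tp 1 x * G.eval (tp 1 x)) * tp (aeval x (derivative m))⁻¹ 1 := by ring
      _ = (tp x 1 * G.eval (tp 1 x)) * tp (aeval x (derivative m))⁻¹ 1 := by rw [h8]
      _ = _ := by ring

theorem exists_diag (S : Finset ℝ) (hS : ∀ x ∈ S, IsAlgebraic ℚ x) :
    ∃ ε : TT, mu ε = 1 ∧ ∀ x ∈ S, ε * tp 1 x = ε * tp x 1 := by
  classical
  induction S using Finset.induction_on with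
  | empty => exact ⟨1, map_one _, by simp⟩
  | insert x S _ ih =>
    obtain ⟨ε, h1, h2⟩ := ih fun y hy => hS y (Finset.mem_insert_of_mem hy)
    obtain ⟨ε', h1', h2'⟩ := exists_diag_one x (hS x (Finset.mem_insert_self _ _))
    refine ⟨ε * ε', by rw [map_mul, h1, h1', one_mul], fun y hy => ?_⟩
    rcases Finset.mem_insert.1 hy with rfl | hy
    · rw [mul_assoc, h2', mul_assoc]
    · calc ε * ε' * tp 1 y = ε * tp 1 y * ε' := by ring
        _ = ε * tp y 1 * ε' := by rw [h2 y hy]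
        _ = _ := by ring

theorem exists_sum_tp (s : TT) : ∃ (n : ℕ) (p q : Fin n → ℝ), s = ∑ k, tp (p k) (q k) := by
  induction s using TT_induction with
  | h0 => exact ⟨0, fun k => k.elim0, fun k => k.elim0, by simp⟩
  | h1 x y => exact ⟨1, fun _ => x, fun _ => y, by simp⟩
  | h2 s t hs ht =>
    obtain ⟨n, p, q, rfl⟩ := hs
    obtain ⟨m, p', q', rfl⟩ := ht
    refine ⟨n + m, Fin.append p p', Fin.append q q', ?_⟩
    rw [Fin.sum_univ_add]
    simp

end Vale.Agent.Lib.P058
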