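import Vale.Agent.Lib.P058L.AlgA
import Vale.Agent.Lib.P058.Main

/-!
# P058L, module AlgB: spherical sets with algebraic distances satisfy the criterion

PROOF.  Fix `a₀ ∈ A`; `h a x = ⟪x - a₀, a - a₀⟫`.  For every vector `v` there are `t a` with
`⟪x - a₀, v⟫ = ∑ a, t a * h a x` for `x ∈ A` (project `v` to the span of the `a - a₀`).  With `v` a unit
vector: `⟪x - a₀, y - a₀⟫ = ∑ a b, m a b * h a x * h b y` on `A`; with `v = z - a₀`, `z` the centre:
`dist x a₀ ^ 2 = ∑ a, r a * h a x` on `A`.  Let `ε` be as in `exists_diag` for the algebraic numbers `h a x`.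
The tensor `ε * (∑ a b, m a b • h a ⊗ h b - ∑ a, r a • h a ⊗ 1)` has value `0` at all `x ∈ A` and
cost `dist x y ^ 2`.
-/

namespace Vale.Agent.Lib.P058

/-- the affine function `x ↦ ⟪x - a₀, v⟫` -/
noncomputable def algH {d : ℕ} (a₀ v : EuclideanSpace ℝ (Fin d)) :
    EuclideanSpace ℝ (Fin d) →ᵃ[ℝ] ℝ :=
  (innerSL ℝ v).toLinearMap.toAffineMap + AffineMap.const ℝ _ (-(inner ℝ v a₀ : ℝ))

theorem algH_apply {d : ℕ} (a₀ v x : EuclideanSpace ℝ (Fin d)) :
    algH a₀ v x = inner ℝ v (x - a₀) := by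
  show inner ℝ v x + -(inner ℝ v a₀) = _
  rw [inner_sub_right]
  ring

theorem alg_rep {d : ℕ} (A : Set (EuclideanSpace ℝ (Fin d))) [Fintype A]
    (a₀ v : EuclideanSpace ℝ (Fin d)) :
    ∃ t : A → ℝ, ∀ x ∈ A, inner ℝ v (x - a₀) =
      ∑ a : A, t a * inner ℝ ((a : EuclideanSpace ℝ (Fin d)) - a₀) (x - a₀) := by
  set W : Submodule ℝ (EuclideanSpace ℝ (Fin d)) :=
    Submodule.span ℝ (Set.range (fun a : A => (a : EuclideanSpace ℝ (Fin d)) - a₀)) with hW
  have h1 : W.starProjection v ∈ W := W.starProjection_apply_mem v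
  rw [hW] at h1
  obtain ⟨t, ht⟩ := (Submodule.mem_span_range_iff_exists_fun ℝ).1 h1
  refine ⟨t, fun x hx => ?_⟩
  have h2 : x - a₀ ∈ W := Submodule.subset_span ⟨⟨x, hx⟩, rfl⟩
  have h3 : inner ℝ (v - W.starProjection v) (x - a₀) = (0 : ℝ) :=
    Submodule.starProjection_inner_eq_zero v (x - a₀) h2
  rw [inner_sub_left, sub_eq_zero] at h3
  rw [h3, ← ht, sum_inner]
  refine Finset.sum_congr rfl fun a _ => ?_
  rw [real_inner_smul_left]

theorem alg_gram {d : ℕ} (A : Set (EuclideanSpace ℝ (Fin d))) [Fintype A]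
    (a₀ : EuclideanSpace ℝ (Fin d)) :
    ∃ m : A → A → ℝ, ∀ x ∈ A, ∀ y ∈ A, inner ℝ (x - a₀) (y - a₀) =
      ∑ a : A, ∑ b : A, m a b * (inner ℝ ((a : EuclideanSpace ℝ (Fin d)) - a₀) (x - a₀) *
        inner ℝ ((b : EuclideanSpace ℝ (Fin d)) - a₀) (y - a₀)) := by
  choose t ht using fun i : Fin d => alg_rep A a₀ (EuclideanSpace.single i (1 : ℝ))
  refine ⟨fun a b => ∑ i, t i a * t i b, fun x hx y hy => ?_⟩
  have h1 : (inner ℝ (x - a₀) (y - a₀) : ℝ) = ∑ i, inner ℝ (EuclideanSpace.single i (1 : ℝ)) (x - a₀) *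
      inner ℝ (EuclideanSpace.single i (1 : ℝ)) (y - a₀) := by
    rw [PiLp.inner_apply]
    refine Finset.sum_congr rfl fun i _ => ?_
    rw [EuclideanSpace.inner_single_left, EuclideanSpace.inner_single_left]
    simp [mul_comm]
  rw [h1]
  have h2 : ∀ i, (inner ℝ (EuclideanSpace.single i (1 : ℝ)) (x - a₀) *
      inner ℝ (EuclideanSpace.single i (1 : ℝ)) (y - a₀) : ℝ)
      = ∑ a : A, ∑ b : A, t i a * t i b *
        (inner ℝ ((a : EuclideanSpace ℝ (Fin d)) - a₀) (x - a₀) *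
        inner ℝ ((b : EuclideanSpace ℝ (Fin d)) - a₀) (y - a₀)) := by
    intro i
    rw [ht i x hx, ht i y hy, Finset.sum_mul_sum]
    refine Finset.sum_congr rfl fun a _ => Finset.sum_congr rfl fun b _ => ?_
    ring
  rw [Finset.sum_congr rfl fun i _ => h2 i, Finset.sum_comm]
  refine Finset.sum_congr rfl fun a _ => ?_
  rw [Finset.sum_comm]
  refine Finset.sum_congr rfl fun b _ => ?_
  rw [Finset.sum_mul]

theorem alg_isGood_of_fintype {d : ℕ} (A : Set (EuclideanSpace ℝ (Fin d))) {κ : Type} [Fintype κ]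
    (f g : κ → EuclideanSpace ℝ (Fin d) →ᵃ[ℝ] ℝ)
    (h1 : ∀ x ∈ A, ∀ y ∈ A, ∑ k, (f k x - f k y) * (g k x - g k y) = dist x y ^ 2)
    (h2 : ∀ x ∈ A, ∀ y ∈ A, ∑ k, tp (f k x) (g k x) = ∑ k, tp (f k y) (g k y)) :
    IsGood A := by
  let e := Fintype.equivFin κ
  refine ⟨Fintype.card κ, fun k => f (e.symm k), fun k => g (e.symm k), ?_, ?_⟩
  · intro x hx y hy
    rw [← h1 x hx y hy]
    exact Equiv.sum_comp e.symm (fun k => (f k x - f k y) * (g k x - g k y))
  · intro φ x hx y hy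
    have e1 := Equiv.sum_comp e.symm (fun k => f k x * φ (g k x))
    have e2 := Equiv.sum_comp e.symm (fun k => f k y * φ (g k y))
    rw [e1, e2]
    have e3 := congrArg (bfun φ) (h2 x hx y hy)
    rw [map_sum, map_sum] at e3
    simpa only [bfun_tp] using e3

theorem isGood_of_algebraic_sq {d : ℕ} (A : Set (EuclideanSpace ℝ (Fin d))) (hfin : A.Finite)
    (hne : A.Nonempty) (hsph : IsSpherical A)
    (halg : ∀ x ∈ A, ∀ y ∈ A, IsAlgebraic ℚ (dist x y ^ 2)) : IsGood A := by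
  classical
  have : Fintype A := hfin.fintype
  obtain ⟨a₀, ha₀⟩ := hne
  obtain ⟨z, ρ, hz⟩ := hsph
  -- the values of the functions
  set h : A → EuclideanSpace ℝ (Fin d) → ℝ := fun a x =>
    inner ℝ ((a : EuclideanSpace ℝ (Fin d)) - a₀) (x - a₀) with hh
  have hinner : ∀ u v : EuclideanSpace ℝ (Fin d), (inner ℝ (u - a₀) (v - a₀) : ℝ)
      = (dist u a₀ ^ 2 + dist v a₀ ^ 2 - dist u v ^ 2) / 2 := by
    intro u v
    have e1 := norm_sub_sq_real (u - a₀) (v - a₀)
    rw [sub_sub_sub_cancel_right] at e1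
    rw [dist_eq_norm, dist_eq_norm, dist_eq_norm]
    linarith
  have hval : ∀ (a : A), ∀ x ∈ A, IsAlgebraic ℚ (h a x) := by
    intro a x hx
    have e1 : h a x = (dist (a : EuclideanSpace ℝ (Fin d)) a₀ ^ 2 + dist x a₀ ^ 2
        - dist (a : EuclideanSpace ℝ (Fin d)) x ^ 2) / 2 := hinner a x
    rw [e1]
    have e2 : IsAlgebraic ℚ ((2 : ℝ)⁻¹) := by
      have : ((2 : ℝ)⁻¹) = algebraMap ℚ ℝ 2⁻¹ := by simp
      rw [this]
      exact isAlgebraic_algebraMap _
    rw [div_eq_mul_inv]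
    exact ((((halg a a.2 a₀ ha₀).add (halg x hx a₀ ha₀)).sub (halg a a.2 x hx))).mul e2
  obtain ⟨ε, hε1, hε2⟩ := exists_diag
    (Finset.univ.image (fun p : A × A => h p.1 p.2)) (by
      intro t ht
      obtain ⟨p, -, rfl⟩ := Finset.mem_image.1 ht
      exact hval p.1 p.2 p.2.2)
  have hε3 : ∀ (a : A), ∀ x ∈ A, ε * tp 1 (h a x) = ε * tp (h a x) 1 := by
    intro a x hx
    exact hε2 _ (Finset.mem_image.2 ⟨(a, ⟨x, hx⟩), Finset.mem_univ _, rfl⟩)
  obtain ⟨n, p, q, hpq⟩ := exists_sum_tp ε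
  obtain ⟨m, hm⟩ := alg_gram A a₀
  obtain ⟨r, hr⟩ := alg_rep A a₀ (z - a₀)
  have hsq : ∀ x ∈ A, dist x a₀ ^ 2 = ∑ a : A, (2 * r a) * h a x := by
    intro x hx
    have e1 : inner ℝ (z - a₀) (x - a₀) = ∑ a : A, r a * h a x := hr x hx
    have e2 := hinner z x
    have e3 : dist z a₀ = ρ := by rw [dist_comm]; exact hz a₀ ha₀
    have e4 : dist z x = ρ := by rw [dist_comm]; exact hz x hx
    rw [e3, e4, e1] at e2
    simp only [mul_assoc, ← Finset.mul_sum]
    linarith
  have hsq' : ∀ x ∈ A, ∑ a : A, ∑ b : A, m a b * (h a x * h b x) = ∑ a : A, (2 * r a) * h a x := by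
    intro x hx
    rw [← hm x hx x hx, ← hsq x hx, hinner]
    simp
  -- the functions
  let f : Fin n × ((A × A) ⊕ A) → EuclideanSpace ℝ (Fin d) →ᵃ[ℝ] ℝ := fun k =>
    Sum.elim (fun ab : A × A => (p k.1 * m ab.1 ab.2) • algH a₀ ((ab.1 : EuclideanSpace ℝ (Fin d)) - a₀))
      (fun a : A => (-(p k.1 * (2 * r a))) • algH a₀ ((a : EuclideanSpace ℝ (Fin d)) - a₀)) k.2
  let g : Fin n × ((A × A) ⊕ A) → EuclideanSpace ℝ (Fin d) →ᵃ[ℝ] ℝ := fun k =>
    Sum.elim (fun ab : A × A => (q k.1) • algH a₀ ((ab.2 : EuclideanSpace ℝ (Fin d)) - a₀))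
      (fun _ : A => AffineMap.const ℝ _ (q k.1)) k.2
  have hf1 : ∀ k a b x, f (k, Sum.inl (a, b)) x = p k * m a b * h a x := by
    intro k a b x
    show (p k * m a b) * algH a₀ _ x = _
    rw [algH_apply]
  have hf2 : ∀ k a x, f (k, Sum.inr a) x = -(p k * (2 * r a)) * h a x := by
    intro k a x
    show -(p k * (2 * r a)) * algH a₀ _ x = _
    rw [algH_apply]
  have hg1 : ∀ k a b x, g (k, Sum.inl (a, b)) x = q k * h b x := by
    intro k a b x
    show q k * algH a₀ _ x = _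
    rw [algH_apply]
  have hg2 : ∀ k a x, g (k, Sum.inr a) x = q k := fun k a x => rfl
  have hmu : ∑ k, p k * q k = 1 := by
    rw [← hε1, hpq, map_sum]
    simp only [mu_tp]
  refine alg_isGood_of_fintype A f g (fun x hx y hy => ?_) (fun x hx y hy => ?_)
  · rw [Fintype.sum_prod_type]
    have e1 : ∀ k, ∑ s : (A × A) ⊕ A, (f (k, s) x - f (k, s) y) * (g (k, s) x - g (k, s) y)
        = p k * q k * dist x y ^ 2 := by
      intro k
      rw [Fintype.sum_sum_type, Fintype.sum_prod_type]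
      simp only [hf1, hf2, hg1, hg2, sub_self, mul_zero, Finset.sum_const_zero, add_zero]
      have e2 : dist x y ^ 2 = inner ℝ (x - a₀) (x - a₀) - inner ℝ (x - a₀) (y - a₀)
          - inner ℝ (y - a₀) (x - a₀) + inner ℝ (y - a₀) (y - a₀) := by
        rw [hinner, hinner, hinner, hinner, dist_comm y x]
        simp
        ring
      rw [e2, hm x hx x hx, hm x hx y hy, hm y hy x hx, hm y hy y hy, mul_add, mul_sub, mul_sub,
        Finset.mul_sum, Finset.mul_sum, Finset.mul_sum, Finset.mul_sum, ← Finset.sum_sub_distrib,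
        ← Finset.sum_sub_distrib, ← Finset.sum_add_distrib]
      refine Finset.sum_congr rfl fun a _ => ?_
      rw [Finset.mul_sum, Finset.mul_sum, Finset.mul_sum, Finset.mul_sum, ← Finset.sum_sub_distrib,
        ← Finset.sum_sub_distrib, ← Finset.sum_add_distrib]
      refine Finset.sum_congr rfl fun b _ => ?_
      simp only [hh]
      ring
    rw [Finset.sum_congr rfl fun k _ => e1 k, ← Finset.sum_mul, hmu, one_mul]
  · have key : ∀ x ∈ A, ∑ k, tp (f k x) (g k x) = 0 := by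
      intro x hx
      rw [Fintype.sum_prod_type]
      have e1 : ∀ k, ∑ s : (A × A) ⊕ A, tp (f (k, s) x) (g (k, s) x)
          = tp (p k) (q k) * (∑ a : A, ∑ b : A, tp (m a b * h a x) (h b x)
            - ∑ a : A, tp ((2 * r a) * h a x) 1) := by
        intro k
        rw [Fintype.sum_sum_type, Fintype.sum_prod_type, mul_sub, Finset.mul_sum, Finset.mul_sum,
          sub_eq_add_neg, ← Finset.sum_neg_distrib]
        congr 1
        · refine Finset.sum_congr rfl fun a _ => ?_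
          rw [Finset.mul_sum]
          refine Finset.sum_congr rfl fun b _ => ?_
          rw [hf1, hg1, tp_mul_tp]
          congr 1
          ring
        · refine Finset.sum_congr rfl fun a _ => ?_
          rw [hf2, hg2, tp_mul_tp, mul_one]
          have e3 : -(p k * (2 * r a)) * h a x = 0 - p k * ((2 * r a) * h a x) := by ring
          rw [e3, tp_sub_left, tp_zero_left, zero_sub]
      rw [Finset.sum_congr rfl fun k _ => e1 k, ← Finset.sum_mul, ← hpq, mul_sub, Finset.mul_sum]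
      have e2 : ∀ a : A, ε * ∑ b : A, tp (m a b * h a x) (h b x)
          = ε * ∑ b : A, tp (m a b * (h a x * h b x)) 1 := by
        intro a
        rw [Finset.mul_sum, Finset.mul_sum]
        refine Finset.sum_congr rfl fun b _ => ?_
        calc ε * tp (m a b * h a x) (h b x)
            = ε * tp 1 (h b x) * tp (m a b * h a x) 1 := by
              rw [mul_assoc, tp_mul_tp, one_mul, mul_one]
          _ = ε * tp (h b x) 1 * tp (m a b * h a x) 1 := by rw [hε3 b x hx]
          _ = ε * tp (m a b * (h a x * h b x)) 1 := by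
              rw [mul_assoc, tp_mul_tp, one_mul]
              congr 2
              ring
      rw [Finset.sum_congr rfl fun a _ => e2 a, ← Finset.mul_sum, ← mul_sub]
      have e4 : ∀ (c : A → ℝ), ∑ a, tp (c a) 1 = tp (∑ a, c a) 1 := by
        intro c
        have e5 : ∀ s : Finset A, ∑ a ∈ s, tp (c a) 1 = tp (∑ a ∈ s, c a) 1 := by
          intro s
          induction s using Finset.induction_on with
          | empty => simp
          | insert a s ha ih => rw [Finset.sum_insert ha, Finset.sum_insert ha, ih, tp_add_left]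
        exact e5 _
      simp only [e4]
      rw [hsq' x hx, sub_self, mul_zero]
    rw [key x hx, key y hy]

theorem isGood_of_algebraic {d : ℕ} (A : Set (EuclideanSpace ℝ (Fin d))) (hfin : A.Finite)
    (hne : A.Nonempty) (hsph : IsSpherical A)
    (halg : ∀ x ∈ A, ∀ y ∈ A, IsAlgebraic ℚ (dist x y)) : IsGood A :=
  isGood_of_algebraic_sq A hfin hne hsph fun x hx y hy => (halg x hx y hy).pow 2

end Vale.Agent.Lib.P058
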