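import Vale.Agent.Lib.P058C.SDef
import Vale.Agent.Lib.P058.Main

/-!
# P058L, module AlgGood: spherical sets with algebraic distances satisfy the criterion

PROOF.  Choose points `a_0, ..., a_m ∈ A` that are affinely independent and span the affine span of `A`
(`exists_affineIndependent`); `e_i = a_i - a_0` (`i = 1..m`) is a basis of the direction `E₁` of `A`.
Let `K ⊆ ℝ` be the subfield `ℚ(dist x y ^ 2 : x y ∈ A)` (`IntermediateField.adjoin ℚ`), a finite extension of `ℚ`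
(finitely many algebraic generators, `IntermediateField.finiteDimensional_adjoin`).
`G i j = ⟪e_i, e_j⟫ ∈ K` (`⟪x - z, y - z⟫ = (dist x z ^ 2 + dist y z ^ 2 - dist x y ^ 2) / 2`), invertible (basis).
Let `ξ_i : EuclideanSpace ℝ (Fin d) →ᵃ ℝ` be affine with `x - a_0 = ∑ ξ_i x • e_i` for `x ∈ A` (linear
coordinates w.r.t. the `e_i`, extended linearly).  For `x ∈ A`: `ξ_i x ∈ K` (`∑ i, ξ_i x * G i j = ⟪x - a_0, e_j⟫ ∈ K`,
Cramer / `G⁻¹` has entries in `K`).  `dist x y ^ 2 = ∑ i j, G i j * (ξ_i x - ξ_i y) * (ξ_j x - ξ_j y)` on `A`.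
Since `A` is spherical (centre `z`, radius `ρ`), `dist x a_0 ^ 2 = 2 ⟪x - a_0, z - a_0⟫ = ∑ i, ξ_i x * l_i` for
`x ∈ A`, `l_i = 2 ⟪e_i, z - a_0⟫`.
Idempotent: there are finitely many `u_k, w_k ∈ K` with `∑ k, u_k * w_k = 1` and
`∑ k, tp (s * u_k) w_k = ∑ k, tp u_k (s * w_k)` for all `s ∈ K` (in `TT`; the map `K ⊗[ℚ] K → TT`):
`Algebra.FormallyUnramified.elem ℚ K : K ⊗[ℚ] K` (file `Mathlib/RingTheory/Unramified/Finite.lean`:
`one_tmul_mul_elem`, `lmul_elem`; `K` is separable over `ℚ`, so formally unramified), or dual bases for the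
trace form, or: minimal polynomial of a primitive element.
The lists for `IsGood`: all triples `(i, j, k)`: `f = u_k * G i j * ξ_i`, `g = w_k * ξ_j`, and all pairs `(i, k)`:
`f = - u_k * l_i * ξ_i`, `g = w_k` (constant function).
(1) `∑ (f x - f y) (g x - g y) = ∑ k u_k w_k * ∑ G i j (ξ_i x - ξ_i y) (ξ_j x - ξ_j y) + 0 = dist x y ^ 2`.
(2) For additive `φ` and `x ∈ A`, `B (tp s t) = s * φ t` (`bfun φ`): for `s ∈ K`, `r : ℝ`:
`∑ k, r * u_k * φ (w_k * s) = ∑ k, r * s * u_k * φ (w_k)` (idempotent identity, `bfun φ` applied to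
`tp r 1 * ...`).  So `∑_{i,j,k} u_k G i j ξ_i x φ (w_k ξ_j x) = ∑ k, u_k (∑ i j, G i j ξ_i x ξ_j x) φ (w_k)
= ∑ k, u_k (dist x a_0 ^ 2) φ (w_k)` (take `s = ξ_j x ∈ K`), and the second family gives
`- ∑_{i,k} u_k l_i ξ_i x φ (w_k) = - ∑ k, u_k (dist x a_0 ^ 2) φ (w_k)`.  The sum is `0` for all `x ∈ A`.
(Finite index types: `IsGood` wants `Fin n`; use `Finset.equivFin`/`Fintype.equivFin` for the sum type
`(Fin m × Fin m × κ) ⊕ (Fin m × κ)`.)
-/

namespace Vale.Agent.Lib.P058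

/-- the criterion with an arbitrary finite index type -/
theorem isGood_of_fintype {d : ℕ} (A : Set (EuclideanSpace ℝ (Fin d))) {κ : Type} [Fintype κ]
    (f g : κ → EuclideanSpace ℝ (Fin d) →ᵃ[ℝ] ℝ)
    (h1 : ∀ x ∈ A, ∀ y ∈ A, ∑ k, (f k x - f k y) * (g k x - g k y) = dist x y ^ 2)
    (h2 : ∀ φ : ℝ →+ ℝ, ∀ x ∈ A, ∀ y ∈ A, ∑ k, f k x * φ (g k x) = ∑ k, f k y * φ (g k y)) :
    IsGood A := by
  let e := Fintype.equivFin κ
  refine ⟨Fintype.card κ, fun k => f (e.symm k), fun k => g (e.symm k), ?_, ?_⟩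
  · intro x hx y hy
    rw [← h1 x hx y hy]
    exact Equiv.sum_comp e.symm (fun k => (f k x - f k y) * (g k x - g k y))
  · intro φ x hx y hy
    have e1 := Equiv.sum_comp e.symm (fun k => f k x * φ (g k x))
    have e2 := Equiv.sum_comp e.symm (fun k => f k y * φ (g k y))
    rw [e1, e2]
    exact h2 φ x hx y hy

/-- the separability idempotent of a number field contained in `ℝ` -/
theorem exists_idem (K : IntermediateField ℚ ℝ) [FiniteDimensional ℚ K] :
    ∃ (n : ℕ) (u w : Fin n → ℝ), (∀ k, u k ∈ K) ∧ (∀ k, w k ∈ K) ∧ ∑ k, u k * w k = 1 ∧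
      ∀ s ∈ K, ∑ k, tp (s * u k) (w k) = ∑ k, tp (u k) (s * w k) := by
  classical
  have : Algebra.FormallyUnramified ℚ K := Algebra.FormallyUnramified.of_isSeparable ℚ K
  obtain ⟨S, hS⟩ := TensorProduct.exists_finset (Algebra.FormallyUnramified.elem ℚ K)
  let e := S.equivFin
  refine ⟨S.card, fun k => ((e.symm k).1.1 : ℝ), fun k => ((e.symm k).1.2 : ℝ), ?_, ?_, ?_, ?_⟩
  · intro k
    exact (e.symm k).1.1.2
  · intro k
    exact (e.symm k).1.2.2
  · rw [Equiv.sum_comp e.symm (fun k : S => ((k.1.1 : K) : ℝ) * ((k.1.2 : K) : ℝ))]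
    have h1 := Algebra.FormallyUnramified.lmul_elem (R := ℚ) (S := K)
    rw [hS, map_sum] at h1
    have h2 := congrArg (fun x : K => (x : ℝ)) h1
    simp only [Algebra.TensorProduct.lmul'_apply_tmul] at h2
    rw [Finset.sum_coe_sort S (fun k => ((k.1 : K) : ℝ) * ((k.2 : K) : ℝ))]
    push_cast at h2
    exact h2
  · intro s hs
    rw [Equiv.sum_comp e.symm (fun k : S => tp (s * ((k.1.1 : K) : ℝ)) ((k.1.2 : K) : ℝ)),
      Equiv.sum_comp e.symm (fun k : S => tp ((k.1.1 : K) : ℝ) (s * ((k.1.2 : K) : ℝ))),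
      Finset.sum_coe_sort S (fun k => tp (s * ((k.1 : K) : ℝ)) ((k.2 : K) : ℝ)),
      Finset.sum_coe_sort S (fun k => tp ((k.1 : K) : ℝ) (s * ((k.2 : K) : ℝ)))]
    have h1 := Algebra.FormallyUnramified.one_tmul_mul_elem (R := ℚ) (S := K) ⟨s, hs⟩
    rw [hS, Finset.mul_sum, Finset.mul_sum] at h1
    have h2 := congrArg (Algebra.TensorProduct.map K.val K.val) h1
    rw [map_sum, map_sum] at h2
    simp only [Algebra.TensorProduct.tmul_mul_tmul, one_mul, Algebra.TensorProduct.map_tmul] at h2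
    exact h2.symm

/-- the left inverse of an invertible matrix with entries in `K` has entries in `K` -/
private theorem exists_leftInv {ι : Type} [Fintype ι] [DecidableEq ι] (K : IntermediateField ℚ ℝ)
    (G : Matrix ι ι ℝ) (hG : ∀ i j, G i j ∈ K) (hdet : G.det ≠ 0) :
    ∃ H : Matrix ι ι ℝ, (∀ i j, H i j ∈ K) ∧ H * G = 1 := by
  let G' : Matrix ι ι K := Matrix.of fun i j => ⟨G i j, hG i j⟩
  have h1 : G'.map (algebraMap K ℝ) = G := by
    ext i j
    rfl
  have h2 : algebraMap K ℝ G'.det = G.det := by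
    rw [RingHom.map_det, RingHom.mapMatrix_apply, h1]
  have h3 : G'.det ≠ 0 := by
    intro h
    rw [h, map_zero] at h2
    exact hdet h2.symm
  refine ⟨(G'⁻¹).map (algebraMap K ℝ), fun i j => (G'⁻¹ i j).2, ?_⟩
  rw [← h1, ← Matrix.map_mul, Matrix.nonsing_inv_mul _ (isUnit_iff_ne_zero.2 h3)]
  exact Matrix.map_one _ (map_zero _) (map_one _)

theorem isGood_of_algebraic {d : ℕ} (A : Set (EuclideanSpace ℝ (Fin d))) (hfin : A.Finite)
    (hne : A.Nonempty) (hsph : IsSpherical A)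
    (halg : ∀ x ∈ A, ∀ y ∈ A, IsAlgebraic ℚ (dist x y)) : IsGood A := by
  classical
  obtain ⟨a₀, ha₀⟩ := hne
  obtain ⟨z, ρ, hz⟩ := hsph
  -- the field
  set S : Set ℝ := (fun p : EuclideanSpace ℝ (Fin d) × EuclideanSpace ℝ (Fin d) =>
    dist p.1 p.2 ^ 2) '' (A ×ˢ A) with hS
  have hSfin : S.Finite := (hfin.prod hfin).image _
  have : Finite S := hSfin.to_subtype
  set K : IntermediateField ℚ ℝ := IntermediateField.adjoin ℚ S with hK
  have hKfd : FiniteDimensional ℚ K := by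
    refine IntermediateField.finiteDimensional_adjoin ?_
    rintro _ ⟨⟨x, y⟩, ⟨hx, hy⟩, rfl⟩
    exact ((halg x hx y hy).pow 2).isIntegral
  have hdK : ∀ x ∈ A, ∀ y ∈ A, dist x y ^ 2 ∈ K := by
    intro x hx y hy
    exact IntermediateField.subset_adjoin ℚ S ⟨(x, y), ⟨hx, hy⟩, rfl⟩
  have hinK : ∀ x ∈ A, ∀ y ∈ A, inner ℝ (x - a₀) (y - a₀) ∈ K := by
    intro x hx y hy
    have h1 : inner ℝ (x - a₀) (y - a₀) = (dist x a₀ ^ 2 + dist y a₀ ^ 2 - dist x y ^ 2) / 2 := by
      have h2 := @norm_sub_sq_real _ _ _ (x - a₀) (y - a₀)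
      have h3 : x - a₀ - (y - a₀) = x - y := by abel
      rw [h3] at h2
      rw [dist_eq_norm, dist_eq_norm, dist_eq_norm]
      linarith
    rw [h1]
    have h2K : (2 : ℝ) ∈ K := by
      have := K.natCast_mem 2
      exact_mod_cast this
    exact K.div_mem (K.sub_mem (K.add_mem (hdK x hx a₀ ha₀) (hdK y hy a₀ ha₀)) (hdK x hx y hy)) h2K
  -- the basis
  obtain ⟨t, hts, -, htspan, htli⟩ := Submodule.exists_finset_span_eq_linearIndepOn ℝ
    ((fun x => x - a₀) '' A)
  have hte : ∀ i : t, ∃ x ∈ A, x - a₀ = (i : EuclideanSpace ℝ (Fin d)) := fun i => hts i.2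
  set e : t → EuclideanSpace ℝ (Fin d) := fun i => (i : EuclideanSpace ℝ (Fin d)) with he
  have hli : LinearIndependent ℝ e := htli
  set G : Matrix t t ℝ := Matrix.gram ℝ e with hG
  have hGK : ∀ i j, G i j ∈ K := by
    intro i j
    obtain ⟨x, hx, hxi⟩ := hte i
    obtain ⟨y, hy, hyj⟩ := hte j
    rw [hG, Matrix.gram_apply]
    change inner ℝ (i : EuclideanSpace ℝ (Fin d)) (j : EuclideanSpace ℝ (Fin d)) ∈ K
    rw [← hxi, ← hyj]
    exact hinK x hx y hy
  have hdet : G.det ≠ 0 := by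
    rw [hG]
    exact Matrix.det_gram_ne_zero_iff_linearIndependent.2 hli
  obtain ⟨H, hHK, hHG⟩ := exists_leftInv K G hGK hdet
  -- coordinates
  let ξL : t → EuclideanSpace ℝ (Fin d) →ₗ[ℝ] ℝ := fun i => ∑ j, H i j • (innerₛₗ ℝ (e j))
  have hξL : ∀ i v, ξL i v = ∑ j, H i j * inner ℝ (e j) v := by
    intro i v
    simp only [ξL, LinearMap.sum_apply, LinearMap.smul_apply, smul_eq_mul, innerₛₗ_apply_apply]
  have hξe : ∀ i l, ξL i (e l) = if i = l then 1 else 0 := by
    intro i l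
    have h1 := congrFun (congrFun hHG i) l
    rw [Matrix.mul_apply, Matrix.one_apply] at h1
    rw [hξL, ← h1]
    rfl
  have hcoord : ∀ v ∈ Submodule.span ℝ (t : Set (EuclideanSpace ℝ (Fin d))),
      v = ∑ i, ξL i v • e i := by
    intro v hv
    refine Submodule.span_induction ?_ ?_ ?_ ?_ hv
    · intro x hx
      have h1 := hξe
      have h2 : ∑ i, ξL i x • e i = ∑ i, (if i = (⟨x, hx⟩ : t) then (1 : ℝ) else 0) • e i := by
        refine Finset.sum_congr rfl (fun i _ => ?_)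
        rw [← hξe i ⟨x, hx⟩]
      rw [h2]
      simp [he]
    · simp
    · intro x y _ _ hx hy
      simp only [map_add, add_smul, Finset.sum_add_distrib]
      rw [← hx, ← hy]
    · intro r x _ hx
      simp only [map_smul, smul_eq_mul, mul_smul, ← Finset.smul_sum]
      rw [← hx]
  let ξ : t → EuclideanSpace ℝ (Fin d) →ᵃ[ℝ] ℝ := fun i =>
    (ξL i).toAffineMap - AffineMap.const ℝ _ (ξL i a₀)
  have hξ : ∀ i x, ξ i x = ξL i (x - a₀) := by
    intro i x
    rw [map_sub]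
    rfl
  have hspan : ∀ x ∈ A, x - a₀ = ∑ i, ξ i x • e i := by
    intro x hx
    have h1 : x - a₀ ∈ Submodule.span ℝ (t : Set (EuclideanSpace ℝ (Fin d))) := by
      rw [htspan]
      exact Submodule.subset_span ⟨x, hx, rfl⟩
    have h2 := hcoord _ h1
    simp only [hξ]
    exact h2
  have hξK : ∀ x ∈ A, ∀ i, ξ i x ∈ K := by
    intro x hx i
    rw [hξ, hξL]
    refine sum_mem (fun j _ => K.mul_mem (hHK i j) ?_)
    obtain ⟨y, hy, hyj⟩ := hte j
    change inner ℝ (j : EuclideanSpace ℝ (Fin d)) (x - a₀) ∈ K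
    rw [← hyj]
    exact hinK y hy x hx
  have hnorm : ∀ c : t → ℝ, inner ℝ (∑ i, c i • e i) (∑ i, c i • e i) =
      ∑ i, ∑ j, G i j * c i * c j := by
    intro c
    rw [sum_inner]
    refine Finset.sum_congr rfl (fun i _ => ?_)
    rw [inner_sum]
    refine Finset.sum_congr rfl (fun j _ => ?_)
    rw [real_inner_smul_left, real_inner_smul_right, hG, Matrix.gram_apply]
    ring
  -- distances
  have hd1 : ∀ x ∈ A, ∀ y ∈ A, dist x y ^ 2 =
      ∑ i, ∑ j, G i j * (ξ i x - ξ i y) * (ξ j x - ξ j y) := by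
    intro x hx y hy
    rw [← hnorm (fun i => ξ i x - ξ i y)]
    have h1 : x - y = ∑ i, (ξ i x - ξ i y) • e i := by
      have h2 : x - y = (x - a₀) - (y - a₀) := by abel
      rw [h2, hspan x hx, hspan y hy, ← Finset.sum_sub_distrib]
      refine Finset.sum_congr rfl (fun i _ => ?_)
      rw [sub_smul]
    rw [← h1, dist_eq_norm, real_inner_self_eq_norm_sq]
  have hd2 : ∀ x ∈ A, dist x a₀ ^ 2 = ∑ i, ∑ j, G i j * ξ i x * ξ j x := by
    intro x hx
    rw [← hnorm (fun i => ξ i x), ← hspan x hx, dist_eq_norm, real_inner_self_eq_norm_sq]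
  set l : t → ℝ := fun i => 2 * inner ℝ (e i) (z - a₀) with hl
  have hd3 : ∀ x ∈ A, dist x a₀ ^ 2 = ∑ i, ξ i x * l i := by
    intro x hx
    have h1 := hz x hx
    have h2 := hz a₀ ha₀
    have h3 : inner ℝ (x - a₀) (z - a₀) = ∑ i, ξ i x * inner ℝ (e i) (z - a₀) := by
      conv_lhs => rw [hspan x hx]
      rw [sum_inner]
      refine Finset.sum_congr rfl (fun i _ => ?_)
      rw [real_inner_smul_left]
    have h4 := @norm_sub_sq_real _ _ _ (x - a₀) (z - a₀)
    have h5 : x - a₀ - (z - a₀) = x - z := by abel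
    rw [h5, ← dist_eq_norm, ← dist_eq_norm, h1, ← dist_eq_norm z a₀, dist_comm z a₀, h2] at h4
    have h6 : ∑ i, ξ i x * l i = 2 * inner ℝ (x - a₀) (z - a₀) := by
      rw [h3, Finset.mul_sum]
      refine Finset.sum_congr rfl (fun i _ => ?_)
      rw [hl]
      ring
    rw [h6]
    linarith
  -- the idempotent
  obtain ⟨n, u, w, -, -, huw, hid⟩ := exists_idem K
  have hidφ : ∀ φ : ℝ →+ ℝ, ∀ s ∈ K, ∑ k, u k * φ (w k * s) = s * ∑ k, u k * φ (w k) := by
    intro φ s hs
    have h1 := congrArg (bfun φ) (hid s hs)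
    rw [map_sum, map_sum] at h1
    simp only [bfun_tp] at h1
    rw [Finset.mul_sum]
    calc ∑ k, u k * φ (w k * s) = ∑ k, u k * φ (s * w k) := by
          refine Finset.sum_congr rfl (fun k _ => ?_)
          rw [mul_comm (w k) s]
      _ = ∑ k, s * u k * φ (w k) := h1.symm
      _ = _ := by
          refine Finset.sum_congr rfl (fun k _ => ?_)
          ring
  let f : (t × t × Fin n) ⊕ (t × Fin n) → EuclideanSpace ℝ (Fin d) →ᵃ[ℝ] ℝ :=
    Sum.elim (fun p => (u p.2.2 * G p.1 p.2.1) • ξ p.1) (fun p => (-(u p.2 * l p.1)) • ξ p.1)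
  let g : (t × t × Fin n) ⊕ (t × Fin n) → EuclideanSpace ℝ (Fin d) →ᵃ[ℝ] ℝ :=
    Sum.elim (fun p => w p.2.2 • ξ p.2.1) (fun p => AffineMap.const ℝ _ (w p.2))
  refine isGood_of_fintype A f g ?_ ?_
  · intro x hx y hy
    rw [Fintype.sum_sum_type]
    have h2 : ∑ p : t × Fin n, (f (Sum.inr p) x - f (Sum.inr p) y) *
        (g (Sum.inr p) x - g (Sum.inr p) y) = 0 := by
      refine Finset.sum_eq_zero (fun p _ => ?_)
      change _ * (w p.2 - w p.2) = 0
      rw [sub_self, mul_zero]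
    rw [h2, add_zero, Fintype.sum_prod_type, hd1 x hx y hy]
    refine Finset.sum_congr rfl (fun i _ => ?_)
    rw [Fintype.sum_prod_type]
    refine Finset.sum_congr rfl (fun j _ => ?_)
    change ∑ k, ((u k * G i j) * ξ i x - (u k * G i j) * ξ i y) * (w k * ξ j x - w k * ξ j y) = _
    calc ∑ k, ((u k * G i j) * ξ i x - (u k * G i j) * ξ i y) * (w k * ξ j x - w k * ξ j y) =
        ∑ k, (u k * w k) * (G i j * (ξ i x - ξ i y) * (ξ j x - ξ j y)) :=
          Finset.sum_congr rfl (fun k _ => by ring)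
      _ = _ := by rw [← Finset.sum_mul, huw, one_mul]
  · intro φ x hx y hy
    have key : ∀ x ∈ A, ∑ k, f k x * φ (g k x) = 0 := by
      intro x hx
      rw [Fintype.sum_sum_type]
      have h1 : ∑ p : t × t × Fin n, f (Sum.inl p) x * φ (g (Sum.inl p) x) =
          dist x a₀ ^ 2 * ∑ k, u k * φ (w k) := by
        rw [Fintype.sum_prod_type, hd2 x hx, Finset.sum_mul]
        refine Finset.sum_congr rfl (fun i _ => ?_)
        rw [Fintype.sum_prod_type, Finset.sum_mul]
        refine Finset.sum_congr rfl (fun j _ => ?_)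
        change ∑ k, ((u k * G i j) * ξ i x) * φ (w k * ξ j x) = _
        calc ∑ k, ((u k * G i j) * ξ i x) * φ (w k * ξ j x) =
            (G i j * ξ i x) * ∑ k, u k * φ (w k * ξ j x) := by
              rw [Finset.mul_sum]
              exact Finset.sum_congr rfl (fun k _ => by ring)
          _ = _ := by rw [hidφ φ _ (hξK x hx j)]; ring
      have h2 : ∑ p : t × Fin n, f (Sum.inr p) x * φ (g (Sum.inr p) x) =
          - (dist x a₀ ^ 2 * ∑ k, u k * φ (w k)) := by
        rw [Fintype.sum_prod_type, hd3 x hx, Finset.sum_mul, ← Finset.sum_neg_distrib]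
        refine Finset.sum_congr rfl (fun i _ => ?_)
        change ∑ k, (-(u k * l i) * ξ i x) * φ (w k) = _
        rw [Finset.mul_sum, ← Finset.sum_neg_distrib]
        exact Finset.sum_congr rfl (fun k _ => by ring)
      rw [h1, h2, add_neg_cancel]
    rw [key x hx, key y hy]

end Vale.Agent.Lib.P058
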