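import Vale.Agent.Lib.P058L.LDef

/-!
# P058L, module EqA: the dual functions are generalized polynomials

Let `Q c + ∑ j, β j (c j) = 0` for all columns `c` of a space `V` which contains the constants and separates
the rows, and let `Q (c + m) = Q c`.  Then all `card J`-fold differences of the functions `β j` vanish.

PROOF.  For a list `us` in `V`: `difs us Q c + ∑ a, difs (us.map (· a)) (β a) (c a) = 0` (induction).  Take
`us = m • 1 :: [u_i | i ≠ j]`, `u_i = z_i • c_i`, `c_i i = 0`, `c_i j = 1`.  The first term vanishes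
because of the constant column and the terms `a ≠ j` because `u_a a = 0`.
-/

namespace Vale.Agent.Lib.P058

theorem difs_cons {E : Type} [AddCommGroup E] (y : E) (ys : List E) (F : E → ℝ) (x : E) :
    difs (y :: ys) F x = difs ys F (x + y) - difs ys F x := rfl

theorem difs_nil {E : Type} [AddCommGroup E] (F : E → ℝ) (x : E) : difs [] F x = F x := rfl

theorem difs_eqcomm {E : Type} [AddCommGroup E] (a b : E) (G : E → ℝ) :
    dif a (dif b G) = dif b (dif a G) := by
  funext x
  simp only [dif]
  rw [add_right_comm x a b]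
  ring

theorem difs_perm {E : Type} [AddCommGroup E] (F : E → ℝ) {l l' : List E} (h : l.Perm l') :
    difs l F = difs l' F := by
  induction h with
  | nil => rfl
  | cons a _ ih =>
    change dif a (difs _ F) = dif a (difs _ F)
    rw [ih]
  | swap a b l =>
    change dif b (dif a (difs l F)) = dif a (dif b (difs l F))
    exact difs_eqcomm _ _ _
  | trans _ _ ih1 ih2 => exact ih1.trans ih2

/-- a zero shift kills -/
theorem difs_zero_mem {E : Type} [AddCommGroup E] (F : E → ℝ) (ys : List E)
    (h : (0 : E) ∈ ys) (x : E) : difs ys F x = 0 := by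
  induction ys generalizing x with
  | nil => simp at h
  | cons y ys ih =>
    rw [difs_cons]
    rcases List.mem_cons.1 h with h1 | h1
    · rw [← h1, add_zero, sub_self]
    · rw [ih h1, ih h1, sub_self]

/-- invariance is inherited -/
theorem difs_inv {E : Type} [AddCommGroup E] (P : E → Prop) (hP : ∀ x y, P x → P y → P (x + y))
    (F : E → ℝ) (w : E) (h : ∀ c, P c → F (c + w) = F c)
    (us : List E) (hus : ∀ u ∈ us, P u) (c : E) (hc : P c) : difs us F (c + w) = difs us F c := by
  induction us generalizing c with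
  | nil => exact h c hc
  | cons u us ih =>
    rw [difs_cons, difs_cons]
    have hu := hus u List.mem_cons_self
    have hus' : ∀ v ∈ us, P v := fun v hv => hus v (List.mem_cons_of_mem _ hv)
    rw [ih hus' c hc, add_right_comm, ih hus' (c + u) (hP _ _ hc hu)]

theorem eqA_sum {J : Type} [Fintype J] (V : Submodule ℝ (J → ℝ)) (Q : (J → ℝ) → ℝ)
    (β : J → ℝ → ℝ) (h : ∀ c ∈ V, Q c + ∑ j, β j (c j) = 0) (us : List (J → ℝ))
    (hus : ∀ u ∈ us, u ∈ V) (c : J → ℝ) (hc : c ∈ V) :
    difs us Q c + ∑ a, difs (us.map (fun u => u a)) (β a) (c a) = 0 := by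
  induction us generalizing c with
  | nil => exact h c hc
  | cons u us ih =>
    have hu := hus u List.mem_cons_self
    have hus' : ∀ v ∈ us, v ∈ V := fun v hv => hus v (List.mem_cons_of_mem _ hv)
    have h1 := ih hus' (c + u) (V.add_mem hc hu)
    have h2 := ih hus' c hc
    simp only [List.map_cons, difs_cons, Finset.sum_sub_distrib]
    simp only [Pi.add_apply] at h1
    linarith

theorem eqA {J : Type} [Fintype J] [DecidableEq J] (V : Submodule ℝ (J → ℝ))
    (hone : (fun _ => (1 : ℝ)) ∈ V) (hsep : ∀ i j, i ≠ j → ∃ c ∈ V, c i ≠ c j)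
    (Q : (J → ℝ) → ℝ) (hQ : ∀ c ∈ V, ∀ m : ℝ, Q (c + fun _ => m) = Q c)
    (β : J → ℝ → ℝ) (h : ∀ c ∈ V, Q c + ∑ j, β j (c j) = 0) (j : J) (ys : List ℝ)
    (hys : ys.length = Fintype.card J) (t : ℝ) : difs ys (β j) t = 0 := by
  have hconst : ∀ m : ℝ, (fun _ => m : J → ℝ) ∈ V := by
    intro m
    have h1 := V.smul_mem m hone
    have h2 : (m • (fun _ => (1 : ℝ)) : J → ℝ) = fun _ => m := by
      funext i
      simp
    rwa [h2] at h1
  -- separating columns
  have hcol : ∀ i, ∃ c ∈ V, i ≠ j → c i = 0 ∧ c j = 1 := by
    intro i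
    by_cases hij : i = j
    · exact ⟨fun _ => 1, hone, fun h => absurd hij h⟩
    · obtain ⟨c, hc, hne⟩ := hsep i j hij
      refine ⟨(c j - c i)⁻¹ • (c + fun _ => -c i), V.smul_mem _ (V.add_mem hc (hconst _)), fun _ => ?_⟩
      have hne' : c j - c i ≠ 0 := sub_ne_zero.2 (Ne.symm hne)
      refine ⟨by simp, ?_⟩
      simp only [Pi.smul_apply, Pi.add_apply, smul_eq_mul]
      rw [← sub_eq_add_neg, inv_mul_cancel₀ hne']
  choose cc hcc hcc' using hcol
  cases ys with
  | nil =>
    have : Fintype.card J = 0 := by simpa using hys.symm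
    exact absurd (Fintype.card_pos_iff.2 ⟨j⟩) (by omega)
  | cons m zs =>
    set rows : List J := (Finset.univ.erase j).toList with hrows
    have hlen : rows.length = zs.length := by
      rw [hrows, Finset.length_toList, Finset.card_erase_of_mem (Finset.mem_univ j),
        Finset.card_univ, ← hys]
      simp
    have hmem : ∀ i ∈ rows, i ≠ j := by
      intro i hi
      rw [hrows, Finset.mem_toList, Finset.mem_erase] at hi
      exact hi.1
    set us : List (J → ℝ) := List.zipWith (fun i z => z • cc i) rows zs with hus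
    have hget : ∀ k (hk : k < us.length), ∃ (h1 : k < rows.length) (h2 : k < zs.length),
        us[k] = zs[k] • cc rows[k] := by
      intro k hk
      have hk' : k < (List.zipWith (fun i z => z • cc i) rows zs).length := hk
      rw [List.length_zipWith] at hk'
      exact ⟨by omega, by omega, List.getElem_zipWith⟩
    have husV : ∀ u ∈ us, u ∈ V := by
      intro u hu
      obtain ⟨k, hk, rfl⟩ := List.mem_iff_getElem.1 hu
      obtain ⟨h1, h2, h3⟩ := hget k hk
      rw [h3]
      exact V.smul_mem _ (hcc _)
    have hmapj : us.map (fun u => u j) = zs := by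
      apply List.ext_getElem
      · simp [hus, hlen]
      · intro k hk hk'
        obtain ⟨h1, h2, h3⟩ := hget k (by simpa using hk)
        rw [List.getElem_map, h3, Pi.smul_apply, smul_eq_mul,
          (hcc' _ (hmem _ (List.getElem_mem _))).2, mul_one]
    have hzero : ∀ a, a ≠ j → (0 : ℝ) ∈ us.map (fun u => u a) := by
      intro a ha
      have ha' : a ∈ rows := by
        rw [hrows, Finset.mem_toList, Finset.mem_erase]
        exact ⟨ha, Finset.mem_univ a⟩
      obtain ⟨k, hk, hka⟩ := List.mem_iff_getElem.1 ha'
      have hk2 : k < us.length := by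
        rw [hus, List.length_zipWith]
        omega
      rw [List.mem_map]
      refine ⟨us[k], List.getElem_mem _, ?_⟩
      obtain ⟨h1, h2, h3⟩ := hget k hk2
      rw [h3, hka, Pi.smul_apply, smul_eq_mul, (hcc' a ha).1, mul_zero]
    have hall : ∀ u ∈ ((fun _ => m : J → ℝ) :: us), u ∈ V := by
      intro u hu
      rcases List.mem_cons.1 hu with h1 | h1
      · rw [h1]; exact hconst m
      · exact husV u h1
    have key := eqA_sum V Q β h ((fun _ => m : J → ℝ) :: us) hall (fun _ => t) (hconst t)
    have hQ0 : difs ((fun _ => m : J → ℝ) :: us) Q (fun _ => t) = 0 := by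
      rw [difs_cons, sub_eq_zero]
      exact difs_inv (fun c => c ∈ V) (fun x y hx hy => V.add_mem hx hy) Q _
        (fun c hc => hQ c hc m) us husV _ (hconst t)
    rw [hQ0, zero_add, Finset.sum_eq_single j] at key
    · rw [List.map_cons, hmapj] at key
      exact key
    · intro a _ ha
      apply difs_zero_mem
      rw [List.map_cons]
      exact List.mem_cons_of_mem _ (hzero a ha)
    · simp

end Vale.Agent.Lib.P058
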