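import Vale.Agent.Lib.P058L.EqA
import Vale.Agent.Lib.P058C.SDef

/-!
# P058L, module EqB: the degree two part of the dual functions

Let `l (Dm c) + ∑ j, β j (c j) = 0` for the columns of `V`, `∑ j, β j t = 0`.  If
`∑ k, tp (f k j) (g k j)` does not depend on `j` then
`l (fun i j => ∑ k, (f k i - f k j) * (g k i - g k j)) = 0`.

PROOF.  By EqA the `N`-fold differences of the `β j` vanish for some `N ≥ 3`.  If `N > 3` replace `β` by
`β' j t = (β j (2 t) - 2 ^ (N - 1) * β j t) / (4 - 2 ^ (N - 1))`: same identities, and the `(N-1)`-fold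
differences vanish (`difs (2 y_1, ..) = 2 ^ (N - 1) difs (y_1, ..)` for `N - 1` shifts).
If `N = 3` then `b j y z = β j (y + z) - β j y - β j z + β j 0` is biadditive.
-/

namespace Vale.Agent.Lib.P058

open scoped TensorProduct

/-- doubling the shifts of the highest nonvanishing difference -/
theorem difs_double {F : ℝ → ℝ} (N : ℕ) (hF : ∀ ys : List ℝ, ys.length = N + 1 → ∀ x, difs ys F x = 0)
    (ys : List ℝ) : ∀ zs : List ℝ, ys.length + zs.length = N → ∀ x,
      difs (ys.map (fun y => 2 * y) ++ zs) F x = 2 ^ ys.length * difs (ys ++ zs) F x := by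
  induction ys with
  | nil => intro zs _ x; simp
  | cons y ys ih =>
    intro zs hl x
    have hl' : ys.length + (y :: zs).length = N := by
      simp only [List.length_cons] at hl ⊢
      omega
    set H := difs (ys.map (fun y => 2 * y) ++ zs) F with hH
    have h2 : ∀ x, H (x + y + y) - H (x + y) - (H (x + y) - H x) = 0 := by
      intro x
      have := hF (y :: y :: (ys.map (fun y => 2 * y) ++ zs)) (by
        simp only [List.length_cons, List.length_append, List.length_map] at hl ⊢
        omega) x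
      rw [difs_cons, difs_cons, difs_cons] at this
      exact this
    have h1 : difs ((y :: ys).map (fun y => 2 * y) ++ zs) F x = H (x + 2 * y) - H x := rfl
    have h3 : difs (y :: (ys.map (fun y => 2 * y) ++ zs)) F x = H (x + y) - H x := rfl
    have h4 : difs (y :: (ys.map (fun y => 2 * y) ++ zs)) F
        = difs (ys.map (fun y => 2 * y) ++ (y :: zs)) F :=
      difs_perm F List.perm_middle.symm
    have h5 : difs ((y :: ys) ++ zs) F = difs (ys ++ (y :: zs)) F :=
      difs_perm F List.perm_middle.symm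
    rw [h1, h5]
    have h6 := ih (y :: zs) hl' x
    rw [← h4, h3] at h6
    have h7 := h2 x
    have h8 : x + 2 * y = x + y + y := by ring
    rw [h8, List.length_cons, pow_succ]
    linarith

theorem difs_comp_double (F : ℝ → ℝ) (ys : List ℝ) (x : ℝ) :
    difs ys (fun t => F (2 * t)) x = difs (ys.map (fun y => 2 * y)) F (2 * x) := by
  induction ys generalizing x with
  | nil => rfl
  | cons y ys ih =>
    rw [difs_cons, ih, ih, List.map_cons, difs_cons, mul_add]

theorem difs_lin (F G : ℝ → ℝ) (a b : ℝ) (ys : List ℝ) (x : ℝ) :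
    difs ys (fun t => a * F t + b * G t) x = a * difs ys F x + b * difs ys G x := by
  induction ys generalizing x with
  | nil => rfl
  | cons y ys ih =>
    rw [difs_cons, difs_cons, difs_cons, ih, ih]
    ring

theorem difs_reduce (F : ℝ → ℝ) (N : ℕ)
    (hF : ∀ ys : List ℝ, ys.length = N + 1 → ∀ x, difs ys F x = 0) (ys : List ℝ)
    (hys : ys.length = N) (x : ℝ) :
    difs ys (fun t => (4 - 2 ^ N : ℝ)⁻¹ * F (2 * t) + (-(2 ^ N) * (4 - 2 ^ N : ℝ)⁻¹) * F t) x = 0 := by
  rw [difs_lin (fun t => F (2 * t)) F, difs_comp_double]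
  have h1 := difs_double N hF ys [] (by simpa using hys) (2 * x)
  rw [List.append_nil, List.append_nil, hys] at h1
  have h2 := hF (x :: ys) (by simp [hys]) x
  rw [difs_cons] at h2
  have h3 : x + x = 2 * x := by ring
  rw [h3] at h2
  rw [h1]
  have h4 : difs ys F (2 * x) = difs ys F x := by linarith
  rw [h4]
  ring

theorem difs_longer {F : ℝ → ℝ} (N M : ℕ) (hNM : N ≤ M)
    (hF : ∀ ys : List ℝ, ys.length = N → ∀ x, difs ys F x = 0) :
    ∀ ys : List ℝ, ys.length = M → ∀ x, difs ys F x = 0 := by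
  induction M, hNM using Nat.le_induction with
  | base => exact hF
  | succ M _ ih =>
    intro ys hys x
    cases ys with
    | nil => simp at hys
    | cons y ys =>
      have h1 : ys.length = M := by simpa using hys
      rw [difs_cons, ih ys h1, ih ys h1, sub_self]

/-- the base case -/
theorem eqB_base {J : Type} [Fintype J] (V : Submodule ℝ (J → ℝ))
    (l : (J → J → ℝ) →+ ℝ) (β : J → ℝ → ℝ)
    (h : ∀ c ∈ V, l (Dm c) + ∑ j, β j (c j) = 0) (hs : ∀ t, ∑ j, β j t = 0)
    (h3 : ∀ j, ∀ ys : List ℝ, ys.length = 3 → ∀ x, difs ys (β j) x = 0)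
    (n : ℕ) (f g : Fin n → J → ℝ) (hf : ∀ k, f k ∈ V) (hg : ∀ k, g k ∈ V)
    (hfg : ∀ i j, ∑ k, tp (f k i) (g k i) = ∑ k, tp (f k j) (g k j)) :
    l (fun i j => ∑ k, (f k i - f k j) * (g k i - g k j)) = 0 := by
  -- the biadditive functions
  let b0 : J → ℝ → ℝ → ℝ := fun j y z => β j (y + z) - β j y - β j z + β j 0
  have hb0 : ∀ j y z, b0 j y z = β j (y + z) - β j y - β j z + β j 0 := fun _ _ _ => rfl
  have hexp : ∀ j y y' z, β j (y + y' + z) - β j (y + y') - (β j (y + z) - β j y)
      - (β j (y' + z) - β j y' - (β j z - β j 0)) = 0 := by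
    intro j y y' z
    have := h3 j [y, y', z] rfl 0
    simp only [difs_cons, difs_nil, zero_add] at this
    linarith
  have hsymm : ∀ j y z, b0 j y z = b0 j z y := by
    intro j y z
    rw [hb0, hb0, add_comm y z]
    ring
  have hadd : ∀ j y y' z, b0 j (y + y') z = b0 j y z + b0 j y' z := by
    intro j y y' z
    have := hexp j y y' z
    rw [hb0, hb0, hb0]
    linarith
  have hadd' : ∀ j y z z', b0 j y (z + z') = b0 j y z + b0 j y z' := by
    intro j y z z'
    rw [hsymm, hadd, hsymm j z, hsymm j z']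
  let b : J → ℝ →+ ℝ →+ ℝ := fun j =>
    AddMonoidHom.mk' (fun y => AddMonoidHom.mk' (fun z => b0 j y z) (hadd' j y))
      (fun y y' => by
        ext z
        exact hadd j y y' z)
  have hb : ∀ j y z, b j y z = b0 j y z := fun _ _ _ => rfl
  have hrat : ∀ (j : J) (q : ℚ) (y z : ℝ), b j (q • y) z = b j y (q • z) := by
    intro j q y z
    rw [map_rat_smul (b j) q y, map_rat_smul (b j y) q z]
    rfl
  let bt : J → TT →+ ℝ := fun j => TensorProduct.liftAddHom (b j) (hrat j)
  have hbt : ∀ j y z, bt j (tp y z) = b0 j y z := fun j y z => by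
    show TensorProduct.liftAddHom (b j) (hrat j) (y ⊗ₜ[ℚ] z) = _
    rw [TensorProduct.liftAddHom_tmul]
    rfl
  have hbs : ∀ y z, ∑ j, b0 j y z = 0 := by
    intro y z
    simp only [hb0, Finset.sum_add_distrib, Finset.sum_sub_distrib, hs]
    ring
  have hbts : ∀ s : TT, ∑ j, bt j s = 0 := by
    intro s
    induction s using TT_induction with
    | h0 => simp
    | h1 y z => simp only [hbt]; exact hbs y z
    | h2 s t hs ht => simp only [map_add, Finset.sum_add_distrib, hs, ht, add_zero]
  -- polarization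
  have hpol : ∀ u ∈ V, ∀ v ∈ V,
      l (fun i j => (u i - u j) * (v i - v j)) * 2 = - ∑ j, b0 j (u j) (v j) := by
    intro u hu v hv
    have e1 := h (u + v) (V.add_mem hu hv)
    have e2 := h u hu
    have e3 := h v hv
    have e4 : Dm (u + v) = Dm u + Dm v + ((fun i j => (u i - u j) * (v i - v j)) +
        fun i j => (u i - u j) * (v i - v j)) := by
      funext i j
      simp only [Dm, Pi.add_apply]
      ring
    rw [e4, map_add, map_add, map_add] at e1
    simp only [hb0, Finset.sum_add_distrib, Finset.sum_sub_distrib, hs]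
    simp only [Pi.add_apply] at e1
    linarith
  have hsum : l (fun i j => ∑ k, (f k i - f k j) * (g k i - g k j))
      = ∑ k, l (fun i j => (f k i - f k j) * (g k i - g k j)) := by
    rw [← map_sum]
    congr 1
    funext i j
    rw [Finset.sum_apply, Finset.sum_apply]
  have htot : (∑ k, l (fun i j => (f k i - f k j) * (g k i - g k j))) * 2 = 0 := by
    rw [Finset.sum_mul, Finset.sum_congr rfl fun k _ => hpol (f k) (hf k) (g k) (hg k),
      Finset.sum_neg_distrib, Finset.sum_comm, neg_eq_zero]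
    rcases isEmpty_or_nonempty J with hJ | ⟨⟨j₀⟩⟩
    · simp
    · have e : ∀ j, ∑ k, b0 j (f k j) (g k j) = bt j (∑ k, tp (f k j₀) (g k j₀)) := by
        intro j
        rw [← hfg j j₀, map_sum]
        exact Finset.sum_congr rfl fun k _ => (hbt j _ _).symm
      rw [Finset.sum_congr rfl fun j _ => e j]
      exact hbts _
  rw [hsum]
  linarith

theorem eqB_ind {J : Type} [Fintype J] (V : Submodule ℝ (J → ℝ))
    (l : (J → J → ℝ) →+ ℝ)
    (n : ℕ) (f g : Fin n → J → ℝ) (hf : ∀ k, f k ∈ V) (hg : ∀ k, g k ∈ V)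
    (hfg : ∀ i j, ∑ k, tp (f k i) (g k i) = ∑ k, tp (f k j) (g k j)) (N : ℕ) (hN : 3 ≤ N) :
    ∀ β : J → ℝ → ℝ, (∀ c ∈ V, l (Dm c) + ∑ j, β j (c j) = 0) → (∀ t, ∑ j, β j t = 0) →
    (∀ j, ∀ ys : List ℝ, ys.length = N → ∀ x, difs ys (β j) x = 0) →
    l (fun i j => ∑ k, (f k i - f k j) * (g k i - g k j)) = 0 := by
  induction N, hN using Nat.le_induction with
  | base =>
    intro β h hs h3
    exact eqB_base V l β h hs h3 n f g hf hg hfg
  | succ N hN ih =>
    intro β h hs hd
    have h8 : (8 : ℝ) ≤ 2 ^ N := by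
      calc (8 : ℝ) = 2 ^ 3 := by norm_num
        _ ≤ 2 ^ N := pow_le_pow_right₀ (by norm_num) hN
    have hne : (4 - 2 ^ N : ℝ) ≠ 0 := by linarith
    refine ih (fun j t => (4 - 2 ^ N : ℝ)⁻¹ * β j (2 * t) + (-(2 ^ N) * (4 - 2 ^ N : ℝ)⁻¹) * β j t)
      ?_ ?_ ?_
    · intro c hc
      have e1 := h c hc
      have e2 := h ((2 : ℝ) • c) (V.smul_mem _ hc)
      have e3 : Dm ((2 : ℝ) • c) = Dm c + Dm c + (Dm c + Dm c) := by
        funext i j
        simp only [Dm, Pi.add_apply, Pi.smul_apply, smul_eq_mul]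
        ring
      rw [e3, map_add, map_add] at e2
      simp only [Pi.smul_apply, smul_eq_mul] at e2
      rw [Finset.sum_add_distrib, ← Finset.mul_sum, ← Finset.mul_sum]
      have e4 : ∑ j, β j (2 * c j) = -(4 * l (Dm c)) := by linarith
      have e5 : ∑ j, β j (c j) = - l (Dm c) := by linarith
      rw [e4, e5]
      field_simp
      ring
    · intro t
      rw [Finset.sum_add_distrib, ← Finset.mul_sum, ← Finset.mul_sum, hs, hs]
      ring
    · intro j ys hys x
      exact difs_reduce (β j) N (hd j) ys hys x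

theorem eqB {J : Type} [Fintype J] [DecidableEq J] (V : Submodule ℝ (J → ℝ))
    (hone : (fun _ => (1 : ℝ)) ∈ V) (hsep : ∀ i j, i ≠ j → ∃ c ∈ V, c i ≠ c j)
    (l : (J → J → ℝ) →+ ℝ) (β : J → ℝ → ℝ)
    (h : ∀ c ∈ V, l (Dm c) + ∑ j, β j (c j) = 0) (hs : ∀ t, ∑ j, β j t = 0)
    (n : ℕ) (f g : Fin n → J → ℝ) (hf : ∀ k, f k ∈ V) (hg : ∀ k, g k ∈ V)
    (hfg : ∀ i j, ∑ k, tp (f k i) (g k i) = ∑ k, tp (f k j) (g k j)) :
    l (fun i j => ∑ k, (f k i - f k j) * (g k i - g k j)) = 0 := by
  have hQ : ∀ c ∈ V, ∀ m : ℝ, l (Dm (c + fun _ => m)) = l (Dm c) := by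
    intro c _ m
    congr 1
    funext i j
    simp only [Dm, Pi.add_apply]
    ring
  have h1 := eqA V hone hsep (fun c => l (Dm c)) hQ β h
  exact eqB_ind V l n f g hf hg hfg (Fintype.card J + 3) (by omega) β h hs
    (fun j => difs_longer (Fintype.card J) (Fintype.card J + 3) (by omega) (fun ys hys x => h1 j ys hys x))

end Vale.Agent.Lib.P058
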