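import Vale.Agent.Lib.P058L.LDef

/-!
# P058L, module NecLA: the dual of `ListGood`

PROOF.  `U = (A → A → ℝ) × (A → A → (ℝ →₀ ℚ))`, a vector space over `ℚ`;
`le c = (fun x y => (c x - c y) ^ 2, fun x y => single (c x) 1 - single (c y) 1)` for an affine `c`.
If `(dist ^ 2, 0)` is a rational combination of the `le c` then `A` is good (multiply by a common
denominator `N` and divide all `c` by `√N`).  So otherwise there is a `ℚ`-linear functional which is
`0` on all `le c` and `1` on `(dist ^ 2, 0)`.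
-/

namespace Vale.Agent.Lib.P058

/-- the generators -/
noncomputable def lgE {d : ℕ} (A : Set (EuclideanSpace ℝ (Fin d)))
    (c : EuclideanSpace ℝ (Fin d) →ᵃ[ℝ] ℝ) : (A → A → ℝ) × (A → A → (ℝ →₀ ℚ)) :=
  (fun x y => (c x - c y) ^ 2,
    fun x y => Finsupp.single (c x) (1 : ℚ) - Finsupp.single (c y) (1 : ℚ))

theorem exists_common_den {n : ℕ} (q : Fin n → ℚ) :
    ∃ (N : ℕ) (z : Fin n → ℤ), 0 < N ∧ ∀ k, (z k : ℚ) = N * q k := by
  refine ⟨∏ k, (q k).den, fun k => (q k).num * ((∏ l, (q l).den) / (q k).den : ℕ),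
    Finset.prod_pos fun k _ => (q k).den_pos, fun k => ?_⟩
  obtain ⟨m, hm⟩ := Finset.dvd_prod_of_mem (fun l => (q l).den) (Finset.mem_univ k)
  have hd : (0 : ℕ) < (q k).den := (q k).den_pos
  have hm' : (∏ l, (q l).den) = (q k).den * m := hm
  show (((q k).num * ((∏ l, (q l).den) / (q k).den : ℕ) : ℤ) : ℚ) = _
  rw [hm', Nat.mul_div_cancel_left _ hd]
  push_cast
  have h1 : ((q k).den : ℚ) * q k = (q k).num := by
    rw [mul_comm]
    exact Rat.mul_den_eq_num (q k)
  calc ((q k).num : ℚ) * m = (((q k).den : ℚ) * q k) * m := by rw [h1]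
    _ = ((q k).den : ℚ) * m * q k := by ring

theorem listGood_of_mem {d : ℕ} (A : Set (EuclideanSpace ℝ (Fin d)))
    (h : ((fun x y => dist (x : EuclideanSpace ℝ (Fin d)) y ^ 2, fun _ _ => 0) :
      (A → A → ℝ) × (A → A → (ℝ →₀ ℚ))) ∈ Submodule.span ℚ (Set.range (lgE A))) :
    ListGood A := by
  classical
  rw [Submodule.mem_span_set'] at h
  obtain ⟨n, q, g, hg⟩ := h
  choose c hc using fun k => (g k).2
  obtain ⟨N, z, hN, hz⟩ := exists_common_den q
  have hN' : (0 : ℝ) < N := by exact_mod_cast hN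
  have hs : (0 : ℝ) < Real.sqrt N := Real.sqrt_pos.2 hN'
  have hss : Real.sqrt N * Real.sqrt N = N := Real.mul_self_sqrt hN'.le
  have hval : ∀ k (x : EuclideanSpace ℝ (Fin d)),
      ((Real.sqrt N)⁻¹ • c k) x = (Real.sqrt N)⁻¹ * c k x := fun k x => rfl
  refine ⟨n, z, fun k => (Real.sqrt N)⁻¹ • c k, fun x hx y hy => ?_, fun t x hx y hy => ?_⟩
  · have h1 := congrArg (fun u => u.1 ⟨x, hx⟩ ⟨y, hy⟩) hg
    simp only [Prod.fst_sum, Finset.sum_apply] at h1
    rw [← h1]
    refine Finset.sum_congr rfl fun k _ => ?_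
    have h2 : (q k • (g k : (A → A → ℝ) × (A → A → (ℝ →₀ ℚ)))).1 ⟨x, hx⟩ ⟨y, hy⟩
        = (q k : ℝ) * (c k x - c k y) ^ 2 := by
      rw [← hc k]
      show q k • ((c k x - c k y) ^ 2 : ℝ) = _
      rw [Rat.smul_def]
    have h3 : ((z k : ℤ) : ℝ) = N * (q k : ℝ) := by
      have := hz k
      exact_mod_cast this
    rw [h2, h3, hval, hval]
    have h4 : (Real.sqrt N)⁻¹ * (Real.sqrt N)⁻¹ * N = 1 := by
      calc (Real.sqrt N)⁻¹ * (Real.sqrt N)⁻¹ * N
          = (Real.sqrt N)⁻¹ * (Real.sqrt N)⁻¹ * (Real.sqrt N * Real.sqrt N) := by rw [hss]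
        _ = 1 := by field_simp
    calc (N : ℝ) * (q k : ℝ) * ((Real.sqrt N)⁻¹ * c k x - (Real.sqrt N)⁻¹ * c k y) ^ 2
        = ((Real.sqrt N)⁻¹ * (Real.sqrt N)⁻¹ * N) * ((q k : ℝ) * (c k x - c k y) ^ 2) := by ring
      _ = _ := by rw [h4, one_mul]
  · have h1 := congrArg (fun u => u.2 ⟨x, hx⟩ ⟨y, hy⟩ (Real.sqrt N * t)) hg
    simp only [Prod.snd_sum, Finset.sum_apply, Finsupp.finsetSum_apply] at h1
    have h2 : ∀ k, (q k • (g k : (A → A → ℝ) × (A → A → (ℝ →₀ ℚ)))).2 ⟨x, hx⟩ ⟨y, hy⟩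
          (Real.sqrt N * t)
        = q k * ((if c k x = Real.sqrt N * t then 1 else 0)
          - (if c k y = Real.sqrt N * t then 1 else 0)) := by
      intro k
      rw [← hc k]
      show (q k • (Finsupp.single (c k x) (1 : ℚ) - Finsupp.single (c k y) (1 : ℚ)))
        (Real.sqrt N * t) = _
      rw [Finsupp.smul_apply, Finsupp.sub_apply, Finsupp.single_apply, Finsupp.single_apply,
        smul_eq_mul]
    simp only [h2] at h1
    have hiff : ∀ k (w : EuclideanSpace ℝ (Fin d)),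
        (Real.sqrt N)⁻¹ * c k w = t ↔ c k w = Real.sqrt N * t := by
      intro k w
      constructor
      · intro h
        rw [← h, ← mul_assoc, mul_inv_cancel₀ hs.ne', one_mul]
      · intro h
        rw [h, ← mul_assoc, inv_mul_cancel₀ hs.ne', one_mul]
    simp only [hval, hiff]
    have h5 : ((∑ k, (if c k x = Real.sqrt N * t then z k else 0) : ℤ) : ℚ)
        - ((∑ k, (if c k y = Real.sqrt N * t then z k else 0) : ℤ) : ℚ) = 0 := by
      rw [Int.cast_sum, Int.cast_sum, ← Finset.sum_sub_distrib]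
      have h6 : ∀ k, (((if c k x = Real.sqrt N * t then z k else 0 : ℤ)) : ℚ)
          - ((if c k y = Real.sqrt N * t then z k else 0 : ℤ) : ℚ)
          = N * (q k * ((if c k x = Real.sqrt N * t then 1 else 0)
          - (if c k y = Real.sqrt N * t then 1 else 0))) := by
        intro k
        split_ifs <;> simp [hz]
      rw [Finset.sum_congr rfl fun k _ => h6 k, ← Finset.mul_sum, h1]
      simp
    have h7 := sub_eq_zero.mp h5
    exact_mod_cast h7

theorem exists_dual_list {d : ℕ} (A : Set (EuclideanSpace ℝ (Fin d))) [Fintype A]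
    (h : ¬ ListGood A) :
    ∃ (b : A → ℝ → ℝ) (l : (A → A → ℝ) →+ ℝ), (∀ t, ∑ x, b x t = 0) ∧
      (∀ c : EuclideanSpace ℝ (Fin d) →ᵃ[ℝ] ℝ,
        ∑ x : A, b x (c x) + l (fun x y => (c x - c y) ^ 2) = 0) ∧
      l (fun x y => dist (x : EuclideanSpace ℝ (Fin d)) y ^ 2) = 1 := by
  classical
  have h0 := fun h' => h (listGood_of_mem A h')
  obtain ⟨Λ₀, hΛ₀, hker⟩ := Submodule.exists_le_ker_of_notMem h0
  set D : A → A → ℝ := fun x y => dist (x : EuclideanSpace ℝ (Fin d)) y ^ 2 with hD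
  set r := Λ₀ ((D, fun _ _ => 0) : (A → A → ℝ) × (A → A → (ℝ →₀ ℚ))) with hr
  have hΛe : ∀ c, Λ₀ (lgE A c) = 0 := fun c => hker (Submodule.subset_span ⟨c, rfl⟩)
  let Λ : ((A → A → ℝ) × (A → A → (ℝ →₀ ℚ))) →+ ℝ :=
    { toFun := fun u => ((r⁻¹ * Λ₀ u : ℚ) : ℝ)
      map_zero' := by simp
      map_add' := fun u v => by rw [map_add]; push_cast; ring }
  have hΛ : ∀ u, Λ u = ((r⁻¹ * Λ₀ u : ℚ) : ℝ) := fun _ => rfl
  have hΛ1 : Λ (D, fun _ _ => 0) = 1 := by
    rw [hΛ, ← hr, inv_mul_cancel₀ hΛ₀]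
    simp
  have hΛ0 : ∀ c, Λ (lgE A c) = 0 := fun c => by rw [hΛ, hΛe]; simp
  let Λ' : A → A → (ℝ →₀ ℚ) → ℝ := fun x y s => Λ (0, Pi.single x (Pi.single y s))
  have hΛ' : ∀ x y s, Λ' x y s = Λ (0, Pi.single x (Pi.single y s)) := fun _ _ _ => rfl
  have hadd : ∀ x y s t, Λ' x y (s + t) = Λ' x y s + Λ' x y t := by
    intro x y s t
    rw [hΛ', hΛ', hΛ', ← map_add, Prod.mk_add_mk, ← Pi.single_add, ← Pi.single_add, add_zero]
  have hneg : ∀ x y s t, Λ' x y (s - t) = Λ' x y s - Λ' x y t := by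
    intro x y s t
    have h1 := hadd x y (s - t) t
    rw [sub_add_cancel] at h1
    linarith
  have hexp : ∀ σ : A → A → (ℝ →₀ ℚ), Λ (0, σ) = ∑ x, ∑ y, Λ' x y (σ x y) := by
    intro σ
    have h2 : ((0, σ) : (A → A → ℝ) × (A → A → (ℝ →₀ ℚ)))
        = ∑ x, ∑ y, (0, Pi.single x (Pi.single y (σ x y))) := by
      refine Prod.ext ?_ ?_
      · simp only [Prod.fst_sum]
        simp
      · simp only [Prod.snd_sum]
        funext x y
        simp only [Finset.sum_apply]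
        rw [Finset.sum_eq_single x, Finset.sum_eq_single y]
        · simp
        · intro b _ hb
          simp [hb.symm]
        · simp
        · intro b _ hb
          refine Finset.sum_eq_zero fun z _ => ?_
          simp [hb.symm]
        · simp
    rw [h2, map_sum]
    refine Finset.sum_congr rfl fun x _ => ?_
    rw [map_sum]
  let b : A → ℝ → ℝ := fun x t =>
    ∑ y, (Λ' x y (Finsupp.single t 1) - Λ' y x (Finsupp.single t 1))
  have hb : ∀ x t, b x t = ∑ y, (Λ' x y (Finsupp.single t 1) - Λ' y x (Finsupp.single t 1)) :=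
    fun _ _ => rfl
  let l : (A → A → ℝ) →+ ℝ :=
    { toFun := fun M => Λ (M, 0)
      map_zero' := by
        show Λ (0, 0) = 0
        exact map_zero Λ
      map_add' := fun M M' => by
        rw [← map_add, Prod.mk_add_mk, add_zero] }
  have hl : ∀ M, l M = Λ (M, 0) := fun _ => rfl
  refine ⟨b, l, ?_, ?_, ?_⟩
  · intro t
    simp only [hb, Finset.sum_sub_distrib]
    rw [Finset.sum_comm, sub_self]
  · intro c
    have h1 := hΛ0 c
    have h2 : lgE A c = ((fun x y => (c x - c y) ^ 2, 0) : (A → A → ℝ) × (A → A → (ℝ →₀ ℚ))) +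
        ((0, fun x y => Finsupp.single (c x) (1 : ℚ) - Finsupp.single (c y) (1 : ℚ)) :
          (A → A → ℝ) × (A → A → (ℝ →₀ ℚ))) := by
      rw [lgE, Prod.mk_add_mk, add_zero, zero_add]
    rw [h2, map_add, hexp, add_comm] at h1
    rw [hl, ← h1]
    congr 1
    have h4 : ∑ x : A, ∑ y : A, Λ' x y (Finsupp.single (c y) 1)
        = ∑ x : A, ∑ y : A, Λ' y x (Finsupp.single (c x) 1) := Finset.sum_comm
    simp only [hneg, hb, Finset.sum_sub_distrib]
    rw [h4]
  · exact hΛ1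

end Vale.Agent.Lib.P058
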