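import Vale.Agent.Lib.P058L.EqB
import Vale.Agent.Lib.P058L.NecLA

/-!
# P058L, module EqC: the tensor form of the criterion implies the list form

If `ListGood A` fails, `exists_dual_list` gives functions `b x : ℝ → ℝ` and an additive `l` with
`∑ x, b x (c x) + l (Dm c) = 0`, `l (dist ^ 2) = 1`; `eqB` gives `l (dist ^ 2) = 0`.
-/

namespace Vale.Agent.Lib.P058

open scoped TensorProduct

/-- elements of `ℝ ⊗[ℚ] ℝ` are separated by the functionals `x ⊗ y ↦ x * φ y` -/
theorem tt_ext (s t : TT) (h : ∀ φ : ℝ →+ ℝ, bfun φ s = bfun φ t) : s = t := by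
  let B := Module.Basis.ofVectorSpace ℚ ℝ
  let e := TensorProduct.equivFinsuppOfBasisRight (M := ℝ) B
  apply e.injective
  ext i
  let φ : ℝ →+ ℝ := (algebraMap ℚ ℝ).toAddMonoidHom.comp (B.coord i).toAddMonoidHom
  have h1 : ∀ s : TT, e s i = bfun φ s := by
    intro s
    induction s using TT_induction with
    | h0 => simp
    | h1 x y =>
      have h2 : e (tp x y) i = B.repr y i • x := by
        show (TensorProduct.equivFinsuppOfBasisRight (M := ℝ) B) (x ⊗ₜ[ℚ] y) i = _
        rw [TensorProduct.equivFinsuppOfBasisRight_apply_tmul_apply]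
      rw [h2, bfun_tp, Rat.smul_def, mul_comm]
      rfl
    | h2 s t hs ht => rw [map_add, Finsupp.add_apply, hs, ht, map_add]
  rw [h1, h1]
  exact h φ

/-- the restrictions of the affine functions -/
def affR {d : ℕ} (A : Set (EuclideanSpace ℝ (Fin d))) : Submodule ℝ (A → ℝ) where
  carrier := {c | ∃ f : EuclideanSpace ℝ (Fin d) →ᵃ[ℝ] ℝ, ∀ a : A, c a = f a}
  zero_mem' := ⟨0, fun a => rfl⟩
  add_mem' := by
    rintro c c' ⟨f, h⟩ ⟨f', h'⟩
    refine ⟨f + f', fun a => ?_⟩
    rw [Pi.add_apply, h a, h' a]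
    rfl
  smul_mem' := by
    rintro t c ⟨f, h⟩
    refine ⟨t • f, fun a => ?_⟩
    rw [Pi.smul_apply, h a]
    rfl

theorem listGood_of_isGood {d : ℕ} (A : Set (EuclideanSpace ℝ (Fin d))) (hfin : A.Finite)
    (h : IsGood A) : ListGood A := by
  classical
  by_contra hbad
  have : Fintype A := hfin.fintype
  obtain ⟨b, l, hb, hl, hone⟩ := exists_dual_list A hbad
  obtain ⟨n, f, g, h1, h2⟩ := h
  have key := eqB (affR A) ⟨AffineMap.const ℝ _ 1, fun a => rfl⟩ (fun i j hij => ?_) l b
    (fun c hc => ?_) hb n (fun k a => f k a) (fun k a => g k a) (fun k => ⟨f k, fun a => rfl⟩)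
    (fun k => ⟨g k, fun a => rfl⟩) (fun i j => ?_)
  · have e : (fun i j : A => ∑ k, (f k i - f k j) * (g k i - g k j))
        = fun x y : A => dist (x : EuclideanSpace ℝ (Fin d)) y ^ 2 := by
      funext i j
      exact h1 i i.2 j j.2
    rw [e, hone] at key
    exact one_ne_zero key
  · have hne : (i : EuclideanSpace ℝ (Fin d)) ≠ j := fun h => hij (Subtype.ext h)
    have : ∃ k, (i : EuclideanSpace ℝ (Fin d)) k ≠ (j : EuclideanSpace ℝ (Fin d)) k := by
      by_contra hcon
      push Not at hcon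
      exact hne (by ext k; exact hcon k)
    obtain ⟨k, hk⟩ := this
    exact ⟨fun a => (a : EuclideanSpace ℝ (Fin d)) k,
      ⟨(EuclideanSpace.proj k : EuclideanSpace ℝ (Fin d) →L[ℝ] ℝ).toLinearMap.toAffineMap,
        fun a => rfl⟩, hk⟩
  · obtain ⟨c', hc'⟩ := hc
    have e := hl c'
    have e1 : Dm c = fun x y : A => (c' x - c' y) ^ 2 := by
      funext x y
      rw [Dm, hc', hc']
    have e2 : ∑ x : A, b x (c x) = ∑ x : A, b x (c' x) :=
      Finset.sum_congr rfl fun x _ => by rw [hc']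
    rw [e1, e2, add_comm]
    exact e
  · apply tt_ext
    intro φ
    rw [map_sum, map_sum]
    simp only [bfun_tp]
    exact h2 φ i i.2 j j.2

end Vale.Agent.Lib.P058
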