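import Vale.Agent.Lib.P058L.LDef

/-!
# P058L, module LCone: the cone of pairs of costs

`CNC_zero`: `v = 1`.  `CNC_add`: `v * v'`.  `CNC_smul`: `InP.affine hone 0 (√t)` for both costs (`√t ^ 2 = t`;
for both the element is `fun j => FreeGroup.map (fun x => 0 + √t * x) (v j)`).
`CNC_single`: for `c ∈ V`: `colF c`.  `CNC_lists`: `InP.exists_list` for both costs: lists `L`, `L'` in `V` with
`D = DL L`, `D' = DL L'` (entrywise: sum of a list of matrices evaluated at `i j`) and for all `φ`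
`∑_L φ (c i) - ∑_L φ (c j) = homL φ (v i) - homL φ (v j) = ∑_{L'} ...`; with `φ` = indicator of
`x` these are equalities of counts (`count_eq_sum`), hence `SBal L L'` (`List.perm_iff_count`).
`SBal.rowEq`: for a row `j₀` the lists `L ++ L'.map (fun c => (fun _ => c j₀))` and
`L' ++ L.map (fun c => (fun _ => c j₀))` are `RowEq` (row `j`: `L(j) + L'(j₀)` and `L'(j) + L(j₀)`).
-/

namespace Vale.Agent.Lib.P058

variable {J : Type}

theorem CNC_zero (V : Set (J → ℝ)) : CNC V 0 := ⟨1, InP.one V, InP.one V⟩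

theorem CNC_add {V : Set (J → ℝ)} {p q : (J → J → ℝ) × (J → J → ℝ)} (hp : CNC V p)
    (hq : CNC V q) : CNC V (p + q) := by
  obtain ⟨v, h1, h2⟩ := hp
  obtain ⟨v', h1', h2'⟩ := hq
  exact ⟨v * v', h1.mul h1', h2.mul h2'⟩

theorem CNC_smul {V : Submodule ℝ (J → ℝ)} (hone : (fun _ => (1 : ℝ)) ∈ V) {t : ℝ} (ht : 0 ≤ t)
    {p : (J → J → ℝ) × (J → J → ℝ)} (hp : CNC (V : Set (J → ℝ)) p) :
    CNC (V : Set (J → ℝ)) (t • p) := by
  obtain ⟨v, h1, h2⟩ := hp
  refine ⟨fun j => FreeGroup.map (fun x : ℝ => 0 + Real.sqrt t * x) (v j), ?_, ?_⟩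
  · refine (h1.affine hone 0 (Real.sqrt t)).of_eq rfl ?_
    rw [Real.sq_sqrt ht]
    rfl
  · refine (h2.affine hone 0 (Real.sqrt t)).of_eq rfl ?_
    rw [Real.sq_sqrt ht]
    rfl

private theorem DL_eq {L : List (J → ℝ)} {D : J → J → ℝ}
    (h : ∀ i j, D i j = (L.map (fun c => Dm c i j)).sum) : D = DL L := by
  funext i j
  rw [h i j]
  clear h
  unfold DL
  induction L with
  | nil => rfl
  | cons c L ih =>
    rw [List.map_cons, List.sum_cons, List.map_cons, List.sum_cons, ih]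
    rfl

theorem CNC_lists {V : Set (J → ℝ)} {p : (J → J → ℝ) × (J → J → ℝ)} (hp : CNC V p) :
    ∃ L L' : List (J → ℝ), (∀ c ∈ L, c ∈ V) ∧ (∀ c ∈ L', c ∈ V) ∧ p.1 = DL L ∧ p.2 = DL L' ∧
      SBal L L' := by
  classical
  obtain ⟨v, h1, h2⟩ := hp
  obtain ⟨L, hL1, hL2, hL3⟩ := h1.exists_list
  obtain ⟨L', hL1', hL2', hL3'⟩ := h2.exists_list
  refine ⟨L, L', hL1, hL1', DL_eq hL2, DL_eq hL2', ?_⟩
  intro i j
  rw [List.perm_iff_count]
  intro x
  rw [List.count_append, List.count_append]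
  have e1 := hL3 (fun t => if t = x then (1 : ℝ) else 0) i j
  have e2 := hL3' (fun t => if t = x then (1 : ℝ) else 0) i j
  rw [← count_eq_sum L i, ← count_eq_sum L j] at e1
  rw [← count_eq_sum L' i, ← count_eq_sum L' j] at e2
  have e3 : ((List.count x (L.map (fun c => c i)) : ℕ) : ℝ) + (List.count x (L'.map (fun c => c j)) : ℕ)
      = (List.count x (L.map (fun c => c j)) : ℕ) + (List.count x (L'.map (fun c => c i)) : ℕ) := by
    linarith
  exact_mod_cast e3

theorem SBal.rowEq {L L' : List (J → ℝ)} (h : SBal L L') (j₀ : J) :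
    RowEq (L ++ L'.map (fun c => (fun _ : J => c j₀)))
      (L' ++ L.map (fun c => (fun _ : J => c j₀))) := by
  intro j
  have h1 : (L ++ L'.map (fun c => (fun _ : J => c j₀))).map (fun c => c j) =
      L.map (fun c => c j) ++ L'.map (fun c => c j₀) := by
    rw [List.map_append, List.map_map]
    rfl
  have h2 : (L' ++ L.map (fun c => (fun _ : J => c j₀))).map (fun c => c j) =
      L'.map (fun c => c j) ++ L.map (fun c => c j₀) := by
    rw [List.map_append, List.map_map]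
    rfl
  rw [h1, h2]
  exact (h j j₀).trans List.perm_append_comm

end Vale.Agent.Lib.P058
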