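import Vale.Agent.Lib.P058C.EngC

/-!
# P058L: definitions for the short proof of the characterization (list form)

`RowEq L L'`: in every row the two lists of columns have the same letters (with multiplicities).
`SBal L L'`: the signed multiset of letters of `L` minus `L'` is the same in all rows.
`DL L`: the cost of a list.  `CNC V (D, D')`: one element `v` of `J → FreeGroup ℝ` has both costs.
-/

namespace Vale.Agent.Lib.P058

/-- in every row the two lists have the same letters (with multiplicities) -/
def RowEq {J : Type} (L L' : List (J → ℝ)) : Prop :=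
  ∀ j : J, (L.map (fun c => c j)).Perm (L'.map (fun c => c j))

/-- signed balanced: letters of `L` minus letters of `L'` do not depend on the row -/
def SBal {J : Type} (L L' : List (J → ℝ)) : Prop :=
  ∀ i j : J, (L.map (fun c => c i) ++ L'.map (fun c => c j)).Perm
    (L.map (fun c => c j) ++ L'.map (fun c => c i))

/-- the cost of a list of columns -/
noncomputable def DL {J : Type} (L : List (J → ℝ)) : J → J → ℝ := (L.map Dm).sum

/-- one element with two costs -/
def CNC {J : Type} (V : Set (J → ℝ)) (p : (J → J → ℝ) × (J → J → ℝ)) : Prop :=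
  ∃ v : J → FreeGroup ℝ, InP V v p.1 ∧ InP V v p.2

/-- difference -/
def dif {E : Type} [AddCommGroup E] (y : E) (F : E → ℝ) : E → ℝ := fun x => F (x + y) - F x

/-- iterated difference -/
def difs {E : Type} [AddCommGroup E] (ys : List E) (F : E → ℝ) : E → ℝ := ys.foldr dif F

/-- the columns of a set of points: restrictions of affine functions -/
def affV {d : ℕ} (A : Set (EuclideanSpace ℝ (Fin d))) : Submodule ℝ (A → ℝ) where
  carrier := {c | ∃ (w : EuclideanSpace ℝ (Fin d)) (b : ℝ), ∀ a : A, c a = inner ℝ w (a : EuclideanSpace ℝ (Fin d)) + b}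
  zero_mem' := ⟨0, 0, fun a => by simp⟩
  add_mem' := by
    rintro c c' ⟨w, b, h⟩ ⟨w', b', h'⟩
    refine ⟨w + w', b + b', fun a => ?_⟩
    rw [Pi.add_apply, h a, h' a, inner_add_left]
    ring
  smul_mem' := by
    rintro t c ⟨w, b, h⟩
    refine ⟨t • w, t * b, fun a => ?_⟩
    rw [Pi.smul_apply, h a, real_inner_smul_left, smul_eq_mul]
    ring

/-- The criterion, list form: there are affine functions `c k` with integer weights `e k` such that
`∑ e k * (c k x - c k y) ^ 2 = |x - y| ^ 2` for `x y ∈ A`, and the weighted multiset of the values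
`c k x` is the same for all points `x ∈ A`. -/
def ListGood {d : ℕ} (A : Set (EuclideanSpace ℝ (Fin d))) : Prop :=
  ∃ (n : ℕ) (e : Fin n → ℤ) (c : Fin n → EuclideanSpace ℝ (Fin d) →ᵃ[ℝ] ℝ),
    (∀ x ∈ A, ∀ y ∈ A, ∑ k, (e k : ℝ) * (c k x - c k y) ^ 2 = dist x y ^ 2) ∧
    ∀ t : ℝ, ∀ x ∈ A, ∀ y ∈ A,
      ∑ k, (if c k x = t then e k else 0) = ∑ k, if c k y = t then e k else 0

end Vale.Agent.Lib.P058
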