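import Vale.Agent.Lib.P058L.LDef
import Vale.Agent.Lib.P058.FarkasA

/-!
# P058L, module LHB: a functional between two bounds (Hahn-Banach)

PROOF.  Let `E = (V →₀ ℝ)` (weights on the columns of `V`, `V` as a type).  For a row `j` let
`push j : E →ₗ[ℝ] (ℝ →₀ ℝ)` be `Finsupp.lmapDomain ℝ ℝ (fun c => (c : J → ℝ) j)` and
`N = {ω | ∀ j, push j ω = 0}`.  Let
`p ω = ω.sum (fun c a => max a 0 * Qp c + max (-a) 0 * Qm c)`.
`Qp c + Qm c ≥ 0` for `c ∈ V` (`h [c] [c]`), so `a ↦ max a 0 * Qp c + max (-a) 0 * Qm c` is convex and positively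
homogeneous: `p` is sublinear.
(A) `0 ≤ p ω` for `ω ∈ N`: for integer valued `ω` let `L` contain every `c` with `ω c > 0` exactly `ω c` times,
`L'` every `c` with `ω c < 0` exactly `- ω c` times; `RowEq L L'` (compare `List.count x` in row `j`), and
`p ω = (L.map Qp).sum + (L'.map Qm).sum ≥ 0`; for rational values multiply by a common
denominator; for real values use `exists_rat_linear` (module RatApprox, used as in FarkasA.lean: `φ : ℝ →ₗ[ℚ] ℚ`
with `|φ (ω c) - ω c| < ε` on the support; `c ↦ φ (ω c)` is again in `N`) and continuity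
(`p` is a finite sum of continuous functions of the values).
(B) `exists_extension_of_le_sublinear` for the zero functional on `N`: a linear `F : E → ℝ` with
`F ω ≤ p ω` and `F = 0` on `N`.  `f c = F (single c 1)` for `c ∈ V` (and `0` outside): `f c ≤ p (single c 1) = Qp c`,
`- f c = F (single c (-1)) ≤ Qm c`.  For `RowEq L L'` in `V`:
`∑_{c ∈ L} single c 1 - ∑_{c ∈ L'} single c 1 ∈ N` (`push j` of it is the difference of the counts of the letters).
-/

namespace Vale.Agent.Lib.P058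

private theorem lhb_rowEq_of_sums {J : Type} {L L' : List (J → ℝ)}
    (h : ∀ (φ : ℝ → ℝ) (j : J), (L.map (fun c => φ (c j))).sum = (L'.map (fun c => φ (c j))).sum) :
    RowEq L L' := by
  classical
  intro j
  rw [List.perm_iff_count]
  intro x
  have := h (fun t => if t = x then (1 : ℝ) else 0) j
  rw [← count_eq_sum L j, ← count_eq_sum L' j] at this
  exact_mod_cast this

/-- weights in `ℕ` -/
private theorem lhb_nat {J : Type} (V : Set (J → ℝ)) (Qp Qm : (J → ℝ) → ℝ)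
    (h : ∀ L L' : List (J → ℝ), (∀ c ∈ L, c ∈ V) → (∀ c ∈ L', c ∈ V) → RowEq L L' →
      0 ≤ (L.map Qp).sum + (L'.map Qm).sum)
    (s : Finset V) (n m : V → ℕ)
    (hh : ∀ (φ : ℝ → ℝ) (j : J),
      ∑ c ∈ s, (n c : ℝ) * φ (c.1 j) = ∑ c ∈ s, (m c : ℝ) * φ (c.1 j)) :
    0 ≤ ∑ c ∈ s, (n c : ℝ) * Qp c.1 + ∑ c ∈ s, (m c : ℝ) * Qm c.1 := by
  have h1 : ∀ (n : V → ℕ) (g : (J → ℝ) → ℝ),
      (((s.toList.flatMap fun c => List.replicate (n c) c).map fun c : V => c.1).map g).sum =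
        ∑ c ∈ s, (n c : ℝ) * g c.1 := by
    intro n g
    rw [List.map_map]
    have := farkasA_sum_list s.toList n (g ∘ fun c : V => c.1)
    rw [this]
    exact Finset.sum_map_toList s (fun c => (n c : ℝ) * g c.1)
  have hmem : ∀ (n : V → ℕ),
      ∀ c ∈ ((s.toList.flatMap fun c => List.replicate (n c) c).map fun c : V => c.1), c ∈ V := by
    intro n c hc
    obtain ⟨c', _, rfl⟩ := List.mem_map.mp hc
    exact c'.2
  rw [← h1 n Qp, ← h1 m Qm]
  apply h _ _ (hmem n) (hmem m)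
  apply lhb_rowEq_of_sums
  intro φ j
  rw [h1 n (fun c => φ (c j)), h1 m (fun c => φ (c j))]
  exact hh φ j

/-- weights in `ℚ` -/
private theorem lhb_rat {J : Type} (V : Set (J → ℝ)) (Qp Qm : (J → ℝ) → ℝ)
    (h : ∀ L L' : List (J → ℝ), (∀ c ∈ L, c ∈ V) → (∀ c ∈ L', c ∈ V) → RowEq L L' →
      0 ≤ (L.map Qp).sum + (L'.map Qm).sum)
    (s : Finset V) (w : V → ℚ)
    (hh : ∀ (φ : ℝ → ℝ) (j : J), ∑ c ∈ s, ((w c : ℚ) : ℝ) * φ (c.1 j) = 0) :
    0 ≤ ∑ c ∈ s, (max ((w c : ℚ) : ℝ) 0 * Qp c.1 + max (-((w c : ℚ) : ℝ)) 0 * Qm c.1) := by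
  classical
  obtain ⟨N, hN⟩ : ∃ N : ℕ, N = ∏ c ∈ s, (w c).den := ⟨_, rfl⟩
  have hN0 : 0 < N := by
    rw [hN]
    exact Finset.prod_pos fun c _ => (w c).den_pos
  have hNR : (0 : ℝ) < N := by exact_mod_cast hN0
  obtain ⟨z, hz⟩ : ∃ z : V → ℤ, z = fun c => (w c).num * ((∏ c' ∈ s.erase c, (w c').den : ℕ) : ℤ) :=
    ⟨_, rfl⟩
  have hzw : ∀ c ∈ s, (z c : ℝ) = (N : ℝ) * ((w c : ℚ) : ℝ) := by
    intro c hc
    have h1 : (z c : ℚ) = (N : ℚ) * w c := by
      have h5 : (w c).den * ∏ c' ∈ s.erase c, (w c').den = N := by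
        rw [hN]
        exact Finset.mul_prod_erase s (fun c => (w c).den) hc
      have h6 : ((w c).num : ℚ) = w c * (w c).den := (Rat.mul_den_eq_num (w c)).symm
      rw [hz, ← h5]
      push_cast
      rw [h6]
      ring
    exact_mod_cast h1
  have hpos : ∀ c ∈ s, ((z c).toNat : ℝ) = (N : ℝ) * max ((w c : ℚ) : ℝ) 0 := by
    intro c hc
    have h1 : (((z c).toNat : ℤ) : ℝ) = max (z c : ℝ) 0 := by
      rw [Int.toNat_eq_max]
      push_cast
      rfl
    have h2 : ((z c).toNat : ℝ) = max (z c : ℝ) 0 := by exact_mod_cast h1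
    rw [h2, hzw c hc, mul_max_of_nonneg _ _ hNR.le, mul_zero]
  have hneg : ∀ c ∈ s, ((-z c).toNat : ℝ) = (N : ℝ) * max (-((w c : ℚ) : ℝ)) 0 := by
    intro c hc
    have h1 : (((-z c).toNat : ℤ) : ℝ) = max (-(z c : ℝ)) 0 := by
      rw [Int.toNat_eq_max]
      push_cast
      rfl
    have h2 : ((-z c).toNat : ℝ) = max (-(z c : ℝ)) 0 := by exact_mod_cast h1
    rw [h2, hzw c hc, mul_max_of_nonneg _ _ hNR.le, mul_zero, mul_neg]
  have hmm : ∀ x : ℝ, max x 0 - max (-x) 0 = x := by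
    intro x
    rcases le_total 0 x with hx | hx
    · rw [max_eq_left hx, max_eq_right (by linarith)]
      ring
    · rw [max_eq_right hx, max_eq_left (by linarith)]
      ring
  have h3 := lhb_nat V Qp Qm h s (fun c => (z c).toNat) (fun c => (-z c).toNat) (by
    intro φ j
    rw [← sub_eq_zero, ← Finset.sum_sub_distrib]
    have h4 : ∀ c ∈ s, ((z c).toNat : ℝ) * φ (c.1 j) - ((-z c).toNat : ℝ) * φ (c.1 j) =
        (N : ℝ) * (((w c : ℚ) : ℝ) * φ (c.1 j)) := by
      intro c hc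
      rw [hpos c hc, hneg c hc]
      conv_rhs => rw [← hmm ((w c : ℚ) : ℝ)]
      ring
    rw [Finset.sum_congr rfl h4, ← Finset.mul_sum, hh φ j, mul_zero])
  have h5 : ∑ c ∈ s, ((z c).toNat : ℝ) * Qp c.1 + ∑ c ∈ s, ((-z c).toNat : ℝ) * Qm c.1 =
      (N : ℝ) *
        ∑ c ∈ s, (max ((w c : ℚ) : ℝ) 0 * Qp c.1 + max (-((w c : ℚ) : ℝ)) 0 * Qm c.1) := by
    rw [← Finset.sum_add_distrib, Finset.mul_sum]
    refine Finset.sum_congr rfl fun c hc => ?_
    rw [hpos c hc, hneg c hc]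
    ring
  rw [h5] at h3
  exact nonneg_of_mul_nonneg_right h3 hNR

private theorem lhb_real {J : Type} (V : Set (J → ℝ)) (Qp Qm : (J → ℝ) → ℝ)
    (h : ∀ L L' : List (J → ℝ), (∀ c ∈ L, c ∈ V) → (∀ c ∈ L', c ∈ V) → RowEq L L' →
      0 ≤ (L.map Qp).sum + (L'.map Qm).sum)
    (ω : V →₀ ℝ) (hω : ∀ j : J, Finsupp.mapDomain (fun c : V => c.1 j) ω = 0) :
    0 ≤ ω.sum (fun c a => max a 0 * Qp c.1 + max (-a) 0 * Qm c.1) := by
  classical
  have key : ∀ ε : ℝ, 0 < ε → -(ε * ∑ c ∈ ω.support, (|Qp c.1| + |Qm c.1|)) ≤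
      ω.sum (fun c a => max a 0 * Qp c.1 + max (-a) 0 * Qm c.1) := by
    intro ε hε
    obtain ⟨φ, hφ⟩ := exists_rat_linear (ω.support.image ω) ε hε
    have hφ' : ∀ c ∈ ω.support, |((φ (ω c) : ℚ) : ℝ) - ω c| < ε := fun c hc =>
      hφ _ (Finset.mem_image_of_mem ω hc)
    have hbal' : ∀ j : J,
        Finsupp.mapDomain (fun c : V => c.1 j) (Finsupp.mapRange φ (map_zero φ) ω) = 0 := by
      intro j
      rw [Finsupp.mapDomain_mapRange _ _ _ _ (map_add φ), hω j]
      simp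
    have hsum : ∀ (ψ : ℝ → ℝ) (i : J),
        ∑ c ∈ ω.support, ((φ (ω c) : ℚ) : ℝ) * ψ (c.1 i) =
          (Finsupp.mapDomain (fun c : V => c.1 i) (Finsupp.mapRange φ (map_zero φ) ω)).sum
            (fun x t => ((t : ℚ) : ℝ) * ψ x) := by
      intro ψ i
      rw [Finsupp.sum_mapDomain_index (by simp) (by intro b m₁ m₂; push_cast; ring),
        Finsupp.sum_mapRange_index (by simp)]
      rfl
    have h1 := lhb_rat V Qp Qm h ω.support (fun c => φ (ω c)) (by
      intro ψ i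
      rw [hsum ψ i, hbal' i, Finsupp.sum_zero_index])
    have h2 : ω.sum (fun c a => max a 0 * Qp c.1 + max (-a) 0 * Qm c.1) =
        ∑ c ∈ ω.support, (max (ω c) 0 * Qp c.1 + max (-(ω c)) 0 * Qm c.1) := rfl
    rw [h2]
    have h3 : ∑ c ∈ ω.support, (max ((φ (ω c) : ℚ) : ℝ) 0 * Qp c.1 +
          max (-((φ (ω c) : ℚ) : ℝ)) 0 * Qm c.1) -
        ∑ c ∈ ω.support, (max (ω c) 0 * Qp c.1 + max (-(ω c)) 0 * Qm c.1) ≤
        ε * ∑ c ∈ ω.support, (|Qp c.1| + |Qm c.1|) := by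
      rw [← Finset.sum_sub_distrib, Finset.mul_sum]
      apply Finset.sum_le_sum
      intro c hc
      have e1 : |max ((φ (ω c) : ℚ) : ℝ) 0 - max (ω c) 0| ≤ ε :=
        (abs_max_sub_max_le_abs _ _ _).trans (hφ' c hc).le
      have e2 : |max (-((φ (ω c) : ℚ) : ℝ)) 0 - max (-(ω c)) 0| ≤ ε := by
        refine (abs_max_sub_max_le_abs _ _ _).trans ?_
        rw [neg_sub_neg, abs_sub_comm]
        exact (hφ' c hc).le
      generalize max ((φ (ω c) : ℚ) : ℝ) 0 = a1 at e1 ⊢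
      generalize max (-((φ (ω c) : ℚ) : ℝ)) 0 = a2 at e2 ⊢
      generalize max (ω c) 0 = b1 at e1 ⊢
      generalize max (-(ω c)) 0 = b2 at e2 ⊢
      calc a1 * Qp c.1 + a2 * Qm c.1 - (b1 * Qp c.1 + b2 * Qm c.1)
          = (a1 - b1) * Qp c.1 + (a2 - b2) * Qm c.1 := by ring
        _ ≤ |(a1 - b1) * Qp c.1| + |(a2 - b2) * Qm c.1| :=
            add_le_add (le_abs_self _) (le_abs_self _)
        _ = |a1 - b1| * |Qp c.1| + |a2 - b2| * |Qm c.1| := by rw [abs_mul, abs_mul]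
        _ ≤ ε * |Qp c.1| + ε * |Qm c.1| :=
            add_le_add (mul_le_mul_of_nonneg_right e1 (abs_nonneg _))
              (mul_le_mul_of_nonneg_right e2 (abs_nonneg _))
        _ = ε * (|Qp c.1| + |Qm c.1|) := by ring
    linarith
  by_contra hcon
  rw [not_le] at hcon
  obtain ⟨K, hK⟩ : ∃ K : ℝ, K = ∑ c ∈ ω.support, (|Qp c.1| + |Qm c.1|) := ⟨_, rfl⟩
  have hK0 : 0 ≤ K := by
    rw [hK]
    exact Finset.sum_nonneg fun c _ => add_nonneg (abs_nonneg _) (abs_nonneg _)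
  obtain ⟨X, hX⟩ : ∃ X : ℝ,
    X = ω.sum (fun c a => max a 0 * Qp c.1 + max (-a) 0 * Qm c.1) := ⟨_, rfl⟩
  rw [← hX] at hcon
  have h1 := key (-X / (2 * (K + 1))) (by apply div_pos <;> linarith)
  rw [← hK, ← hX] at h1
  have h2 : -X / (2 * (K + 1)) * K ≤ -X / (2 * (K + 1)) * (K + 1) := by
    apply mul_le_mul_of_nonneg_left (by linarith)
    apply div_nonneg <;> linarith
  have h3 : -X / (2 * (K + 1)) * (K + 1) = -X / 2 := by
    field_simp
  linarith

theorem two_sided {J : Type} [Fintype J] (V : Set (J → ℝ)) (Qp Qm : (J → ℝ) → ℝ)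
    (h : ∀ L L' : List (J → ℝ), (∀ c ∈ L, c ∈ V) → (∀ c ∈ L', c ∈ V) → RowEq L L' →
      0 ≤ (L.map Qp).sum + (L'.map Qm).sum) :
    ∃ f : (J → ℝ) → ℝ, (∀ c ∈ V, f c ≤ Qp c) ∧ (∀ c ∈ V, -Qm c ≤ f c) ∧
      ∀ L L' : List (J → ℝ), (∀ c ∈ L, c ∈ V) → (∀ c ∈ L', c ∈ V) → RowEq L L' →
        (L.map f).sum = (L'.map f).sum := by
  classical
  have hs : ∀ c ∈ V, 0 ≤ Qp c + Qm c := by
    intro c hc
    have := h [c] [c] (by simpa using hc) (by simpa using hc) (fun j => List.Perm.refl _)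
    simpa using this
  obtain ⟨g, hg⟩ : ∃ g : V → ℝ → ℝ, g = fun c a => max a 0 * Qp c.1 + max (-a) 0 * Qm c.1 :=
    ⟨_, rfl⟩
  have hg0 : ∀ c, g c 0 = 0 := by
    intro c
    rw [hg]
    simp
  have hgadd : ∀ c a b, g c (a + b) ≤ g c a + g c b := by
    intro c a b
    have hmm : ∀ x : ℝ, max x 0 = x + max (-x) 0 := by
      intro x
      rcases le_total 0 x with hx | hx
      · rw [max_eq_left hx, max_eq_right (by linarith)]
        ring
      · rw [max_eq_right hx, max_eq_left (by linarith)]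
        ring
    have h1 : ∀ x, g c x = x * Qp c.1 + max (-x) 0 * (Qp c.1 + Qm c.1) := by
      intro x
      rw [hg]
      change max x 0 * Qp c.1 + max (-x) 0 * Qm c.1 = _
      rw [hmm x]
      ring
    rw [h1, h1, h1]
    have h2 : max (-(a + b)) 0 ≤ max (-a) 0 + max (-b) 0 := by
      apply max_le
      · have := le_max_left (-a) 0
        have := le_max_left (-b) 0
        linarith
      · exact add_nonneg (le_max_right _ _) (le_max_right _ _)
    have h3 := mul_le_mul_of_nonneg_right h2 (hs c.1 c.2)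
    nlinarith
  let Nd : Submodule ℝ (V →₀ ℝ) :=
    ⨅ j : J, LinearMap.ker (Finsupp.lmapDomain ℝ ℝ (fun c : V => c.1 j))
  have hNd : ∀ ω : V →₀ ℝ, ω ∈ Nd ↔ ∀ j : J, Finsupp.mapDomain (fun c : V => c.1 j) ω = 0 := by
    intro ω
    simp only [Nd, Submodule.mem_iInf, LinearMap.mem_ker, Finsupp.lmapDomain_apply]
  obtain ⟨F, hF1, hF2⟩ := exists_extension_of_le_sublinear
    (⟨Nd, 0⟩ : (V →₀ ℝ) →ₗ.[ℝ] ℝ) (fun ω => ω.sum g)
    (by
      intro c hc x
      change (c • x).sum g = c * x.sum g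
      rw [Finsupp.sum_smul_index (fun i => hg0 i), Finsupp.mul_sum]
      refine Finsupp.sum_congr fun i _ => ?_
      rw [hg]
      change max (c * x i) 0 * Qp i.1 + max (-(c * x i)) 0 * Qm i.1 =
        c * (max (x i) 0 * Qp i.1 + max (-(x i)) 0 * Qm i.1)
      have e1 : max (c * x i) 0 = c * max (x i) 0 := by
        rw [mul_max_of_nonneg _ _ hc.le, mul_zero]
      have e2 : max (-(c * x i)) 0 = c * max (-(x i)) 0 := by
        rw [mul_max_of_nonneg _ _ hc.le, mul_zero, mul_neg]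
      rw [e1, e2]
      ring)
    (by
      intro x y
      change (x + y).sum g ≤ x.sum g + y.sum g
      have h0 : ∀ i ∈ x.support ∪ y.support, g i 0 = 0 := fun i _ => hg0 i
      rw [Finsupp.sum_of_support_subset (x + y) (Finsupp.support_add) g h0,
        Finsupp.sum_of_support_subset x Finset.subset_union_left g h0,
        Finsupp.sum_of_support_subset y Finset.subset_union_right g h0,
        ← Finset.sum_add_distrib]
      refine Finset.sum_le_sum fun i _ => ?_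
      exact hgadd i (x i) (y i))
    (by
      rintro ⟨x, hx⟩
      change (0 : ℝ) ≤ x.sum g
      rw [hg]
      exact lhb_real V Qp Qm h x ((hNd x).1 hx))
  let e : (J → ℝ) → (V →₀ ℝ) := fun c => if hc : c ∈ V then Finsupp.single ⟨c, hc⟩ 1 else 0
  have he : ∀ (c : J → ℝ) (hc : c ∈ V), e c = Finsupp.single ⟨c, hc⟩ 1 := by
    intro c hc
    simp only [e]
    rw [dif_pos hc]
  refine ⟨fun c => F (e c), ?_, ?_, ?_⟩
  · intro c hc
    have h1 := hF2 (Finsupp.single ⟨c, hc⟩ 1)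
    change F (Finsupp.single ⟨c, hc⟩ 1) ≤ (Finsupp.single ⟨c, hc⟩ 1).sum g at h1
    rw [Finsupp.sum_single_index (hg0 _), hg] at h1
    change F (e c) ≤ Qp c
    rw [he c hc]
    refine h1.trans ?_
    change max 1 0 * Qp c + max (-1) 0 * Qm c ≤ Qp c
    rw [max_eq_left (by norm_num), max_eq_right (by norm_num)]
    linarith
  · intro c hc
    have h1 := hF2 (-(Finsupp.single ⟨c, hc⟩ 1))
    rw [← Finsupp.single_neg] at h1
    change F (Finsupp.single ⟨c, hc⟩ (-1)) ≤ (Finsupp.single ⟨c, hc⟩ (-1)).sum g at h1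
    rw [Finsupp.sum_single_index (hg0 _), hg, Finsupp.single_neg, map_neg] at h1
    change -Qm c ≤ F (e c)
    rw [he c hc]
    have h2 : max (-1 : ℝ) 0 * Qp c + max (-(-1)) 0 * Qm c = Qm c := by
      rw [max_eq_right (by norm_num), max_eq_left (by norm_num)]
      ring
    have h3 : -F (Finsupp.single ⟨c, hc⟩ 1) ≤ max (-1 : ℝ) 0 * Qp c + max (-(-1)) 0 * Qm c := h1
    rw [h2] at h3
    linarith
  · intro L L' hL hL' hR
    have h1 : ∀ L : List (J → ℝ), (L.map (fun c => F (e c))).sum = F ((L.map e).sum) := by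
      intro L
      rw [map_list_sum, List.map_map]
      rfl
    rw [h1, h1, ← sub_eq_zero, ← map_sub]
    have hmem : (L.map e).sum - (L'.map e).sum ∈ Nd := by
      rw [hNd]
      intro j
      have h2 : ∀ L : List (J → ℝ), (∀ c ∈ L, c ∈ V) →
          Finsupp.mapDomain (fun c : V => c.1 j) ((L.map e).sum) =
            ((L.map (fun c => c j)).map (fun x => Finsupp.single x (1 : ℝ))).sum := by
        intro L hL
        have h3 : Finsupp.mapDomain (fun c : V => c.1 j) ((L.map e).sum) =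
            Finsupp.lmapDomain ℝ ℝ (fun c : V => c.1 j) ((L.map e).sum) := rfl
        rw [h3, map_list_sum, List.map_map, List.map_map]
        congr 1
        apply List.map_congr_left
        intro c hc
        simp only [Function.comp_apply]
        rw [he c (hL c hc), Finsupp.lmapDomain_apply, Finsupp.mapDomain_single]
      have h4 : Finsupp.mapDomain (fun c : V => c.1 j) ((L.map e).sum - (L'.map e).sum) =
          Finsupp.mapDomain (fun c : V => c.1 j) ((L.map e).sum) -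
            Finsupp.mapDomain (fun c : V => c.1 j) ((L'.map e).sum) :=
        map_sub (Finsupp.lmapDomain ℝ ℝ (fun c : V => c.1 j)) _ _
      rw [h4, h2 L hL, h2 L' hL', ((hR j).map _).sum_eq, sub_self]
    exact hF1 ⟨_, hmem⟩

end Vale.Agent.Lib.P058
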