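import Vale.Agent.Lib.P058L.LCone
import Mathlib.Combinatorics.HalesJewett

/-!
# P058L, module LHJ: the Hales-Jewett step

An element `v` with many costs gives a monochromatic element of exact cost `D0`.

(1) `many`: for every `N ≥ 1` and `0 < ε`, `N * ε < 1` there is `v` with
`InP V v (ε • D0)` and `InP V v ((1 - (m - 1) * ε) • D0)` for `m = 1, ..., N`.
`v = v_1 * ... * v_N` where `v_1` has the costs `(ε / N) • D0` and `(ε / N + 1 - N * ε) • D0`, and `v_i`,
`i ≥ 2`, has the costs `(ε / N) • D0` and `(ε / N + ε) • D0`: both from `hstar` by `CNC_smul`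
(`t = 1 - N ε`, `τ = ε / (N t)`, respectively `t = ε`, `τ = 1 / N`; `t • ((1 + τ) • D0, τ • D0)`).
All low costs: `ε • D0`.  `v_1` high and `N - m` of the others high:
`(ε + 1 - N ε + (N - m) ε) • D0 = (1 - (m - 1) ε) • D0`.
(Suggested: induction for the product of `n` elements of the second kind: `InP V (w ^ n)
((n * (ε / N) + k * ε) • D0)` for all `k ≤ n`.)

(2) Hales-Jewett: `Combinatorics.Line.exists_mono_in_high_dimension J (C)` gives a finite `ι` (let
`N = card ι`, `e : Fin N ≃ ι`; `N ≥ 1` because otherwise there is no line; if `N = 0` then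
`(ι → J)` has one element and a line needs a `none`: contradiction).  With `v` of (1) for `N`
(`ε = 1 / (2 N)`) colour `t : ι → J` by `κ ((List.ofFn (fun i : Fin N => v (t (e i)))).prod)`.
For the monochromatic line `l` put `z i = v` if `l.idxFun (e i) = none` and `z i = fun _ => v (t₀)` if
`l.idxFun (e i) = some t₀`, `u = (List.ofFn z).prod : J → FreeGroup ℝ`.  `u j` is the coloured word at the
point `l j`, so `κ (u i) = κ (u j)`.  Cost of `u`: let `m ≥ 1` be the number of active `i` (`l.proper`);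
constants cost `0`, the first active factor is used with the cost `(1 - (m - 1) ε) • D0`, the others
with `ε • D0`: total `D0`.  (Suggested lemma: for a list `zs` whose members are `v` or constants and in which
`v` occurs `m` times: `InP V zs.prod ((m * ε) • D0)`, and if `m ≥ 1` and
`InP V v D'` then `InP V zs.prod (((m - 1) * ε) • D0 + D')`; both by induction on the list.)
-/

namespace Vale.Agent.Lib.P058

variable {J : Type}

/-- powers of an element with two costs -/
private theorem lhj_pow {V : Set (J → ℝ)} {D0 : J → J → ℝ} {w : J → FreeGroup ℝ} {a ε : ℝ}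
    (h1 : InP V w ((a + ε) • D0)) (h2 : InP V w (a • D0)) (n k : ℕ) (hk : k ≤ n) :
    InP V (w ^ n) (((n : ℝ) * a + (k : ℝ) * ε) • D0) := by
  induction n generalizing k with
  | zero =>
    have hk0 : k = 0 := by omega
    subst hk0
    refine (InP.const 1).of_eq ?_ ?_
    · rw [pow_zero]
      rfl
    · simp
  | succ n ih =>
    rw [pow_succ]
    rcases Nat.eq_or_lt_of_le hk with hk1 | hk1
    · subst hk1
      refine (InP.mul (ih n le_rfl) h1).of_eq rfl ?_
      rw [← add_smul]
      congr 1
      push_cast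
      ring
    · refine (InP.mul (ih k (by omega)) h2).of_eq rfl ?_
      rw [← add_smul]
      congr 1
      push_cast
      ring

private theorem lhj_many {V : Submodule ℝ (J → ℝ)}
    (hone : (fun _ => (1 : ℝ)) ∈ V) (D0 : J → J → ℝ)
    (hstar : ∀ τ : ℝ, 0 < τ → CNC (V : Set (J → ℝ)) ((1 + τ) • D0, τ • D0))
    (N : ℕ) (hN : 1 ≤ N) {ε : ℝ} (hε : 0 < ε) (hNε : N * ε < 1) :
    ∃ v : J → FreeGroup ℝ, InP (V : Set (J → ℝ)) v (ε • D0) ∧
      ∀ m : ℕ, 1 ≤ m → m ≤ N → InP (V : Set (J → ℝ)) v ((1 - ((m : ℝ) - 1) * ε) • D0) := by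
  have hN0 : (0 : ℝ) < N := by exact_mod_cast (by omega : 0 < N)
  have ht : 0 < 1 - N * ε := by linarith
  -- the first element
  have hτ1 : 0 < ε / (N * (1 - N * ε)) := by positivity
  obtain ⟨v1, hv1, hv1'⟩ := CNC_smul hone ht.le (hstar _ hτ1)
  have e1 : (1 - N * ε) • ((1 + ε / (N * (1 - N * ε))) • D0)
      = (1 - N * ε + ε / N) • D0 := by
    rw [smul_smul]
    congr 1
    field_simp
  have e2 : (1 - N * ε) • ((ε / (N * (1 - N * ε))) • D0) = (ε / N) • D0 := by
    rw [smul_smul]
    congr 1
    field_simp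
  have hv1a : InP (V : Set (J → ℝ)) v1 ((1 - N * ε + ε / N) • D0) := hv1.of_eq rfl e1
  have hv1b : InP (V : Set (J → ℝ)) v1 ((ε / N) • D0) := hv1'.of_eq rfl e2
  -- the second element
  have hτ2 : (0 : ℝ) < 1 / N := by positivity
  obtain ⟨w, hw, hw'⟩ := CNC_smul hone hε.le (hstar _ hτ2)
  have hwa : InP (V : Set (J → ℝ)) w ((ε / N + ε) • D0) := by
    refine hw.of_eq rfl ?_
    change ε • ((1 + 1 / (N : ℝ)) • D0) = _
    rw [smul_smul]
    congr 1
    ring
  have hwb : InP (V : Set (J → ℝ)) w ((ε / N) • D0) := by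
    refine hw'.of_eq rfl ?_
    change ε • ((1 / (N : ℝ)) • D0) = _
    rw [smul_smul]
    congr 1
    ring
  have hN1 : ((N - 1 : ℕ) : ℝ) = (N : ℝ) - 1 := by
    rw [Nat.cast_sub hN, Nat.cast_one]
  refine ⟨v1 * w ^ (N - 1), ?_, fun m hm1 hmN => ?_⟩
  · refine (InP.mul hv1b (lhj_pow hwa hwb (N - 1) 0 (by omega))).of_eq rfl ?_
    rw [← add_smul]
    congr 1
    rw [hN1, Nat.cast_zero]
    field_simp
    ring
  · refine (InP.mul hv1a (lhj_pow hwa hwb (N - 1) (N - m) (by omega))).of_eq rfl ?_
    rw [← add_smul]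
    congr 1
    rw [hN1, Nat.cast_sub hmN]
    field_simp
    ring

/-- the factor of a list: `v` or a constant -/
private def lhjZ (v : J → FreeGroup ℝ) : Option (FreeGroup ℝ) → (J → FreeGroup ℝ)
  | none => v
  | some b => fun _ => b

private theorem lhj_listA {V : Set (J → ℝ)} {D0 : J → J → ℝ} {v : J → FreeGroup ℝ} {ε : ℝ}
    (h : InP V v (ε • D0)) (os : List (Option (FreeGroup ℝ))) (m : ℕ)
    (hm : (os.filter Option.isNone).length = m) :
    InP V (os.map (lhjZ v)).prod (((m : ℝ) * ε) • D0) := by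
  induction os generalizing m with
  | nil =>
    subst hm
    refine (InP.const 1).of_eq rfl ?_
    simp
  | cons o os ih =>
    rw [List.map_cons, List.prod_cons]
    cases o with
    | none =>
      rw [List.filter_cons_of_pos (by rfl), List.length_cons] at hm
      obtain ⟨m', rfl⟩ : ∃ m', m = m' + 1 := ⟨m - 1, by omega⟩
      refine (InP.mul h (ih m' (by omega))).of_eq rfl ?_
      rw [← add_smul]
      congr 1
      push_cast
      ring
    | some b =>
      rw [List.filter_cons_of_neg (by simp)] at hm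
      refine (InP.mul (InP.const b) (ih m hm)).of_eq rfl ?_
      rw [zero_add]

private theorem lhj_listB {V : Set (J → ℝ)} {D0 D' : J → J → ℝ} {v : J → FreeGroup ℝ} {ε : ℝ}
    (h : InP V v (ε • D0)) (h' : InP V v D') (os : List (Option (FreeGroup ℝ))) (m : ℕ)
    (hm : (os.filter Option.isNone).length = m + 1) :
    InP V (os.map (lhjZ v)).prod (((m : ℝ) * ε) • D0 + D') := by
  induction os with
  | nil => simp at hm
  | cons o os ih =>
    rw [List.map_cons, List.prod_cons]
    cases o with
    | none =>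
      rw [List.filter_cons_of_pos (by rfl), List.length_cons] at hm
      refine (InP.mul h' (lhj_listA h os m (by omega))).of_eq rfl ?_
      rw [add_comm]
    | some b =>
      rw [List.filter_cons_of_neg (by simp)] at hm
      refine (InP.mul (InP.const b) (ih hm)).of_eq rfl ?_
      rw [zero_add]

theorem hj_step {J : Type} [Finite J] [Nonempty J] {V : Submodule ℝ (J → ℝ)}
    (hone : (fun _ => (1 : ℝ)) ∈ V) (D0 : J → J → ℝ)
    (hstar : ∀ τ : ℝ, 0 < τ → CNC (V : Set (J → ℝ)) ((1 + τ) • D0, τ • D0))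
    (C : Type) [Finite C] (κ : FreeGroup ℝ → C) :
    ∃ u : J → FreeGroup ℝ, InP (V : Set (J → ℝ)) u D0 ∧ ∀ i j, κ (u i) = κ (u j) := by
  classical
  obtain ⟨ι, hι, hline⟩ := Combinatorics.Line.exists_mono_in_high_dimension J C
  obtain ⟨N, hN⟩ : ∃ N, N = Fintype.card ι := ⟨_, rfl⟩
  have e : Fin N ≃ ι := (Fintype.equivFinOfCardEq hN.symm).symm
  by_cases hN0 : N = 0
  · obtain ⟨l, -⟩ := hline (fun _ => κ 1)
    obtain ⟨i, -⟩ := l.proper
    have := (e.symm i).2
    omega
  have hN1 : 1 ≤ N := by omega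
  have hNr : (0 : ℝ) < N := by exact_mod_cast (by omega : 0 < N)
  obtain ⟨v, hv, hvm⟩ := lhj_many hone D0 hstar N hN1 (ε := 1 / (2 * N)) (by positivity) (by
    have : (N : ℝ) * (1 / (2 * N)) = 1 / 2 := by field_simp
    rw [this]
    norm_num)
  obtain ⟨ε, hεdef⟩ : ∃ ε : ℝ, ε = 1 / (2 * N) := ⟨_, rfl⟩
  rw [← hεdef] at hv hvm
  obtain ⟨l, c, hc⟩ := hline (fun t => κ ((List.ofFn (fun i : Fin N => v (t (e i)))).prod))
  obtain ⟨os, hos⟩ : ∃ os : List (Option (FreeGroup ℝ)),
      os = List.ofFn (fun i : Fin N => (l.idxFun (e i)).map v) := ⟨_, rfl⟩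
  -- the number of active coordinates
  have hlen : os.length = N := by rw [hos, List.length_ofFn]
  have hpos : 0 < (os.filter Option.isNone).length := by
    obtain ⟨i, hi⟩ := l.proper
    apply List.length_pos_of_mem (a := none)
    rw [List.mem_filter]
    refine ⟨?_, rfl⟩
    rw [hos, List.mem_ofFn]
    refine ⟨e.symm i, ?_⟩
    rw [Equiv.apply_symm_apply, hi]
    rfl
  have hle : (os.filter Option.isNone).length ≤ N := by
    rw [← hlen]
    exact List.length_filter_le _ _
  obtain ⟨m, hm⟩ : ∃ m, (os.filter Option.isNone).length = m + 1 :=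
    ⟨(os.filter Option.isNone).length - 1, by omega⟩
  refine ⟨(os.map (lhjZ v)).prod, ?_, ?_⟩
  · have h1 := lhj_listB hv (hvm (m + 1) (by omega) (by omega)) os m hm
    refine h1.of_eq rfl ?_
    rw [← add_smul]
    have h2 : (m : ℝ) * ε + (1 - (((m + 1 : ℕ) : ℝ) - 1) * ε) = 1 := by
      push_cast
      ring
    rw [h2, one_smul]
  · have h3 : ∀ j : J, κ ((os.map (lhjZ v)).prod j) = c := by
      intro j
      rw [← hc j]
      simp only
      congr 1
      have h4 := map_list_prod (Pi.evalMonoidHom (fun _ : J => FreeGroup ℝ) j) (os.map (lhjZ v))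
      have h5 : (os.map (lhjZ v)).prod j
          = Pi.evalMonoidHom (fun _ : J => FreeGroup ℝ) j (os.map (lhjZ v)).prod := rfl
      rw [h5, h4, List.map_map, hos, List.map_ofFn]
      congr 2
      funext i
      simp only [Function.comp_apply, Pi.evalMonoidHom_apply]
      rw [Combinatorics.Line.coe_apply]
      cases l.idxFun (e i) with
      | none => rfl
      | some t => rfl
    intro i j
    rw [h3 i, h3 j]

end Vale.Agent.Lib.P058
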