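import Vale.Agent.Lib.P058L.LHB

/-!
# P058L, module LKillA: functions that agree on row-equal lists are sums of row functions

PROOF.  Let `E = (V →₀ ℝ)`, `push j : E →ₗ[ℝ] (ℝ →₀ ℝ)` = `Finsupp.lmapDomain ℝ ℝ (fun c => (c : J → ℝ) j)`,
`N = {ω | ∀ j, push j ω = 0}` (see the proof of `two_sided` in module LHB), `F ω = ω.sum (fun c a => a * f c)`.
`F = 0` on `N`: apply the step (A) of that proof with `Qp = f`, `Qm = -f` (then `p ω = F ω`) and with
`Qp = -f`, `Qm = f`; or directly: for integer valued `ω ∈ N` the positive and the negative part are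
row-equal lists; for real `ω` take a `ℚ`-basis `r_i` of the span of the values, `ω = ∑ r_i • ω_i` with rational
valued `ω_i`, which are in `N`.
Then `F` factors through `B : E →ₗ (J → ℝ →₀ ℝ)`, `B ω j = push j ω`, whose kernel is `N`
(as in module Farkas: `LinearMap.exists_extend` from the range): `F = G ∘ B`,
`h j x = G (Pi.single j (Finsupp.single x 1))`, `f c = F (single c 1) = ∑ j, h j (c j)`.
(Short cut: `two_sided V f (-f)` gives nothing new, but `two_sided` applied to `Qp = f`, `Qm = -f` shows that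
its hypothesis holds; the linear algebra of module Farkas, `rowDiff`, is similar.)
-/

namespace Vale.Agent.Lib.P058

private theorem lk_rowEq_of_sums {J : Type} {L L' : List (J → ℝ)}
    (h : ∀ (φ : ℝ → ℝ) (j : J), (L.map (fun c => φ (c j))).sum = (L'.map (fun c => φ (c j))).sum) :
    RowEq L L' := by
  classical
  intro j
  rw [List.perm_iff_count]
  intro x
  have := h (fun t => if t = x then (1 : ℝ) else 0) j
  rw [← count_eq_sum L j, ← count_eq_sum L' j] at this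
  exact_mod_cast this

/-- weights in `ℕ` -/
private theorem lk_nat {J : Type} (V : Set (J → ℝ)) (f : (J → ℝ) → ℝ)
    (h : ∀ L L' : List (J → ℝ), (∀ c ∈ L, c ∈ V) → (∀ c ∈ L', c ∈ V) → RowEq L L' →
      (L.map f).sum = (L'.map f).sum)
    (s : Finset V) (n m : V → ℕ)
    (hh : ∀ (φ : ℝ → ℝ) (j : J),
      ∑ c ∈ s, (n c : ℝ) * φ (c.1 j) = ∑ c ∈ s, (m c : ℝ) * φ (c.1 j)) :
    ∑ c ∈ s, (n c : ℝ) * f c.1 = ∑ c ∈ s, (m c : ℝ) * f c.1 := by
  have h1 : ∀ (n : V → ℕ) (g : (J → ℝ) → ℝ),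
      (((s.toList.flatMap fun c => List.replicate (n c) c).map fun c : V => c.1).map g).sum =
        ∑ c ∈ s, (n c : ℝ) * g c.1 := by
    intro n g
    rw [List.map_map]
    have := farkasA_sum_list s.toList n (g ∘ fun c : V => c.1)
    rw [this]
    exact Finset.sum_map_toList s (fun c => (n c : ℝ) * g c.1)
  have hmem : ∀ (n : V → ℕ),
      ∀ c ∈ ((s.toList.flatMap fun c => List.replicate (n c) c).map fun c : V => c.1), c ∈ V := by
    intro n c hc
    obtain ⟨c', _, rfl⟩ := List.mem_map.mp hc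
    exact c'.2
  rw [← h1 n f, ← h1 m f]
  apply h _ _ (hmem n) (hmem m)
  apply lk_rowEq_of_sums
  intro φ j
  rw [h1 n (fun c => φ (c j)), h1 m (fun c => φ (c j))]
  exact hh φ j

/-- weights in `ℚ` -/
private theorem lk_rat {J : Type} (V : Set (J → ℝ)) (f : (J → ℝ) → ℝ)
    (h : ∀ L L' : List (J → ℝ), (∀ c ∈ L, c ∈ V) → (∀ c ∈ L', c ∈ V) → RowEq L L' →
      (L.map f).sum = (L'.map f).sum)
    (s : Finset V) (w : V → ℚ)
    (hh : ∀ (φ : ℝ → ℝ) (j : J), ∑ c ∈ s, ((w c : ℚ) : ℝ) * φ (c.1 j) = 0) :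
    ∑ c ∈ s, ((w c : ℚ) : ℝ) * f c.1 = 0 := by
  classical
  obtain ⟨N, hN⟩ : ∃ N : ℕ, N = ∏ c ∈ s, (w c).den := ⟨_, rfl⟩
  have hN0 : 0 < N := by
    rw [hN]
    exact Finset.prod_pos fun c _ => (w c).den_pos
  have hNR : (0 : ℝ) < N := by exact_mod_cast hN0
  obtain ⟨z, hz⟩ : ∃ z : V → ℤ, z = fun c => (w c).num * ((∏ c' ∈ s.erase c, (w c').den : ℕ) : ℤ) :=
    ⟨_, rfl⟩
  have hzw : ∀ c ∈ s, (z c : ℝ) = (N : ℝ) * ((w c : ℚ) : ℝ) := by
    intro c hc
    have h1 : (z c : ℚ) = (N : ℚ) * w c := by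
      have h5 : (w c).den * ∏ c' ∈ s.erase c, (w c').den = N := by
        rw [hN]
        exact Finset.mul_prod_erase s (fun c => (w c).den) hc
      have h6 : ((w c).num : ℚ) = w c * (w c).den := (Rat.mul_den_eq_num (w c)).symm
      rw [hz, ← h5]
      push_cast
      rw [h6]
      ring
    exact_mod_cast h1
  have hdiff : ∀ c ∈ s, ∀ y : ℝ, ((z c).toNat : ℝ) * y - ((-z c).toNat : ℝ) * y =
      (N : ℝ) * (((w c : ℚ) : ℝ) * y) := by
    intro c hc y
    have h1 : (((z c).toNat : ℤ) : ℝ) - (((-z c).toNat : ℤ) : ℝ) = (z c : ℝ) := by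
      rw [← Int.cast_sub]
      congr 1
      omega
    have h2 : ((z c).toNat : ℝ) - ((-z c).toNat : ℝ) = (z c : ℝ) := by exact_mod_cast h1
    rw [← sub_mul, h2, hzw c hc, mul_assoc]
  have h3 := lk_nat V f h s (fun c => (z c).toNat) (fun c => (-z c).toNat) (by
    intro φ j
    rw [← sub_eq_zero, ← Finset.sum_sub_distrib,
      Finset.sum_congr rfl (fun c hc => hdiff c hc (φ (c.1 j))), ← Finset.mul_sum, hh φ j,
      mul_zero])
  rw [← sub_eq_zero, ← Finset.sum_sub_distrib,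
    Finset.sum_congr rfl (fun c hc => hdiff c hc (f c.1)), ← Finset.mul_sum] at h3
  exact (mul_eq_zero.1 h3).resolve_left hNR.ne'

private theorem lk_real {J : Type} (V : Set (J → ℝ)) (f : (J → ℝ) → ℝ)
    (h : ∀ L L' : List (J → ℝ), (∀ c ∈ L, c ∈ V) → (∀ c ∈ L', c ∈ V) → RowEq L L' →
      (L.map f).sum = (L'.map f).sum)
    (ω : V →₀ ℝ) (hω : ∀ j : J, Finsupp.mapDomain (fun c : V => c.1 j) ω = 0) :
    ω.sum (fun c a => a * f c.1) = 0 := by
  classical
  have key : ∀ ε : ℝ, 0 < ε → |ω.sum (fun c a => a * f c.1)| ≤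
      ε * ∑ c ∈ ω.support, |f c.1| := by
    intro ε hε
    obtain ⟨φ, hφ⟩ := exists_rat_linear (ω.support.image ω) ε hε
    have hφ' : ∀ c ∈ ω.support, |((φ (ω c) : ℚ) : ℝ) - ω c| < ε := fun c hc =>
      hφ _ (Finset.mem_image_of_mem ω hc)
    have hbal' : ∀ j : J,
        Finsupp.mapDomain (fun c : V => c.1 j) (Finsupp.mapRange φ (map_zero φ) ω) = 0 := by
      intro j
      rw [Finsupp.mapDomain_mapRange _ _ _ _ (map_add φ), hω j]
      simp
    have hsum : ∀ (ψ : ℝ → ℝ) (i : J),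
        ∑ c ∈ ω.support, ((φ (ω c) : ℚ) : ℝ) * ψ (c.1 i) =
          (Finsupp.mapDomain (fun c : V => c.1 i) (Finsupp.mapRange φ (map_zero φ) ω)).sum
            (fun x t => ((t : ℚ) : ℝ) * ψ x) := by
      intro ψ i
      rw [Finsupp.sum_mapDomain_index (by simp) (by intro b m₁ m₂; push_cast; ring),
        Finsupp.sum_mapRange_index (by simp)]
      rfl
    have h1 := lk_rat V f h ω.support (fun c => φ (ω c)) (by
      intro ψ i
      rw [hsum ψ i, hbal' i, Finsupp.sum_zero_index])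
    have h2 : ω.sum (fun c a => a * f c.1) = ∑ c ∈ ω.support, ω c * f c.1 := rfl
    have h3 : ω.sum (fun c a => a * f c.1) =
        ∑ c ∈ ω.support, (ω c - ((φ (ω c) : ℚ) : ℝ)) * f c.1 := by
      rw [h2]
      simp only [sub_mul]
      rw [Finset.sum_sub_distrib, h1, sub_zero]
    rw [h3, Finset.mul_sum]
    refine (Finset.abs_sum_le_sum_abs _ _).trans (Finset.sum_le_sum fun c hc => ?_)
    rw [abs_mul, abs_sub_comm]
    exact mul_le_mul_of_nonneg_right (hφ' c hc).le (abs_nonneg _)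
  obtain ⟨K, hK⟩ : ∃ K : ℝ, K = ∑ c ∈ ω.support, |f c.1| := ⟨_, rfl⟩
  have hK0 : 0 ≤ K := by
    rw [hK]
    exact Finset.sum_nonneg fun c _ => abs_nonneg _
  obtain ⟨X, hX⟩ : ∃ X : ℝ, X = ω.sum (fun c a => a * f c.1) := ⟨_, rfl⟩
  rw [← hX]
  by_contra hne
  have hpos : 0 < |X| := abs_pos.2 hne
  have h1 := key (|X| / (2 * (K + 1))) (by positivity)
  rw [← hK, ← hX] at h1
  have h2 : |X| / (2 * (K + 1)) * K ≤ |X| / (2 * (K + 1)) * (K + 1) := by
    apply mul_le_mul_of_nonneg_left (by linarith)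
    positivity
  have h3 : |X| / (2 * (K + 1)) * (K + 1) = |X| / 2 := by
    field_simp
  linarith

theorem exists_row_functions {J : Type} [Fintype J] (V : Set (J → ℝ)) (f : (J → ℝ) → ℝ)
    (h : ∀ L L' : List (J → ℝ), (∀ c ∈ L, c ∈ V) → (∀ c ∈ L', c ∈ V) → RowEq L L' →
      (L.map f).sum = (L'.map f).sum) :
    ∃ g : J → ℝ → ℝ, ∀ c ∈ V, f c = ∑ j, g j (c j) := by
  classical
  let B : (V →₀ ℝ) →ₗ[ℝ] (J → (ℝ →₀ ℝ)) :=
    LinearMap.pi fun j => Finsupp.lmapDomain ℝ ℝ (fun c : V => c.1 j)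
  have hB : ∀ ω j, B ω j = Finsupp.mapDomain (fun c : V => c.1 j) ω := fun ω j => rfl
  have hF : ∀ ω : V →₀ ℝ, Finsupp.linearCombination ℝ (fun c : V => f c.1) ω =
      ω.sum (fun c t => t * f c.1) := fun ω => by
    rw [Finsupp.linearCombination_apply]
    rfl
  have hmem : (Finsupp.linearCombination ℝ (fun c : V => f c.1) : Module.Dual ℝ (V →₀ ℝ)) ∈
      (LinearMap.ker B).dualAnnihilator := by
    rw [Submodule.mem_dualAnnihilator]
    intro x hx
    rw [hF]
    apply lk_real V f h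
    intro j
    rw [← hB, LinearMap.mem_ker.1 hx]
    rfl
  rw [← LinearMap.range_dualMap_eq_dualAnnihilator_ker] at hmem
  obtain ⟨G, hG⟩ := hmem
  refine ⟨fun j x => G (Pi.single j (Finsupp.single x 1)), fun c hc => ?_⟩
  have h1 := congrArg (fun φ : Module.Dual ℝ (V →₀ ℝ) => φ (Finsupp.single ⟨c, hc⟩ 1)) hG
  simp only [LinearMap.dualMap_apply, Finsupp.linearCombination_single, one_smul] at h1
  rw [← h1, ← map_sum]
  congr 1
  funext j
  rw [hB, Finsupp.mapDomain_single, Finset.sum_apply]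
  simp only [Pi.single_apply]
  simp

end Vale.Agent.Lib.P058
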