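import Vale.Agent.Lib.P058L.LDef

/-!
# P058L, module LKillB: the quadratic part of a generalized polynomial

PROOF.  `weights n`: for `n ≥ 3` there are `w : Fin n → ℝ` (rational numbers) such that for every real
polynomial `p` of degree `< n`: `∑ l, w l * p.eval l = p.coeff 2` (Lagrange interpolation,
Vandermonde).  For `h : ℝ → ℝ` with vanishing `n`-fold differences and `t : ℝ` the function
`N ↦ h (N * t)` on `ℕ` has vanishing `n`-th differences, so it agrees with a polynomial of degree `< n`
(Newton's formula, `Finset.sum` of binomial coefficients: `shift_eq_sum_fwdDiff_iter` or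
`sum_shift_eq_fwdDiff_iter` in Mathlib; or induction on `n`).  Let `q t = ∑ l, w l * h (l * t)`: the coefficient of `N ^ 2`
in `h (N * t)`.  So `q (M * t) = M ^ 2 * q t` for natural `M` (the polynomial of `M * t` is the one
of `t` composed with `M * N`).  All `n`-fold differences of `q` vanish (dilations and linear combinations).
Claim: all `3`-fold differences of `q` vanish.  Downward induction: if all `(k+1)`-fold differences vanish,
`k ≥ 3`, then `D ys = difs ys q x` (`ys` of length `k`) does not depend on `x`, is additive in every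
member (`dif (y + y') F x = dif y F (x + y') + dif y' F x`; differences commute), so
`D (2 ys) = 2 ^ k * D ys`; but `q (2 t) = 4 q t` gives `difs (2 ys) q (2 x) = 4 * difs ys q x`, so `D ys = 0`.
`q 0 = 0`.  So `b s t = (q (s + t) - q s - q t) / 2` is biadditive and symmetric and
`b t t = (q (2 t) - 2 q t) / 2 = q t`.
(`n < 3`: longer lists of differences vanish too, so one may increase `n`.)
-/

namespace Vale.Agent.Lib.P058

open Polynomial Finset

/-! ### rules for iterated differences -/

private theorem LKB_cons {E : Type} [AddCommGroup E] (y : E) (ys : List E) (F : E → ℝ) (x : E) :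
    difs (y :: ys) F x = difs ys F (x + y) - difs ys F x := rfl

private theorem LKB_append {E : Type} [AddCommGroup E] (L L' : List E) (F : E → ℝ) :
    difs (L ++ L') F = difs L (difs L' F) := by
  unfold difs
  rw [List.foldr_append]

private theorem LKB_zero {E : Type} [AddCommGroup E] (L : List E) :
    difs L (fun _ : E => (0 : ℝ)) = fun _ => 0 := by
  induction L with
  | nil => rfl
  | cons a L ih =>
    funext x
    rw [LKB_cons, ih]
    simp

/-- longer lists of differences vanish too -/
private theorem LKB_mono {E : Type} [AddCommGroup E] {n N : ℕ} (hN : n ≤ N) {h : E → ℝ}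
    (hh : ∀ ys : List E, ys.length = n → ∀ x, difs ys h x = 0) :
    ∀ ys : List E, ys.length = N → ∀ x, difs ys h x = 0 := by
  intro ys hys x
  have h1 : ys.take (N - n) ++ ys.drop (N - n) = ys := List.take_append_drop _ _
  have h2 : (ys.drop (N - n)).length = n := by
    rw [List.length_drop, hys]
    omega
  rw [← h1, LKB_append]
  have h3 : difs (ys.drop (N - n)) h = fun _ => 0 := funext fun x => hh _ h2 x
  rw [h3, LKB_zero]

private theorem LKB_comm {E : Type} [AddCommGroup E] :
    LeftCommutative (dif : E → (E → ℝ) → (E → ℝ)) := by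
  refine ⟨fun a b F => ?_⟩
  funext x
  show (F (x + a + b) - F (x + a)) - (F (x + b) - F x) =
    (F (x + b + a) - F (x + b)) - (F (x + a) - F x)
  rw [add_right_comm x a b]
  ring

private theorem LKB_perm {E : Type} [AddCommGroup E] {L L' : List E} (h : L.Perm L') (F : E → ℝ) :
    difs L F = difs L' F := by
  haveI := LKB_comm (E := E)
  exact h.foldr_eq F

/-- linear combinations of dilations -/
private theorem LKB_comb {m : ℕ} (w : Fin m → ℝ) (h : ℝ → ℝ) (ys : List ℝ) :
    ∀ x, difs ys (fun t => ∑ l, w l * h ((l : ℝ) * t)) x =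
      ∑ l, w l * difs (ys.map fun y => ((l : ℕ) : ℝ) * y) h ((l : ℝ) * x) := by
  induction ys with
  | nil => intro x; rfl
  | cons a ys ih =>
    intro x
    rw [LKB_cons, ih, ih, ← Finset.sum_sub_distrib]
    refine Finset.sum_congr rfl fun l _ => ?_
    rw [List.map_cons, LKB_cons, mul_add, mul_sub]

/-- dilation by two -/
private theorem LKB_dil (q : ℝ → ℝ) (hq : ∀ t, q (2 * t) = 4 * q t) (ys : List ℝ) :
    ∀ x, difs (ys.map fun y => 2 * y) q (2 * x) = 4 * difs ys q x := by
  induction ys with
  | nil => exact hq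
  | cons a ys ih =>
    intro x
    rw [List.map_cons, LKB_cons, LKB_cons, ← mul_add, ih, ih]
    ring

/-- the highest differences do not depend on the point -/
private theorem LKB_const {k : ℕ} {q : ℝ → ℝ}
    (hq : ∀ ys : List ℝ, ys.length = k + 1 → ∀ x, difs ys q x = 0) {ys : List ℝ}
    (hys : ys.length = k) (x y : ℝ) : difs ys q x = difs ys q y := by
  have h1 := hq ((x - y) :: ys) (by rw [List.length_cons, hys]) y
  rw [LKB_cons, add_sub_cancel] at h1
  linarith

/-- doubling the first member -/
private theorem LKB_two {k : ℕ} {q : ℝ → ℝ}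
    (hq : ∀ ys : List ℝ, ys.length = k + 1 → ∀ x, difs ys q x = 0) (a : ℝ) {ys : List ℝ}
    (hys : (a :: ys).length = k) (x : ℝ) : difs (2 * a :: ys) q x = 2 * difs (a :: ys) q x := by
  have h1 := LKB_const hq hys (x + a) x
  rw [LKB_cons, LKB_cons] at h1
  rw [LKB_cons, LKB_cons, two_mul a, ← add_assoc]
  linarith

private theorem LKB_pow {k : ℕ} {q : ℝ → ℝ}
    (hq : ∀ ys : List ℝ, ys.length = k + 1 → ∀ x, difs ys q x = 0) (L1 : List ℝ) :
    ∀ L2 : List ℝ, (L1 ++ L2).length = k → ∀ x,
      difs ((L1.map fun y => 2 * y) ++ L2) q x = 2 ^ L1.length * difs (L1 ++ L2) q x := by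
  induction L1 with
  | nil =>
    intro L2 _ x
    simp
  | cons a L1 ih =>
    intro L2 hL x
    have h1 : ((a :: L1).map (fun y => 2 * y) ++ L2).Perm
        (L1.map (fun y => 2 * y) ++ (2 * a :: L2)) := by
      rw [List.map_cons, List.cons_append]
      exact List.perm_middle.symm
    have h2 : (L1 ++ (2 * a :: L2)).Perm (2 * a :: (L1 ++ L2)) := List.perm_middle
    have h3 : (L1 ++ (2 * a :: L2)).length = k := by
      rw [← hL]
      simp
      omega
    rw [LKB_perm h1, ih (2 * a :: L2) h3, LKB_perm h2, LKB_two hq a (by simpa using hL)]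
    rw [List.length_cons, List.cons_append]
    ring

/-- downward induction: all `3`-fold differences vanish -/
private theorem LKB_down {q : ℝ → ℝ} (hq2 : ∀ t, q (2 * t) = 4 * q t) (k : ℕ)
    (hq : ∀ ys : List ℝ, ys.length = k + 3 → ∀ x, difs ys q x = 0) :
    ∀ ys : List ℝ, ys.length = 3 → ∀ x, difs ys q x = 0 := by
  induction k with
  | zero => exact hq
  | succ k ih =>
    refine ih fun ys hys x => ?_
    have hq' : ∀ ys : List ℝ, ys.length = (k + 3) + 1 → ∀ x, difs ys q x = 0 := fun zs hzs =>
      hq zs (by omega)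
    have h1 := LKB_pow hq' ys [] (by simpa using hys) (2 * x)
    rw [List.append_nil, List.append_nil, LKB_dil q hq2, hys, LKB_const hq' hys (2 * x) x] at h1
    have h2 : (8 : ℝ) ≤ 2 ^ (k + 3) := by
      have h3 : (1 : ℝ) ≤ 2 ^ k := one_le_pow₀ (by norm_num)
      rw [pow_add]
      linarith
    have h4 : ((2 : ℝ) ^ (k + 3) - 4) * difs ys q x = 0 := by
      rw [sub_mul, ← h1]
      ring
    rcases mul_eq_zero.mp h4 with h5 | h5
    · exfalso
      linarith
    · exact h5

/-! ### Newton's formula -/

private theorem LKB_iter (t : ℝ) (h : ℝ → ℝ) (j : ℕ) :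
    (fwdDiff t)^[j] h = difs (List.replicate j t) h := by
  induction j with
  | zero => rfl
  | succ j ih =>
    rw [Function.iterate_succ', Function.comp_apply, ih]
    rfl

/-- the polynomial of `h` along the multiples of `t` -/
private noncomputable def LKBpoly (N : ℕ) (h : ℝ → ℝ) (t : ℝ) : ℝ[X] :=
  ∑ j ∈ range N, C ((fwdDiff t)^[j] h 0 / (j.factorial : ℝ)) * descPochhammer ℝ j

private theorem LKB_deg (N : ℕ) (h : ℝ → ℝ) (t : ℝ) (hN : 0 < N) :
    (LKBpoly N h t).natDegree < N := by
  have h1 : (LKBpoly N h t).natDegree ≤ N - 1 := by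
    refine Polynomial.natDegree_sum_le_of_forall_le _ _ fun j hj => ?_
    refine (Polynomial.natDegree_C_mul_le _ _).trans ?_
    rw [descPochhammer_natDegree]
    have := Finset.mem_range.mp hj
    omega
  omega

private theorem LKB_eval (N : ℕ) (h : ℝ → ℝ)
    (hh : ∀ ys : List ℝ, ys.length = N → ∀ x, difs ys h x = 0) (t : ℝ) (k : ℕ) :
    (LKBpoly N h t).eval (k : ℝ) = h (k * t) := by
  have hz : ∀ j : ℕ, N ≤ j → (fwdDiff t)^[j] h 0 = 0 := by
    intro j hj
    rw [LKB_iter]
    exact LKB_mono hj hh _ (List.length_replicate) 0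
  have h1 := shift_eq_sum_fwdDiff_iter t h k 0
  rw [zero_add, nsmul_eq_mul] at h1
  have h2 : ∑ j ∈ range (max N (k + 1)), (k.choose j : ℝ) * (fwdDiff t)^[j] h 0 =
      ∑ j ∈ range (k + 1), (k.choose j : ℝ) * (fwdDiff t)^[j] h 0 := by
    symm
    refine Finset.sum_subset (fun j hj => Finset.mem_range.mpr
      (lt_of_lt_of_le (Finset.mem_range.mp hj) (le_max_right _ _))) fun j _ hj => ?_
    have h3 : k < j := by
      by_contra h4
      exact hj (Finset.mem_range.mpr (by omega))
    rw [Nat.choose_eq_zero_of_lt h3, Nat.cast_zero, zero_mul]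
  have h3 : ∑ j ∈ range (max N (k + 1)), (k.choose j : ℝ) * (fwdDiff t)^[j] h 0 =
      ∑ j ∈ range N, (k.choose j : ℝ) * (fwdDiff t)^[j] h 0 := by
    symm
    refine Finset.sum_subset (fun j hj => Finset.mem_range.mpr
      (lt_of_lt_of_le (Finset.mem_range.mp hj) (le_max_left _ _))) fun j _ hj => ?_
    have h4 : N ≤ j := by
      by_contra h5
      exact hj (Finset.mem_range.mpr (by omega))
    rw [hz j h4, mul_zero]
  rw [h1, LKBpoly, Polynomial.eval_finsetSum]
  have h4 : ∑ j ∈ range (k + 1), k.choose j • (fwdDiff t)^[j] h 0 =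
      ∑ j ∈ range (k + 1), (k.choose j : ℝ) * (fwdDiff t)^[j] h 0 :=
    Finset.sum_congr rfl fun j _ => nsmul_eq_mul _ _
  rw [h4, ← h2, h3]
  refine Finset.sum_congr rfl fun j _ => ?_
  rw [Polynomial.eval_mul, Polynomial.eval_C, descPochhammer_eval_eq_descFactorial,
    Nat.descFactorial_eq_factorial_mul_choose, Nat.cast_mul]
  have h5 : (j.factorial : ℝ) ≠ 0 := by exact_mod_cast j.factorial_ne_zero
  field_simp

/-- the coefficient of the square as a combination of values -/
private theorem LKB_weights (N : ℕ) : ∃ w : Fin N → ℝ, ∀ p : ℝ[X], p.natDegree < N →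
    ∑ l, w l * p.eval (l : ℝ) = p.coeff 2 := by
  refine ⟨fun l => (Lagrange.basis (Finset.univ : Finset (Fin N))
    (fun l : Fin N => ((l : ℕ) : ℝ)) l).coeff 2, fun p hp => ?_⟩
  have hinj : Set.InjOn (fun l : Fin N => ((l : ℕ) : ℝ)) ((Finset.univ : Finset (Fin N)) : Set (Fin N)) := by
    intro a _ b _ hab
    have h1 : ((a : ℕ) : ℝ) = ((b : ℕ) : ℝ) := hab
    exact Fin.ext (Nat.cast_injective h1)
  have hN : 0 < N := by omega
  have hdeg : p.degree < ((Finset.univ : Finset (Fin N)).card : WithBot ℕ) := by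
    rw [Finset.card_univ, Fintype.card_fin]
    exact lt_of_le_of_lt Polynomial.degree_le_natDegree (by exact_mod_cast hp)
  have h1 := Lagrange.eq_interpolate hinj hdeg
  have h2 : p.coeff 2 = (Lagrange.interpolate (Finset.univ : Finset (Fin N))
      (fun l : Fin N => ((l : ℕ) : ℝ)) fun i => p.eval ((i : ℕ) : ℝ)).coeff 2 := by
    rw [← h1]
  rw [h2, Lagrange.interpolate_apply, Polynomial.finsetSum_coeff]
  refine Finset.sum_congr rfl fun l _ => ?_
  rw [Polynomial.coeff_C_mul, mul_comm]

theorem quad_part (n : ℕ) : ∃ (m : ℕ) (w : Fin m → ℝ), ∑ l, w l * (l : ℝ) ^ 2 = 1 ∧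
    ∀ h : ℝ → ℝ, (∀ ys : List ℝ, ys.length = n → ∀ x, difs ys h x = 0) →
      ∃ b : ℝ → ℝ → ℝ, (∀ s s' t, b (s + s') t = b s t + b s' t) ∧ (∀ s t, b s t = b t s) ∧
        ∀ t, ∑ l, w l * h (l * t) = b t t := by
  obtain ⟨w, hw⟩ := LKB_weights (n + 3)
  refine ⟨n + 3, w, ?_, fun h hh => ?_⟩
  · have h1 := hw (X ^ 2) (by rw [Polynomial.natDegree_X_pow]; omega)
    rw [Polynomial.coeff_X_pow_self] at h1
    rw [← h1]
    refine Finset.sum_congr rfl fun l _ => ?_
    rw [Polynomial.eval_pow, Polynomial.eval_X]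
  · have hh3 : ∀ ys : List ℝ, ys.length = n + 3 → ∀ x, difs ys h x = 0 :=
      LKB_mono (by omega) hh
    set q : ℝ → ℝ := fun t => ∑ l, w l * h ((l : ℝ) * t) with hqdef
    -- the values of `q`
    have hqM : ∀ (M : ℕ) (t : ℝ), q (M * t) = (M : ℝ) ^ 2 * q t := by
      intro M t
      have hd := LKB_deg (n + 3) h t (by omega)
      have h1 : q t = (LKBpoly (n + 3) h t).coeff 2 := by
        rw [← hw _ hd]
        refine Finset.sum_congr rfl fun l _ => ?_
        rw [LKB_eval (n + 3) h hh3]
      have hd2 : ((LKBpoly (n + 3) h t).comp (C (M : ℝ) * X)).natDegree < n + 3 := by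
        refine lt_of_le_of_lt Polynomial.natDegree_comp_le ?_
        refine lt_of_le_of_lt (Nat.mul_le_mul_left _ ((Polynomial.natDegree_C_mul_le (M : ℝ) X).trans Polynomial.natDegree_X_le)) ?_
        rw [mul_one]
        exact hd
      have h2 := hw _ hd2
      rw [Polynomial.comp_C_mul_X_coeff, ← h1] at h2
      rw [mul_comm ((M : ℝ) ^ 2), ← h2]
      refine Finset.sum_congr rfl fun l _ => ?_
      rw [Polynomial.eval_comp, Polynomial.eval_mul, Polynomial.eval_C, Polynomial.eval_X]
      have h3 := LKB_eval (n + 3) h hh3 t (M * (l : ℕ))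
      rw [Nat.cast_mul] at h3
      rw [h3]
      have h4 : ((l : ℕ) : ℝ) * ((M : ℝ) * t) = (M : ℝ) * ((l : ℕ) : ℝ) * t := by ring
      rw [h4]
    have hq2 : ∀ t, q (2 * t) = 4 * q t := by
      intro t
      have h1 := hqM 2 t
      rw [Nat.cast_ofNat] at h1
      rw [h1]
      norm_num
    have hqd : ∀ ys : List ℝ, ys.length = n + 3 → ∀ x, difs ys q x = 0 := by
      intro ys hys x
      rw [hqdef, LKB_comb w h ys x]
      refine Finset.sum_eq_zero fun l _ => ?_
      rw [hh3 _ (by rw [List.length_map, hys]), mul_zero]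
    have hq3 := LKB_down hq2 n hqd
    have hq0 : q 0 = 0 := by
      have h1 := hq2 0
      rw [mul_zero] at h1
      linarith
    refine ⟨fun s t => (q (s + t) - q s - q t) / 2, ?_, ?_, ?_⟩
    · intro s s' t
      have h1 := hq3 [s, s', t] rfl 0
      simp only [LKB_cons] at h1
      have h2 : ∀ x, difs ([] : List ℝ) q x = q x := fun _ => rfl
      simp only [h2, zero_add] at h1
      rw [hq0] at h1
      show (q (s + s' + t) - q (s + s') - q t) / 2 =
        (q (s + t) - q s - q t) / 2 + (q (s' + t) - q s' - q t) / 2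
      linarith
    · intro s t
      show (q (s + t) - q s - q t) / 2 = (q (t + s) - q t - q s) / 2
      rw [add_comm s t]
      ring
    · intro t
      show q t = (q (t + t) - q t - q t) / 2
      rw [← two_mul, hq2]
      ring

end Vale.Agent.Lib.P058
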