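import Vale.Agent.Lib.P058L.LKillA
import Vale.Agent.Lib.P058L.LKillB
import Vale.Agent.Lib.P058C.SDef

/-!
# P058L, module LKillC: the additive form of the criterion implies the dual criterion

PROOF of `kill_tt`.  `f c = lam (Dm c)`.  `Dm` is quadratic: with `X c c' i j = (c i - c j) * (c' i - c' j)` and
`Bl c c' = lam (X c c')` (real bilinear, symmetric), `f c = Bl c c`, `f (t • c) = t ^ 2 * f c`, `f (const) = 0`, and
the `3`-fold differences of `f` on `V` vanish.
`exists_row_functions`: `f c = ∑ j, g j (c j)` on `V`.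
All `n`-fold differences of every `g j` vanish, `n = card J + 2`: let `ys` be reals, `|ys| = n`; label `card J - 1`
of them by the rows `i ≠ j`; choose `u_i ∈ V` with `u_i i = 0`, `u_i j = y_i` (from `hsep`, `hone`), and for the
remaining three the constants; apply all these differences to `f` (on `V`, at the column `x • 1`, `x : ℝ`):
the sum over rows of the differences of `g` in the directions of the entries; in a row `i ≠ j` the direction
`u_i i = 0` kills the term; so `difs ys (g j) x` = difference of `f` of order `≥ 3` `= 0`.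
`quad_part n`: weights `w`, biadditive symmetric `b j` with `∑ l, w l * g j (l * t) = b j t t`.  So for `c ∈ V`:
`f c = ∑ l, w l * l ^ 2 * f c = ∑ l, w l * f (l • c) = ∑ j, b j (c j) (c j)`; polarize:
`Bl c c' = ∑ j, b j (c j) (c' j)` for `c c' ∈ V`.  For `c = c' = const t`: `∑ j, b j t t = 0`, so (polarize)
`∑ j, b j s t = 0` for all `s t`.
Let `b̃ j : TT →+ ℝ` be the additive map with `b̃ j (tp x y) = b j x y` (`TensorProduct.lift`; additive maps are
`ℚ`-linear, `AddMonoidHom.toRatLinearMap`).  Then
`lam (∑ k, X (p k) (q k)) = ∑ k, Bl (p k) (q k) = ∑ j, b̃ j (∑ k, tp (p k j) (q k j)) = ∑ j, b̃ j τ = 0`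
(the additive map `∑ j, b̃ j` vanishes on all `tp s t`).

PROOF of `trace_of_isGood`: `p k`, `q k` the restrictions of `f k`, `g k` to `A`, in `affV A` (an affine function on
Euclidean space is `⟪w, x⟫ + b`).  `∑ k, tp (p k x) (q k x)` does not depend on `x ∈ A`: the difference `s`
of two values has `bfun φ s = 0` for all additive `φ` (`bfun_tp`), so it is `0`
(`eq_zero_of_bfun`, below: `s = ∑ i, tp (r i) (e i)` with `e i` linearly independent over `ℚ`, take for `φ` the
coordinate functions; e.g. with the basis `Module.Basis.ofVectorSpace ℚ ℝ` and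
`TensorProduct.equivFinsuppOfBasisRight`).  `hsep`: two different points of `A` are separated by an affine
function.  The matrix `∑ k, X (p k) (q k)` is `dist a b ^ 2`.
-/

namespace Vale.Agent.Lib.P058

section Difs

private theorem lk_difs_sub {E : Type} [AddCommGroup E] (us : List E) (F G : E → ℝ) :
    difs us (fun c => F c - G c) = fun c => difs us F c - difs us G c := by
  induction us with
  | nil => rfl
  | cons u us ih =>
    change dif u (difs us (fun c => F c - G c)) = _
    rw [ih]
    funext c
    change (difs us F (c + u) - difs us G (c + u)) - (difs us F c - difs us G c)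
      = (difs us F (c + u) - difs us F c) - (difs us G (c + u) - difs us G c)
    ring

private theorem lk_difs_shift {E : Type} [AddCommGroup E] (us : List E) (F : E → ℝ) (v : E) :
    difs us (fun c => F (c + v)) = fun c => difs us F (c + v) := by
  induction us with
  | nil => rfl
  | cons u us ih =>
    change dif u (difs us (fun c => F (c + v))) = _
    rw [ih]
    funext c
    change difs us F (c + u + v) - difs us F (c + v) = difs us F (c + v + u) - difs us F (c + v)
    rw [add_right_comm]

private theorem lk_difs_dif {E : Type} [AddCommGroup E] (us : List E) (F : E → ℝ) (v x : E) :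
    difs us (dif v F) x = difs us F (x + v) - difs us F x := by
  have h1 : dif v F = fun c => F (c + v) - F c := rfl
  rw [h1, lk_difs_sub us (fun c => F (c + v)) F, lk_difs_shift]

private theorem lk_difs_append {E : Type} [AddCommGroup E] (us vs : List E) (F : E → ℝ) :
    difs (us ++ vs) F = difs us (difs vs F) := by
  unfold difs
  rw [List.foldr_append]

private theorem lk_difs_comp {J : Type} (j : J) (us : List (J → ℝ)) (g : ℝ → ℝ) (x : J → ℝ) :
    difs us (fun c => g (c j)) x = difs (us.map (fun u => u j)) g (x j) := by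
  induction us generalizing x with
  | nil => rfl
  | cons u us ih =>
    change difs us (fun c => g (c j)) (x + u) - difs us (fun c => g (c j)) x = _
    rw [ih, ih]
    rfl

/-- only the values on a subgroup matter -/
private theorem lk_difs_congr {J : Type} (V : Submodule ℝ (J → ℝ)) (us : List (J → ℝ))
    (hus : ∀ u ∈ us, u ∈ V) (F G : (J → ℝ) → ℝ) (h : ∀ c ∈ V, F c = G c) (x : J → ℝ)
    (hx : x ∈ V) : difs us F x = difs us G x := by
  induction us generalizing x with
  | nil => exact h x hx
  | cons u us ih =>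
    have hu : u ∈ V := hus u (by simp)
    have hus' : ∀ u' ∈ us, u' ∈ V := fun u' hu' => hus u' (by simp [hu'])
    change difs us F (x + u) - difs us F x = difs us G (x + u) - difs us G x
    rw [ih hus' (x + u) (V.add_mem hx hu), ih hus' x hx]

end Difs

section Rows

/-- elimination of the rows different from `j` -/
private theorem lk_rows {J : Type} [DecidableEq J] (V : Submodule ℝ (J → ℝ))
    (hone : (fun _ => (1 : ℝ)) ∈ V) (hsep : ∀ i j, i ≠ j → ∃ c ∈ V, c i ≠ c j) (j : J) (m : ℕ) :
    ∀ (S : Finset J), j ∉ S → S.card = m → ∀ G : J → ℝ → ℝ,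
      (∀ us : List (J → ℝ), us.length = 3 → (∀ u ∈ us, u ∈ V) → ∀ x ∈ V,
        difs us (fun c => G j (c j) + ∑ i ∈ S, G i (c i)) x = 0) →
      ∀ ys : List ℝ, ys.length = m + 3 → ∀ x, difs ys (G j) x = 0 := by
  have hconst : ∀ t : ℝ, (fun _ => t) ∈ V := by
    intro t
    have h := V.smul_mem t hone
    have h2 : t • (fun _ : J => (1 : ℝ)) = fun _ => t := by
      funext i
      simp
    rwa [h2] at h
  induction m with
  | zero =>
    intro S hj hS G hG ys hys x
    rw [Finset.card_eq_zero] at hS
    subst hS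
    have h := hG (ys.map (fun y => fun _ => y)) (by simpa using hys) (by
      intro u hu
      rw [List.mem_map] at hu
      obtain ⟨y, -, rfl⟩ := hu
      exact hconst y) (fun _ => x) (hconst x)
    simp only [Finset.sum_empty, add_zero] at h
    rw [lk_difs_comp j _ (G j)] at h
    rw [List.map_map] at h
    have h3 : ((fun u : J → ℝ => u j) ∘ fun y : ℝ => fun _ : J => y) = id := rfl
    rw [h3, List.map_id] at h
    exact h
  | succ m ih =>
    intro S hj hS G hG ys hys x
    obtain ⟨i₀, S', hi₀, rfl, hS'⟩ := Finset.card_eq_succ.1 hS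
    rw [Finset.mem_insert, not_or] at hj
    obtain ⟨hj1, hj2⟩ := hj
    -- split off the last entry of the list
    rcases List.eq_nil_or_concat ys with h0 | ⟨ys', y, rfl⟩
    · rw [h0] at hys
      simp at hys
    · simp only [List.concat_eq_append] at hys ⊢
      rw [lk_difs_append]
      obtain ⟨c, hc, hcne⟩ := hsep i₀ j (fun h => hj1 h.symm)
      have hne : c j - c i₀ ≠ 0 := fun h => hcne (sub_eq_zero.1 h).symm
      set u : J → ℝ := (y / (c j - c i₀)) • (c - fun _ => c i₀) with hu
      have huV : u ∈ V := V.smul_mem _ (V.sub_mem hc (hconst _))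
      have hu0 : u i₀ = 0 := by
        rw [hu]
        simp
      have huj : u j = y := by
        rw [hu]
        simp only [Pi.smul_apply, Pi.sub_apply, smul_eq_mul]
        exact div_mul_cancel₀ y hne
      have h := ih S' hj2 hS' (fun i => dif (u i) (G i)) (by
        intro us hus husV z hz
        have hF : (fun c : J → ℝ => dif (u j) (G j) (c j) + ∑ i ∈ S', dif (u i) (G i) (c i))
            = dif u (fun c => G j (c j) + ∑ i ∈ insert i₀ S', G i (c i)) := by
          funext c
          unfold dif
          beta_reduce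
          rw [Finset.sum_insert hi₀, Finset.sum_insert hi₀, Finset.sum_sub_distrib]
          simp only [Pi.add_apply, hu0, add_zero]
          ring
        rw [hF, lk_difs_dif, hG us hus husV (z + u) (V.add_mem hz huV), hG us hus husV z hz,
          sub_zero]) ys' (by simp at hys; omega) x
      rw [huj] at h
      exact h

end Rows

section Main

variable {J : Type}

/-- the mixed matrix of two columns -/
private def lkX (c c' : J → ℝ) : J → J → ℝ := fun i j => (c i - c j) * (c' i - c' j)

private theorem lkX_self (c : J → ℝ) : lkX c c = Dm c := by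
  funext i j
  unfold lkX Dm
  ring

private theorem lk_Dm_add (c c' : J → ℝ) : Dm (c + c') = Dm c + Dm c' + (2 : ℝ) • lkX c c' := by
  funext i j
  simp only [Dm, lkX, Pi.add_apply, Pi.smul_apply, smul_eq_mul]
  ring

private theorem lk_Dm_smul (t : ℝ) (c : J → ℝ) : Dm (t • c) = (t ^ 2) • Dm c := by
  funext i j
  simp only [Dm, Pi.smul_apply, smul_eq_mul]
  ring

private theorem lkX_add_left (a b c : J → ℝ) : lkX (a + b) c = lkX a c + lkX b c := by
  funext i j
  simp only [lkX, Pi.add_apply]
  ring

private theorem lkX_add_right (a b c : J → ℝ) : lkX a (b + c) = lkX a b + lkX a c := by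
  funext i j
  simp only [lkX, Pi.add_apply]
  ring

/-- third differences of the quadratic function vanish -/
private theorem lk_three (lam : (J → J → ℝ) →ₗ[ℝ] ℝ) (us : List (J → ℝ)) (hus : us.length = 3)
    (x : J → ℝ) : difs us (fun c => lam (Dm c)) x = 0 := by
  obtain ⟨a, b, c, rfl⟩ := List.length_eq_three.1 hus
  have h1 : ∀ z v : J → ℝ, lam (Dm (z + v)) = lam (Dm z) + lam (Dm v) + 2 * lam (lkX z v) := by
    intro z v
    rw [lk_Dm_add, map_add, map_add, map_smul, smul_eq_mul]
  change ((lam (Dm (x + a + b + c)) - lam (Dm (x + a + b))) -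
      (lam (Dm (x + a + c)) - lam (Dm (x + a)))) -
    ((lam (Dm (x + b + c)) - lam (Dm (x + b))) - (lam (Dm (x + c)) - lam (Dm x))) = 0
  simp only [h1, lkX_add_left, map_add]
  ring

/-- the additive map on the tensor product attached to a biadditive function -/
private theorem lk_lift (b : ℝ → ℝ → ℝ) (h1 : ∀ s s' t, b (s + s') t = b s t + b s' t)
    (h2 : ∀ s t, b s t = b t s) : ∃ B : TT →+ ℝ, ∀ x y, B (tp x y) = b x y := by
  have h3 : ∀ s t t', b s (t + t') = b s t + b s t' := by
    intro s t t'
    rw [h2 s (t + t'), h1, h2 t s, h2 t' s]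
  have h4 : ∀ (c : ℚ) (s t : ℝ), b (c • s) t = c • b s t := by
    intro c s t
    exact map_rat_smul (AddMonoidHom.mk' (fun s => b s t) (fun s s' => h1 s s' t)) c s
  have h5 : ∀ (c : ℚ) (s t : ℝ), b s (c • t) = c • b s t := by
    intro c s t
    rw [h2 s (c • t), h4, h2 t s]
  refine ⟨(TensorProduct.lift (LinearMap.mk₂ ℚ b h1 (fun c s t => h4 c s t) h3
    (fun c s t => h5 c s t))).toAddMonoidHom, ?_⟩
  intro x y
  rfl

end Main

theorem kill_tt {J : Type} [Fintype J] [DecidableEq J] [Nonempty J] (V : Submodule ℝ (J → ℝ))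
    (hone : (fun _ => (1 : ℝ)) ∈ V) (hsep : ∀ i j, i ≠ j → ∃ c ∈ V, c i ≠ c j)
    (lam : (J → J → ℝ) →ₗ[ℝ] ℝ)
    (h : ∀ L L' : List (J → ℝ), (∀ c ∈ L, c ∈ V) → (∀ c ∈ L', c ∈ V) → RowEq L L' →
      lam (DL L) = lam (DL L'))
    (n : ℕ) (p q : Fin n → J → ℝ) (hp : ∀ k, p k ∈ V) (hq : ∀ k, q k ∈ V) (τ : TT)
    (hτ : ∀ j, ∑ k, tp (p k j) (q k j) = τ) :
    lam (fun i j => ∑ k, (p k i - p k j) * (q k i - q k j)) = 0 := by
  have hconst : ∀ t : ℝ, (fun _ => t) ∈ V := by
    intro t
    have h := V.smul_mem t hone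
    have h2 : t • (fun _ : J => (1 : ℝ)) = fun _ => t := by
      funext i
      simp
    rwa [h2] at h
  have hDL : ∀ L : List (J → ℝ), (L.map (fun c => lam (Dm c))).sum = lam (DL L) := by
    intro L
    unfold DL
    rw [map_list_sum, List.map_map]
    rfl
  obtain ⟨g, hg⟩ := exists_row_functions (V : Set (J → ℝ)) (fun c => lam (Dm c)) (by
    intro L L' hL hL' hr
    rw [hDL, hDL]
    exact h L L' hL hL' hr)
  -- differences of the row functions
  have hdiff : ∀ (j : J) (ys : List ℝ), ys.length = (Fintype.card J - 1) + 3 →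
      ∀ x, difs ys (g j) x = 0 := by
    intro j
    refine lk_rows V hone hsep j (Fintype.card J - 1) (Finset.univ.erase j) (by simp)
      (by rw [Finset.card_erase_of_mem (Finset.mem_univ j), Finset.card_univ]) g ?_
    intro us hus husV x hx
    have h1 : ∀ c ∈ V, (fun c : J → ℝ => g j (c j) + ∑ i ∈ Finset.univ.erase j, g i (c i)) c
        = (fun c => lam (Dm c)) c := by
      intro c hc
      simp only
      rw [Finset.add_sum_erase Finset.univ (fun i => g i (c i)) (Finset.mem_univ j)]
      exact (hg c hc).symm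
    rw [lk_difs_congr V us husV _ _ h1 x hx]
    exact lk_three lam us hus x
  obtain ⟨m, w, hw, hquad⟩ := quad_part ((Fintype.card J - 1) + 3)
  choose b hb1 hb2 hb3 using fun j => hquad (g j) (hdiff j)
  -- the quadratic function through the biadditive functions
  have hf : ∀ c ∈ V, lam (Dm c) = ∑ j, b j (c j) (c j) := by
    intro c hc
    calc lam (Dm c) = (∑ l, w l * ((l : ℕ) : ℝ) ^ 2) * lam (Dm c) := by rw [hw, one_mul]
      _ = ∑ l, w l * lam (Dm ((((l : ℕ) : ℝ)) • c)) := by
          rw [Finset.sum_mul]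
          refine Finset.sum_congr rfl fun l _ => ?_
          rw [lk_Dm_smul, map_smul, smul_eq_mul, mul_assoc]
      _ = ∑ l, w l * ∑ j, g j (((l : ℕ) : ℝ) * c j) := by
          refine Finset.sum_congr rfl fun l _ => ?_
          have := hg _ (V.smul_mem ((l : ℕ) : ℝ) hc)
          simp only [Pi.smul_apply, smul_eq_mul] at this
          rw [this]
      _ = ∑ j, ∑ l, w l * g j (((l : ℕ) : ℝ) * c j) := by
          simp only [Finset.mul_sum]
          exact Finset.sum_comm
      _ = ∑ j, b j (c j) (c j) := Finset.sum_congr rfl fun j _ => hb3 j (c j)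
  -- polarization
  have hpol : ∀ c ∈ V, ∀ c' ∈ V, lam (lkX c c') = ∑ j, b j (c j) (c' j) := by
    intro c hc c' hc'
    have h1 := hf (c + c') (V.add_mem hc hc')
    have h2 := hf c hc
    have h3 := hf c' hc'
    rw [lk_Dm_add, map_add, map_add, map_smul, smul_eq_mul] at h1
    have h4 : ∑ j, b j ((c + c') j) ((c + c') j)
        = ∑ j, b j (c j) (c j) + ∑ j, b j (c' j) (c' j) + 2 * ∑ j, b j (c j) (c' j) := by
      rw [Finset.mul_sum, ← Finset.sum_add_distrib, ← Finset.sum_add_distrib]
      refine Finset.sum_congr rfl fun j _ => ?_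
      rw [Pi.add_apply, hb1, hb2 j (c j) (c j + c' j), hb2 j (c' j) (c j + c' j), hb1, hb1,
        hb2 j (c' j) (c j)]
      ring
    rw [h4] at h1
    linarith
  -- constants
  have hzero : ∀ s t : ℝ, ∑ j, b j s t = 0 := by
    intro s t
    have h1 := hpol (fun _ => s) (hconst s) (fun _ => t) (hconst t)
    rw [← h1]
    have h2 : lkX (fun _ : J => s) (fun _ => t) = 0 := by
      funext i j
      simp [lkX]
    rw [h2, map_zero]
  choose B hB using fun j => lk_lift (b j) (hb1 j) (hb2 j)
  have hsumB : ∀ s : TT, ∑ j, B j s = 0 := by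
    intro s
    induction s using TT_induction with
    | h0 => simp
    | h1 x y =>
      simp only [hB]
      exact hzero x y
    | h2 s t hs ht =>
      simp only [map_add]
      rw [Finset.sum_add_distrib, hs, ht, add_zero]
  have hfun : (fun i j => ∑ k, (p k i - p k j) * (q k i - q k j)) = ∑ k, lkX (p k) (q k) := by
    funext i j
    rw [Finset.sum_apply, Finset.sum_apply]
    rfl
  rw [hfun, map_sum]
  calc ∑ k, lam (lkX (p k) (q k)) = ∑ k, ∑ j, b j (p k j) (q k j) :=
        Finset.sum_congr rfl fun k _ => hpol _ (hp k) _ (hq k)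
    _ = ∑ j, ∑ k, b j (p k j) (q k j) := Finset.sum_comm
    _ = ∑ j, B j τ := by
        refine Finset.sum_congr rfl fun j _ => ?_
        rw [← hτ j, map_sum]
        exact Finset.sum_congr rfl fun k _ => (hB j _ _).symm
    _ = 0 := hsumB τ

theorem eq_zero_of_bfun' (s : TT) (h : ∀ φ : ℝ →+ ℝ, bfun φ s = 0) : s = 0 := by
  classical
  set Bs := Module.Basis.ofVectorSpace ℚ ℝ with hBs
  have key : ∀ (i : _) (t : TT), TensorProduct.equivFinsuppOfBasisRight (M := ℝ) Bs t i
      = bfun (AddMonoidHom.mk' (fun y : ℝ => ((Bs.repr y i : ℚ) : ℝ)) (by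
          intro y z
          rw [map_add, Finsupp.add_apply, Rat.cast_add])) t := by
    intro i t
    induction t using TT_induction with
    | h0 => simp
    | h1 x y =>
      rw [bfun_tp]
      unfold tp
      rw [TensorProduct.equivFinsuppOfBasisRight_apply_tmul_apply, Rat.smul_def, mul_comm]
      rfl
    | h2 a b ha hb => rw [map_add, map_add, Finsupp.add_apply, ha, hb]
  have h2 : TensorProduct.equivFinsuppOfBasisRight (M := ℝ) Bs s = 0 := by
    ext i
    rw [key i s, h]
    rfl
  exact (LinearEquiv.map_eq_zero_iff _).1 h2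

theorem trace_of_isGood {d : ℕ} (A : Set (EuclideanSpace ℝ (Fin d))) (hfin : A.Finite)
    (hne : A.Nonempty) (h : IsGood A) (lam : (A → A → ℝ) →ₗ[ℝ] ℝ)
    (hl : ∀ L L' : List (A → ℝ), (∀ c ∈ L, c ∈ affV A) → (∀ c ∈ L', c ∈ affV A) → RowEq L L' →
      lam (DL L) = lam (DL L')) : lam (fun a b => dist a b ^ 2) = 0 := by
  classical
  obtain ⟨n, f, g, hfg, hφ⟩ := h
  have : Fintype A := hfin.fintype
  have : Nonempty A := hne.to_subtype
  have haff : ∀ F : EuclideanSpace ℝ (Fin d) →ᵃ[ℝ] ℝ,
      (fun a : A => F (a : EuclideanSpace ℝ (Fin d))) ∈ affV A := by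
    intro F
    refine ⟨(InnerProductSpace.toDual ℝ (EuclideanSpace ℝ (Fin d))).symm
      (LinearMap.toContinuousLinearMap F.linear), F 0, fun a => ?_⟩
    rw [InnerProductSpace.toDual_symm_apply]
    have h1 := F.map_vadd 0 (a : EuclideanSpace ℝ (Fin d))
    simpa using h1
  obtain ⟨a₀⟩ := (inferInstance : Nonempty A)
  have key := kill_tt (affV A) ⟨0, 1, fun a => by simp⟩ (by
    intro i j hij
    refine ⟨fun a : A => inner ℝ ((i : EuclideanSpace ℝ (Fin d)) - j) (a : EuclideanSpace ℝ (Fin d)),
      ⟨(i : EuclideanSpace ℝ (Fin d)) - j, 0, fun a => by rw [add_zero]⟩, ?_⟩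
    intro h0
    simp only at h0
    rw [← sub_eq_zero, ← inner_sub_right, inner_self_eq_zero, sub_eq_zero] at h0
    exact hij (Subtype.ext h0)) lam hl n (fun k (a : A) => f k a) (fun k (a : A) => g k a)
    (fun k => haff (f k)) (fun k => haff (g k))
    (∑ k, tp (f k (a₀ : EuclideanSpace ℝ (Fin d))) (g k (a₀ : EuclideanSpace ℝ (Fin d)))) (by
      intro a
      rw [← sub_eq_zero]
      refine eq_zero_of_bfun' _ fun φ => ?_
      rw [map_sub, map_sum, map_sum, sub_eq_zero]
      simp only [bfun_tp]
      exact hφ φ a a.2 a₀ a₀.2)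
  have hfun : (fun a b : A => dist a b ^ 2) = fun a b : A => ∑ k,
      (f k (a : EuclideanSpace ℝ (Fin d)) - f k b) * (g k (a : EuclideanSpace ℝ (Fin d)) - g k b) := by
    funext a b
    rw [hfg a a.2 b b.2]
    rfl
  rw [hfun]
  exact key

end Vale.Agent.Lib.P058
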