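import Vale.Agent.Lib.P058L.LNull

/-!
# P058L, module LLift: lifting of row-equal lists

`InG.toInP`: induction (`mu (G i i) + mu (G j j) - 2 * mu (G i j)` is additive, `0` for constants, and
`(c i - c j) ^ 2` for `Gc c`); so `WS_gram` gives
`InP V (WS k (L.map e0)) (N • DL L)`, `N = L.length.factorial ^ k`.

PROOF of `lift_pair`.  `RowEq L L'` and `[Nonempty J]` give `L.length = L'.length`; let
`k = Fintype.card J`, `N = L.length.factorial ^ k ≥ 1`, `X = WS k (L.map e0)`, `Y = WS k (L'.map e0)`: costs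
`N • DL L`, `N • DL L'`.  `(Y j)⁻¹ * X j ∈ gam (k + 1) ≤ gam (card J - 1)`: evaluation at the row `j`
(`Pi.evalMonoidHom`, `WS_map`), `WS_perm`, since the lists of letters `e_{c j}` (elements of `F0`, cf. `WS_rows` and
`e0`) are permutations of each other.
Claim (induction on a finset `S`): for every `η' > 0` there are `A B` with `InP` costs `≤ η'` such that
`X j * A j = Y j * B j` for `j ∈ S` and `(Y j * B j)⁻¹ * (X j * A j) ∈ gam (card J - 1)` for all `j`.
Step `insert j S`: `r = (Y j * B j)⁻¹ * (X j * A j) ∈ gam (card J - 1)`, `null_pair` gives small `A' B'` with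
`B' = Pi.mulSingle j r * A'`; take `A * A'`, `B * B'`: row `j`: `Y_j B_j B'_j = Y_j B_j r A'_j = X_j A_j A'_j`; a row
`i ≠ j`: `A'_i = B'_i`, and the discrepancy is conjugated by `A'_i` (`gam_normal`).
With `S = univ`, `v₀ = X * A = Y * B` has the costs `N • DL L + D_A`, `N • DL L' + D_B`, and
`InP.affine hone 0 δ` with `δ = 1 / √N` gives `v` with the costs `DL L + D_A / N`, `DL L' + D_B / N`, and
`0 ≤ D_A, D_B ≤ η'` (`InP.nonneg`), `N ≥ 1`.
-/

namespace Vale.Agent.Lib.P058

theorem InG.toInP {J : Type} {V : Set (J → ℝ)} {v : J → FreeGroup ℝ} {G : J → J → TT}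
    (h : InG V v G) : InP V v (fun i j => mu (G i i) + mu (G j j) - 2 * mu (G i j)) := by
  induction h with
  | const b =>
    refine (InP.const b).of_eq rfl ?_
    funext i j
    simp
  | col c hc =>
    refine (InP.col c hc).of_eq rfl ?_
    funext i j
    simp only [Dm, Gc, mu_tp]
    ring
  | mul _ _ ih ih' =>
    refine (InP.mul ih ih').of_eq rfl ?_
    funext i j
    simp only [Pi.add_apply, map_add]
    ring

private theorem lift_cost {J : Type} (L : List (J → ℝ)) (i j : J) :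
    mu ((L.map Gc).sum i i) + mu ((L.map Gc).sum j j) - 2 * mu ((L.map Gc).sum i j) =
      DL L i j := by
  induction L with
  | nil => simp [DL]
  | cons c L ih =>
    have h1 : DL (c :: L) i j = Dm c i j + DL L i j := by
      simp [DL]
    rw [h1, ← ih]
    simp only [List.map_cons, List.sum_cons, Pi.add_apply, map_add, Dm, Gc, mu_tp]
    ring

private theorem lift_WS {J : Type} {V : Submodule ℝ (J → ℝ)} (k : ℕ)
    (L : List (J → ℝ)) (hL : ∀ c ∈ L, c ∈ V) :
    InP (V : Set (J → ℝ)) (WS k (L.map e0)) (((L.length.factorial ^ k : ℕ) : ℝ) • DL L) := by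
  refine (WS_gram (V := (V : Set (J → ℝ))) k L hL).toInP.of_eq rfl ?_
  funext i j
  have h1 : ∀ i j : J, mu (((L.length.factorial ^ k) • (L.map Gc).sum) i j) =
      ((L.length.factorial ^ k : ℕ) : ℝ) * mu ((L.map Gc).sum i j) := by
    intro i j
    rw [Pi.smul_apply, Pi.smul_apply, map_nsmul, nsmul_eq_mul]
  rw [h1, h1, h1, Pi.smul_apply, Pi.smul_apply, smul_eq_mul, ← lift_cost L i j]
  ring

private theorem lift_row {J : Type} (k : ℕ) (L : List (J → ℝ)) (i : J) :
    WS k (L.map e0) i =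
      WS k ((L.map (fun c => c i)).map (fun x => FreeGroup.of x * (FreeGroup.of 0)⁻¹)) := by
  have h2 := WS_map (Pi.evalMonoidHom (fun _ : J => FreeGroup ℝ) i) k (L.map e0)
  rw [List.map_map] at h2
  rw [List.map_map]
  exact h2

private theorem lift_disc {J : Type} (k : ℕ) {L L' : List (J → ℝ)} (h : RowEq L L') (j : J) :
    (WS k (L'.map e0) j)⁻¹ * WS k (L.map e0) j ∈ gam (k + 1) := by
  rw [lift_row, lift_row]
  apply WS_perm
  · exact ((h j).symm).map _
  · intro x hx
    obtain ⟨y, _, rfl⟩ := List.mem_map.1 hx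
    exact Subgroup.subset_normalClosure ⟨y, 0, rfl⟩

private theorem lift_claim {J : Type} [Fintype J] [DecidableEq J] {V : Submodule ℝ (J → ℝ)}
    (hone : (fun _ => (1 : ℝ)) ∈ V) (hsep : ∀ i j, i ≠ j → ∃ c ∈ V, c i ≠ c j)
    (X Y : J → FreeGroup ℝ) (hXY : ∀ j, (Y j)⁻¹ * X j ∈ gam (Fintype.card J - 1))
    (S : Finset J) : ∀ η : ℝ, 0 < η →
    ∃ (A B : J → FreeGroup ℝ) (DA DB : J → J → ℝ), InP (V : Set (J → ℝ)) A DA ∧
      InP (V : Set (J → ℝ)) B DB ∧ (∀ i l, DA i l ≤ η) ∧ (∀ i l, DB i l ≤ η) ∧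
      (∀ j ∈ S, X j * A j = Y j * B j) ∧
      ∀ j, (Y j * B j)⁻¹ * (X j * A j) ∈ gam (Fintype.card J - 1) := by
  induction S using Finset.induction_on with
  | empty =>
    intro η hη
    refine ⟨1, 1, 0, 0, InP.const 1, InP.const 1, fun _ _ => hη.le, fun _ _ => hη.le, by simp, ?_⟩
    intro j
    simpa using hXY j
  | insert j S hj ih =>
    intro η hη
    obtain ⟨A, B, DA, DB, hA, hB, hDA, hDB, hS, hd⟩ := ih (η / 2) (by linarith)
    obtain ⟨A', B', DA', DB', hA', hB', hDA', hDB', hBA⟩ :=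
      null_pair hone hsep j _ (hd j) (η / 2) (by linarith)
    have hne : ∀ i, i ≠ j → B' i = A' i := by
      intro i hi
      rw [hBA, Pi.mul_apply, Pi.mulSingle_eq_of_ne hi, one_mul]
    have heq : B' j = ((Y j * B j)⁻¹ * (X j * A j)) * A' j := by
      rw [hBA, Pi.mul_apply, Pi.mulSingle_eq_same]
    have hrow : X j * (A * A') j = Y j * (B * B') j := by
      rw [Pi.mul_apply, Pi.mul_apply, heq]
      group
    refine ⟨A * A', B * B', DA + DA', DB + DB', InP.mul hA hA', InP.mul hB hB', ?_, ?_, ?_, ?_⟩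
    · intro i l
      have h1 := hDA i l
      have h2 := hDA' i l
      simp only [Pi.add_apply]
      linarith
    · intro i l
      have h1 := hDB i l
      have h2 := hDB' i l
      simp only [Pi.add_apply]
      linarith
    · intro i hi
      rcases Finset.mem_insert.1 hi with rfl | hi'
      · exact hrow
      · have hij : i ≠ j := fun he => hj (he ▸ hi')
        rw [Pi.mul_apply, Pi.mul_apply, hne i hij, ← mul_assoc, ← mul_assoc, hS i hi']
    · intro i
      by_cases hij : i = j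
      · subst hij
        rw [hrow, inv_mul_cancel]
        exact one_mem _
      · rw [Pi.mul_apply, Pi.mul_apply, hne i hij]
        have h3 : (Y i * (B i * A' i))⁻¹ * (X i * (A i * A' i)) =
            (A' i)⁻¹ * ((Y i * B i)⁻¹ * (X i * A i)) * ((A' i)⁻¹)⁻¹ := by
          group
        rw [h3]
        exact (gam_normal _).conj_mem _ (hd i) _

theorem lift_pair {J : Type} [Fintype J] [DecidableEq J] [Nonempty J] {V : Submodule ℝ (J → ℝ)}
    (hone : (fun _ => (1 : ℝ)) ∈ V) (hsep : ∀ i j, i ≠ j → ∃ c ∈ V, c i ≠ c j)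
    (L L' : List (J → ℝ)) (hL : ∀ c ∈ L, c ∈ V) (hL' : ∀ c ∈ L', c ∈ V) (h : RowEq L L')
    (η : ℝ) (hη : 0 < η) :
    ∃ (v : J → FreeGroup ℝ) (D D' : J → J → ℝ), InP (V : Set (J → ℝ)) v D ∧
      InP (V : Set (J → ℝ)) v D' ∧ (∀ i l, |D i l - DL L i l| ≤ η) ∧
      ∀ i l, |D' i l - DL L' i l| ≤ η := by
  have hlen : L.length = L'.length := by
    obtain ⟨j0⟩ := ‹Nonempty J›
    simpa using (h j0).length_eq
  set k : ℕ := Fintype.card J with hk
  have hX := lift_WS (V := V) k L hL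
  have hY := lift_WS (V := V) k L' hL'
  rw [← hlen] at hY
  set N : ℕ := L.length.factorial ^ k with hN
  have hN1 : (1 : ℝ) ≤ (N : ℝ) := by
    have : 0 < N := pow_pos (Nat.factorial_pos _) _
    exact_mod_cast this
  have hd : ∀ j, (WS k (L'.map e0) j)⁻¹ * WS k (L.map e0) j ∈ gam (Fintype.card J - 1) :=
    fun j => gam_anti (by omega) (lift_disc k h j)
  obtain ⟨A, B, DA, DB, hA, hB, hDA, hDB, hS, -⟩ :=
    lift_claim hone hsep _ _ hd Finset.univ η hη
  have hv : WS k (L'.map e0) * B = WS k (L.map e0) * A := by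
    funext j
    exact (hS j (Finset.mem_univ j)).symm
  have h1 := InP.affine hone 0 (1 / Real.sqrt N) (InP.mul hX hA)
  have h2 := InP.affine hone 0 (1 / Real.sqrt N) ((InP.mul hY hB).of_eq hv rfl)
  have hδ : (1 / Real.sqrt N) ^ 2 = 1 / (N : ℝ) := by
    rw [div_pow, one_pow, Real.sq_sqrt (by linarith)]
  have key : ∀ (D0 D1 : J → J → ℝ), (∀ i l, 0 ≤ D1 i l) → (∀ i l, D1 i l ≤ η) → ∀ i l,
      |(((1 / Real.sqrt N) ^ 2 • ((N : ℝ) • D0 + D1)) i l) - D0 i l| ≤ η := by
    intro D0 D1 hD0 hD1 i l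
    have h3 : (((1 / Real.sqrt N) ^ 2 • ((N : ℝ) • D0 + D1)) i l) - D0 i l = D1 i l / N := by
      rw [hδ]
      simp only [Pi.smul_apply, Pi.add_apply, smul_eq_mul]
      field_simp
      ring
    rw [h3, abs_of_nonneg (div_nonneg (hD0 i l) (by linarith))]
    exact (div_le_self (hD0 i l) hN1).trans (hD1 i l)
  exact ⟨_, _, _, h1, h2, key _ _ (fun i l => hA.nonneg i l) hDA,
    key _ _ (fun i l => hB.nonneg i l) hDB⟩

end Vale.Agent.Lib.P058
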