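import Vale.Agent.Lib.P058L.LDef

/-!
# P058L, module LMean: averaging over translations

`exists_mean`: for a finite set `T` of reals and `N ≥ 1` let
`av T N φ = (1 / N ^ |T|) * ∑_{k : T → Fin N} φ (∑_{t ∈ T} k t * t)`.  Let `U` be an ultrafilter on
`Finset ℝ × ℕ` with `U ≤ atTop` (`Ultrafilter.of`; nonempty directed order), and `Mn φ` the limit of
`av T N φ` along `U` if `φ` is bounded (a bounded real function has a limit along an ultrafilter:
compactness of `Set.Icc`, e.g. `Ultrafilter.le_nhds_lim` / `isCompact_iff_ultrafilter_le_nhds`;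
or define `Mn φ = limUnder`, or use `Filter.Tendsto` of `Real`..), `0` otherwise.  Positivity, additivity,
constants: clear.  Translations: for `t ∈ T` the sums for `φ (· + t)` and `φ` differ only in the boundary terms
(`k t = 0` and `k t = N`): `|av T N (φ (· + t)) - av T N φ| ≤ 2 * sup |φ| / N → 0`; and `t ∈ T` for `U`-almost all
`(T, N)`.

`exists_invariant`: `g c = Mn (fun m => f (fun j => c j + m))` for `c ∈ V`; the function is bounded by
`- Qm c` and `Qp c` (`hQp`, `hQm`, and `V` is stable under adding constants by `hone`).  The list identity: for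
`RowEq L L'` also the translated lists are `RowEq`, so
`∑_{c ∈ L} f (c + m) = ∑_{c ∈ L'} f (c + m)` for all `m`, and `Mn` is additive (induction over the list).
-/

namespace Vale.Agent.Lib.P058

open Filter Topology

/-- iterated averages over arithmetic progressions -/
private noncomputable def avl (N : ℕ) : List ℝ → (ℝ → ℝ) → (ℝ → ℝ)
  | [], φ => φ
  | t :: l, φ => fun x => (∑ k ∈ Finset.range N, avl N l φ (x + k * t)) / N

private theorem avl_add (N : ℕ) (l : List ℝ) (φ ψ : ℝ → ℝ) (x : ℝ) :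
    avl N l (fun y => φ y + ψ y) x = avl N l φ x + avl N l ψ x := by
  induction l generalizing x with
  | nil => rfl
  | cons t l ih =>
    simp only [avl]
    rw [Finset.sum_congr rfl fun k _ => ih _, Finset.sum_add_distrib, add_div]

private theorem avl_trans (N : ℕ) (l : List ℝ) (φ : ℝ → ℝ) (s x : ℝ) :
    avl N l (fun y => φ (y + s)) x = avl N l φ (x + s) := by
  induction l generalizing x with
  | nil => rfl
  | cons t l ih =>
    simp only [avl]
    rw [Finset.sum_congr rfl fun k _ => ih _]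
    congr 1
    refine Finset.sum_congr rfl fun k _ => ?_
    congr 1
    ring

private theorem avl_le (N : ℕ) (hN : 0 < N) (l : List ℝ) (φ : ℝ → ℝ) (b : ℝ)
    (h : ∀ x, φ x ≤ b) (x : ℝ) : avl N l φ x ≤ b := by
  induction l generalizing x with
  | nil => exact h x
  | cons t l ih =>
    simp only [avl]
    have hN' : (0 : ℝ) < N := by exact_mod_cast hN
    rw [div_le_iff₀ hN']
    refine (Finset.sum_le_card_nsmul _ _ b fun k _ => ih _).trans ?_
    rw [Finset.card_range, nsmul_eq_mul, mul_comm]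

private theorem le_avl (N : ℕ) (hN : 0 < N) (l : List ℝ) (φ : ℝ → ℝ) (a : ℝ)
    (h : ∀ x, a ≤ φ x) (x : ℝ) : a ≤ avl N l φ x := by
  induction l generalizing x with
  | nil => exact h x
  | cons t l ih =>
    simp only [avl]
    have hN' : (0 : ℝ) < N := by exact_mod_cast hN
    rw [le_div_iff₀ hN']
    refine le_trans ?_ (Finset.card_nsmul_le_sum _ _ a fun k _ => ih _)
    rw [Finset.card_range, nsmul_eq_mul, mul_comm]

/-- almost invariance -/
private theorem avl_inv (N : ℕ) (hN : 0 < N) (l : List ℝ) (φ : ℝ → ℝ) (K : ℝ)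
    (h : ∀ x, |φ x| ≤ K) (t : ℝ) (ht : t ∈ l) (x : ℝ) :
    |avl N l φ (x + t) - avl N l φ x| ≤ 2 * K / N := by
  have hN' : (0 : ℝ) < N := by exact_mod_cast hN
  induction l generalizing x with
  | nil => simp at ht
  | cons s l ih =>
    rcases List.mem_cons.1 ht with e | ht'
    · subst e
      simp only [avl]
      rw [← sub_div, ← Finset.sum_sub_distrib]
      have h1 : ∀ k ∈ Finset.range N, avl N l φ (x + t + k * t) - avl N l φ (x + k * t) =
          (fun k : ℕ => avl N l φ (x + k * t)) (k + 1) -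
            (fun k : ℕ => avl N l φ (x + k * t)) k := by
        intro k _
        simp only
        congr 2
        push_cast
        ring
      have h1' := Finset.sum_range_sub (fun k : ℕ => avl N l φ (x + k * t)) N
      rw [Finset.sum_congr rfl h1, h1', abs_div, abs_of_pos hN']
      refine div_le_div_of_nonneg_right ?_ hN'.le
      have h2 := avl_le N hN l φ K (fun y => (abs_le.1 (h y)).2)
      have h3 := le_avl N hN l φ (-K) (fun y => (abs_le.1 (h y)).1)
      rw [abs_le]
      constructor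
      · linarith [h3 (x + (N : ℕ) * t), h2 (x + ((0 : ℕ) : ℝ) * t)]
      · linarith [h2 (x + (N : ℕ) * t), h3 (x + ((0 : ℕ) : ℝ) * t)]
    · simp only [avl]
      rw [← sub_div, ← Finset.sum_sub_distrib, abs_div, abs_of_pos hN', div_le_iff₀ hN']
      refine (Finset.abs_sum_le_sum_abs _ _).trans ?_
      refine (Finset.sum_le_card_nsmul _ _ (2 * K / N) fun k _ => ?_).trans ?_
      · have h1 : x + t + k * s = x + k * s + t := by ring
        rw [h1]
        exact ih ht' _
      · rw [Finset.card_range, nsmul_eq_mul, mul_comm]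

/-- the ultrafilter -/
private noncomputable def UF : Ultrafilter (Finset ℝ × ℕ) := Ultrafilter.of atTop

private theorem UF_le : (UF : Filter (Finset ℝ × ℕ)) ≤ atTop := Ultrafilter.of_le _

private noncomputable def ap (φ : ℝ → ℝ) (p : Finset ℝ × ℕ) : ℝ := avl p.2 p.1.toList φ 0

private theorem ev_pos : ∀ᶠ p in (UF : Filter (Finset ℝ × ℕ)), 0 < p.2 := by
  apply UF_le
  filter_upwards [eventually_ge_atTop ((∅, 1) : Finset ℝ × ℕ)] with p hp
  exact hp.2

private theorem ev_mem (t : ℝ) : ∀ᶠ p in (UF : Filter (Finset ℝ × ℕ)), t ∈ p.1 := by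
  apply UF_le
  filter_upwards [eventually_ge_atTop (({t}, 0) : Finset ℝ × ℕ)] with p hp
  exact hp.1 (Finset.mem_singleton_self t)

private theorem tend_snd : Tendsto (fun p : Finset ℝ × ℕ => p.2)
    (UF : Filter (Finset ℝ × ℕ)) atTop := by
  refine Tendsto.mono_left ?_ UF_le
  rw [← prod_atTop_atTop_eq]
  exact tendsto_snd

private noncomputable def Mn0 (φ : ℝ → ℝ) : ℝ := limUnder (UF : Filter (Finset ℝ × ℕ)) (ap φ)

private theorem Mn0_tendsto (φ : ℝ → ℝ) (a b : ℝ) (ha : ∀ x, a ≤ φ x) (hb : ∀ x, φ x ≤ b) :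
    Tendsto (ap φ) (UF : Filter (Finset ℝ × ℕ)) (𝓝 (Mn0 φ)) := by
  have h1 : ((UF.map (ap φ) : Ultrafilter ℝ) : Filter ℝ) ≤ 𝓟 (Set.Icc a b) := by
    rw [le_principal_iff, Ultrafilter.mem_coe, Ultrafilter.mem_map]
    filter_upwards [ev_pos] with p hp
    exact ⟨le_avl _ hp _ _ _ ha _, avl_le _ hp _ _ _ hb _⟩
  obtain ⟨x, _, hx⟩ := isCompact_Icc.ultrafilter_le_nhds _ h1
  have h2 : Tendsto (ap φ) (UF : Filter (Finset ℝ × ℕ)) (𝓝 x) := hx
  unfold Mn0
  rw [h2.limUnder_eq]
  exact h2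

private theorem Mn0_tendsto' (φ : ℝ → ℝ) (h : ∃ K, ∀ x, |φ x| ≤ K) :
    Tendsto (ap φ) (UF : Filter (Finset ℝ × ℕ)) (𝓝 (Mn0 φ)) := by
  obtain ⟨K, hK⟩ := h
  exact Mn0_tendsto φ (-K) K (fun x => (abs_le.1 (hK x)).1) fun x => (abs_le.1 (hK x)).2

theorem exists_mean : ∃ Mn : (ℝ → ℝ) → ℝ,
    (∀ φ ψ : ℝ → ℝ, (∃ K, ∀ x, |φ x| ≤ K) → (∃ K, ∀ x, |ψ x| ≤ K) →
      Mn (fun x => φ x + ψ x) = Mn φ + Mn ψ) ∧
    (∀ (φ : ℝ → ℝ) (a b : ℝ), (∀ x, a ≤ φ x) → (∀ x, φ x ≤ b) → a ≤ Mn φ ∧ Mn φ ≤ b) ∧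
    ∀ (φ : ℝ → ℝ) (t : ℝ), (∃ K, ∀ x, |φ x| ≤ K) → Mn (fun x => φ (x + t)) = Mn φ := by
  refine ⟨Mn0, ?_, ?_, ?_⟩
  · intro φ ψ hφ hψ
    have h1 := (Mn0_tendsto' φ hφ).add (Mn0_tendsto' ψ hψ)
    have h2 : Tendsto (ap fun x => φ x + ψ x) (UF : Filter (Finset ℝ × ℕ))
        (𝓝 (Mn0 φ + Mn0 ψ)) := by
      refine h1.congr fun p => ?_
      exact (avl_add _ _ _ _ _).symm
    exact h2.limUnder_eq
  · intro φ a b ha hb
    have h1 := Mn0_tendsto φ a b ha hb
    constructor
    · refine ge_of_tendsto h1 ?_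
      filter_upwards [ev_pos] with p hp
      exact le_avl _ hp _ _ _ ha _
    · refine le_of_tendsto h1 ?_
      filter_upwards [ev_pos] with p hp
      exact avl_le _ hp _ _ _ hb _
  · intro φ t hφ
    have h1 := Mn0_tendsto' φ hφ
    obtain ⟨K, hK⟩ := hφ
    have h0 : Tendsto (fun p : Finset ℝ × ℕ => 2 * K / (p.2 : ℝ))
        (UF : Filter (Finset ℝ × ℕ)) (𝓝 0) :=
      (tendsto_const_div_atTop_nhds_zero_nat (2 * K)).comp tend_snd
    have h2 : Tendsto (fun p => ap (fun x => φ (x + t)) p - ap φ p)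
        (UF : Filter (Finset ℝ × ℕ)) (𝓝 0) := by
      refine squeeze_zero_norm' ?_ h0
      filter_upwards [ev_pos, ev_mem t] with p hp hpt
      rw [Real.norm_eq_abs]
      unfold ap
      rw [avl_trans]
      exact avl_inv _ hp _ φ K hK t (Finset.mem_toList.2 hpt) 0
    have h3 : Tendsto (ap fun x => φ (x + t)) (UF : Filter (Finset ℝ × ℕ)) (𝓝 (Mn0 φ)) := by
      have h4 := h2.add h1
      rw [zero_add] at h4
      refine h4.congr fun p => ?_
      ring
    exact h3.limUnder_eq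

theorem exists_invariant {J : Type} (V : Submodule ℝ (J → ℝ))
    (hone : (fun _ => (1 : ℝ)) ∈ V) (Qp Qm f : (J → ℝ) → ℝ)
    (hQp : ∀ (c : J → ℝ) (m : ℝ), Qp (fun j => c j + m) = Qp c)
    (hQm : ∀ (c : J → ℝ) (m : ℝ), Qm (fun j => c j + m) = Qm c)
    (h1 : ∀ c ∈ V, f c ≤ Qp c) (h2 : ∀ c ∈ V, -Qm c ≤ f c)
    (h3 : ∀ L L' : List (J → ℝ), (∀ c ∈ L, c ∈ V) → (∀ c ∈ L', c ∈ V) → RowEq L L' →
      (L.map f).sum = (L'.map f).sum) :
    ∃ g : (J → ℝ) → ℝ, (∀ c ∈ V, g c ≤ Qp c) ∧ (∀ c ∈ V, -Qm c ≤ g c) ∧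
      (∀ L L' : List (J → ℝ), (∀ c ∈ L, c ∈ V) → (∀ c ∈ L', c ∈ V) → RowEq L L' →
        (L.map g).sum = (L'.map g).sum) ∧
      ∀ c ∈ V, ∀ m : ℝ, g (fun j => c j + m) = g c := by
  obtain ⟨Mn, hadd, hpos, htr⟩ := exists_mean
  have hV : ∀ c ∈ V, ∀ m : ℝ, (fun j => c j + m) ∈ V := by
    intro c hc m
    have h4 := V.add_mem hc (V.smul_mem m hone)
    have h5 : (c + m • fun _ => (1 : ℝ)) = fun j => c j + m := by
      funext j
      simp
    rwa [h5] at h4
  have hup : ∀ c ∈ V, ∀ m : ℝ, f (fun j => c j + m) ≤ Qp c := by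
    intro c hc m
    rw [← hQp c m]
    exact h1 _ (hV c hc m)
  have hlo : ∀ c ∈ V, ∀ m : ℝ, -Qm c ≤ f (fun j => c j + m) := by
    intro c hc m
    rw [← hQm c m]
    exact h2 _ (hV c hc m)
  have hbd : ∀ c ∈ V, ∃ K, ∀ m : ℝ, |f (fun j => c j + m)| ≤ K := by
    intro c hc
    refine ⟨max |Qp c| |Qm c|, fun m => ?_⟩
    rw [abs_le]
    constructor
    · have h4 := hlo c hc m
      have h5 := le_abs_self (Qm c)
      have h6 := le_max_right |Qp c| |Qm c|
      linarith
    · exact (hup c hc m).trans ((le_abs_self _).trans (le_max_left _ _))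
  have hsum : ∀ L : List (J → ℝ), (∀ c ∈ L, c ∈ V) →
      (∃ K, ∀ m : ℝ, |(L.map fun c => f (fun j => c j + m)).sum| ≤ K) ∧
      (L.map fun c => Mn fun m => f (fun j => c j + m)).sum =
        Mn fun m => (L.map fun c => f (fun j => c j + m)).sum := by
    intro L
    induction L with
    | nil =>
      intro _
      refine ⟨⟨0, fun m => by simp⟩, ?_⟩
      simp only [List.map_nil, List.sum_nil]
      have h4 := hpos (fun _ => 0) 0 0 (fun _ => le_rfl) fun _ => le_rfl
      linarith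
    | cons c L ih =>
      intro hL
      have hc : c ∈ V := hL c List.mem_cons_self
      obtain ⟨⟨K, hK⟩, h5⟩ := ih fun c' hc' => hL c' (List.mem_cons_of_mem _ hc')
      obtain ⟨K', hK'⟩ := hbd c hc
      refine ⟨⟨K' + K, fun m => ?_⟩, ?_⟩
      · rw [List.map_cons, List.sum_cons]
        exact (abs_add_le _ _).trans (add_le_add (hK' m) (hK m))
      · rw [List.map_cons, List.sum_cons, h5]
        simp only [List.map_cons, List.sum_cons]
        exact (hadd _ _ ⟨K', hK'⟩ ⟨K, hK⟩).symm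
  refine ⟨fun c => Mn fun m => f (fun j => c j + m), ?_, ?_, ?_, ?_⟩
  · intro c hc
    exact (hpos _ _ _ (hlo c hc) (hup c hc)).2
  · intro c hc
    exact (hpos _ _ _ (hlo c hc) (hup c hc)).1
  · intro L L' hL hL' hLL
    rw [(hsum L hL).2, (hsum L' hL').2]
    congr 1
    funext m
    have h4 := h3 (L.map fun c => fun j => c j + m) (L'.map fun c => fun j => c j + m) ?_ ?_ ?_
    · rw [List.map_map, List.map_map] at h4
      exact h4
    · intro c hc
      obtain ⟨c', hc', rfl⟩ := List.mem_map.1 hc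
      exact hV c' (hL c' hc') m
    · intro c hc
      obtain ⟨c', hc', rfl⟩ := List.mem_map.1 hc
      exact hV c' (hL' c' hc') m
    · intro j
      rw [List.map_map, List.map_map]
      have h5 := (hLL j).map (fun x => x + m)
      rw [List.map_map, List.map_map] at h5
      exact h5
  · intro c hc m
    have h4 := htr (fun m' => f (fun j => c j + m')) m (hbd c hc)
    refine Eq.trans ?_ h4
    change (Mn fun m' => f fun j => c j + m + m') = Mn fun m' => f fun j => c j + (m' + m)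
    congr 1
    funext m'
    congr 1
    funext j
    ring

end Vale.Agent.Lib.P058
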