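import Vale.Agent.Lib.P058L.LDef

/-!
# P058L, module LNull: null pairs

For a row `j` and a finset `S` of rows let `R S` be the set of `r : FreeGroup ℝ` such that for all `η > 0`
there are `A B : J → FreeGroup ℝ` with `InP` costs whose entries are all `≤ η`, with `A i = B i` for
`i ∈ S` and `B j = r * A j`.

(a) `R S` is a normal subgroup.  `1`: `A = B = 1`.  Inverse: exchange `A` and `B`.  Conjugate `b r b⁻¹`:
`(b A b⁻¹, b B b⁻¹)` (multiply by the constants `b`, `b⁻¹` on both sides, cost `0`).  Product `r r'` with pairs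
`(A, B)`, `(A', B')` (costs `≤ η / 2`): with `g = A j` take `(A * g⁻¹ A' g, B * g⁻¹ B' g)`; row `j`:
`r g g⁻¹ B'_j g = r r' A'_j g = r r' * (g g⁻¹ A'_j g)`.

(b) `R ∅ = ⊤`: take `A = 1` and `B = ` the constant `r` (cost `0`).

(c) Let `r ∈ R S`, `i ∉ S`, `i ≠ j`, `g ∈ F0`.  Then `⁅g, r⁆ ∈ R (insert i S)`.
Let `R' = R (insert i S)`, a normal subgroup by (a); so `{g | ⁅g, r⁆ ∈ R'}` is a subgroup
(`⁅g g', r⁆ = g ⁅g', r⁆ g⁻¹ ⁅g, r⁆`, `⁅g⁻¹, r⁆ = g⁻¹ ⁅g, r⁆⁻¹ g`), and it is enough to treat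
`g = b a_x a_{x'}⁻¹ b⁻¹` (`F0` is the closure of these conjugates, see module NullA).
Given `η`, take a pair `(A, B)` for `r` with costs `≤ η / 8`, and let `Z` be any element with cost `≤ η / 8`.
With `g₀ = (B i * Z i)⁻¹` put `A* = B Z (g₀ A g₀⁻¹)`, `B* = A Z (g₀ B g₀⁻¹)` (products of rows, `g₀` is a
constant).  Then `A* = B*` in the rows of `S`, and in row `i` (both are `A_i B_i Z_i`), and
`B*_j = ⁅w_Z, r⁆ * A*_j` with `w_Z = A_j Z_j Z_i⁻¹ B_i⁻¹`; costs `≤ 3 η / 8`.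
Use it for `Z` and for `Z = 1` (`w_1 = A_j B_i⁻¹`): dividing as in (a) (inverse, product, conjugation; the
costs add up to at most `η`) we get a pair of cost `≤ η`, equal in the rows of `insert i S`, for the element
`w_1⁻¹ (⁅w_Z, r⁆ ⁅w_1, r⁆⁻¹) w_1 = ⁅w_1⁻¹ w_Z, r⁆ = ⁅B_i (Z_j Z_i⁻¹) B_i⁻¹, r⁆`.
Take `Z = h Z' h⁻¹` with the constant `h = B_i⁻¹ b`, and `Z'` a telescoping product with `Z'_i = 1`,
`Z'_j = a_x a_{x'}⁻¹`: `c ∈ V` with `c i = 0`, `c j = 1` (from `hsep`, `hone`), `δ = (x - x') / M`,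
`m_k = x' + k δ`, `Z' = ∏_{k = M-1, ..., 0} colF (m_k + δ c) * const (a_{m_k})⁻¹`; cost
`M δ ^ 2 * Dm c ≤ η / 8` for `M` large.  Then `B_i (Z_j Z_i⁻¹) B_i⁻¹ = b a_x a_{x'}⁻¹ b⁻¹`.
(It is convenient to formulate everything for a fixed `η`: `Q η S r` = there is a pair with costs `≤ η`;
`Q η S r → Q η' S r' → Q (η + η') S (r r')` etc.)

(d) By induction on `S` (`j ∉ S`): `gam |S| ≤ R S` (`gam 0 = F0`, `gam (k + 1) = ⁅gam k, F0⁆`; note
`⁅r, g⁆ = ⁅g, r⁆⁻¹`).  With `S = univ.erase j` and `g ∈ gam (card J - 1)`: `A = B` in all rows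
but `j`, i.e. `B = Pi.mulSingle j g * A`.
-/

namespace Vale.Agent.Lib.P058

section Null

variable {J : Type}

/-- elements of small cost -/
private def NlSm (V : Set (J → ℝ)) (η : ℝ) (A : J → FreeGroup ℝ) : Prop :=
  ∃ D : J → J → ℝ, InP V A D ∧ ∀ i l, D i l ≤ η

private theorem NlSm.const {V : Set (J → ℝ)} {η : ℝ} (hη : 0 ≤ η) (b : FreeGroup ℝ) :
    NlSm V η (fun _ => b) := ⟨0, InP.const b, fun _ _ => hη⟩

private theorem NlSm.mul {V : Set (J → ℝ)} {η η' : ℝ} {A A' : J → FreeGroup ℝ}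
    (h : NlSm V η A) (h' : NlSm V η' A') : NlSm V (η + η') (A * A') := by
  obtain ⟨D, h1, h2⟩ := h
  obtain ⟨D', h1', h2'⟩ := h'
  exact ⟨D + D', h1.mul h1', fun i l => add_le_add (h2 i l) (h2' i l)⟩

private theorem NlSm.mono {V : Set (J → ℝ)} {η η' : ℝ} {A : J → FreeGroup ℝ}
    (h : NlSm V η A) (hη : η ≤ η') : NlSm V η' A := by
  obtain ⟨D, h1, h2⟩ := h
  exact ⟨D, h1, fun i l => (h2 i l).trans hη⟩

private theorem NlSm.congr {V : Set (J → ℝ)} {η : ℝ} {A A' : J → FreeGroup ℝ}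
    (h : NlSm V η A) (hA : A = A') : NlSm V η A' := hA ▸ h

private theorem NlSm.conj {V : Set (J → ℝ)} {η : ℝ} {A : J → FreeGroup ℝ}
    (h : NlSm V η A) (b : FreeGroup ℝ) : NlSm V η (fun l => b * A l * b⁻¹) := by
  have h1 := ((NlSm.const (V := V) le_rfl b).mul h).mul (NlSm.const (V := V) le_rfl b⁻¹)
  rw [zero_add, add_zero] at h1
  exact h1

/-- pairs with costs at most `η` -/
private def NlQ (V : Set (J → ℝ)) (j : J) (S : Finset J) (η : ℝ) (r : FreeGroup ℝ) : Prop :=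
  ∃ A B : J → FreeGroup ℝ, NlSm V η A ∧ NlSm V η B ∧ (∀ i ∈ S, A i = B i) ∧ B j = r * A j

private theorem NlQ.mono {V : Set (J → ℝ)} {j : J} {S : Finset J} {η η' : ℝ} {r : FreeGroup ℝ}
    (h : NlQ V j S η r) (hη : η ≤ η') : NlQ V j S η' r := by
  obtain ⟨A, B, h1, h2, h3, h4⟩ := h
  exact ⟨A, B, h1.mono hη, h2.mono hη, h3, h4⟩

private theorem NlQ.congr {V : Set (J → ℝ)} {j : J} {S : Finset J} {η : ℝ} {r r' : FreeGroup ℝ}
    (h : NlQ V j S η r) (hr : r = r') : NlQ V j S η r' := hr ▸ h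

private theorem NlQ.inv {V : Set (J → ℝ)} {j : J} {S : Finset J} {η : ℝ} {r : FreeGroup ℝ}
    (h : NlQ V j S η r) : NlQ V j S η r⁻¹ := by
  obtain ⟨A, B, h1, h2, h3, h4⟩ := h
  exact ⟨B, A, h2, h1, fun i hi => (h3 i hi).symm, by rw [h4, inv_mul_cancel_left]⟩

private theorem NlQ.conj {V : Set (J → ℝ)} {j : J} {S : Finset J} {η : ℝ} {r : FreeGroup ℝ}
    (h : NlQ V j S η r) (b : FreeGroup ℝ) : NlQ V j S η (b * r * b⁻¹) := by
  obtain ⟨A, B, h1, h2, h3, h4⟩ := h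
  refine ⟨_, _, h1.conj b, h2.conj b, fun i hi => ?_, ?_⟩
  · simp only [h3 i hi]
  · simp only [h4]
    group

private theorem NlQ.mul {V : Set (J → ℝ)} {j : J} {S : Finset J} {η η' : ℝ}
    {r r' : FreeGroup ℝ} (h : NlQ V j S η r) (h' : NlQ V j S η' r') :
    NlQ V j S (η + η') (r * r') := by
  obtain ⟨A, B, h1, h2, h3, h4⟩ := h
  obtain ⟨A', B', h1', h2', h3', h4'⟩ := h'
  refine ⟨_, _, h1.mul (h1'.conj (A j)⁻¹), h2.mul (h2'.conj (A j)⁻¹), fun i hi => ?_, ?_⟩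
  · change A i * ((A j)⁻¹ * A' i * (A j)⁻¹⁻¹) = B i * ((A j)⁻¹ * B' i * (A j)⁻¹⁻¹)
    rw [h3 i hi, h3' i hi]
  · change B j * ((A j)⁻¹ * B' j * (A j)⁻¹⁻¹) = r * r' * (A j * ((A j)⁻¹ * A' j * (A j)⁻¹⁻¹))
    rw [h4, h4']
    group

/-- the subgroup of the elements with pairs of arbitrarily small cost -/
private def NlR (V : Set (J → ℝ)) (j : J) (S : Finset J) : Subgroup (FreeGroup ℝ) where
  carrier := {r | ∀ η : ℝ, 0 < η → NlQ V j S η r}
  mul_mem' := fun {r r'} h h' η hη =>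
    ((h (η / 2) (by linarith)).mul (h' (η / 2) (by linarith))).mono (by linarith)
  one_mem' := fun η hη => ⟨fun _ => 1, fun _ => 1, NlSm.const hη.le 1, NlSm.const hη.le 1,
    fun _ _ => rfl, by rw [one_mul]⟩
  inv_mem' := fun {r} h η hη => (h η hη).inv

private theorem NlR_conj (V : Set (J → ℝ)) (j : J) (S : Finset J) {r : FreeGroup ℝ}
    (h : r ∈ NlR V j S) (b : FreeGroup ℝ) : b * r * b⁻¹ ∈ NlR V j S :=
  fun η hη => (h η hη).conj b

private theorem NlR_empty (V : Set (J → ℝ)) (j : J) (r : FreeGroup ℝ) : r ∈ NlR V j ∅ := by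
  intro η hη
  exact ⟨fun _ => 1, fun _ => r, NlSm.const hη.le 1, NlSm.const hη.le r, fun i hi => by simp at hi,
    by rw [mul_one]⟩

/-- the basic step: a commutator with `w = A_j Z_j (B_i Z_i)⁻¹` -/
private theorem Nl_step [DecidableEq J] {V : Set (J → ℝ)} {j i : J} {S : Finset J} {η ζ : ℝ}
    {r : FreeGroup ℝ} {A B Z : J → FreeGroup ℝ} (h1 : NlSm V η A) (h2 : NlSm V η B)
    (h3 : ∀ l ∈ S, A l = B l) (h4 : B j = r * A j) (hZ : NlSm V ζ Z) :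
    NlQ V j (insert i S) (η + ζ + η)
      ((A j * Z j * (B i * Z i)⁻¹) * r * (A j * Z j * (B i * Z i)⁻¹)⁻¹ * r⁻¹) := by
  refine ⟨_, _, (h2.mul hZ).mul (h1.conj (B i * Z i)⁻¹), (h1.mul hZ).mul (h2.conj (B i * Z i)⁻¹),
    fun l hl => ?_, ?_⟩
  · change B l * Z l * ((B i * Z i)⁻¹ * A l * (B i * Z i)⁻¹⁻¹) =
      A l * Z l * ((B i * Z i)⁻¹ * B l * (B i * Z i)⁻¹⁻¹)
    rcases Finset.mem_insert.mp hl with rfl | hl
    · group
    · rw [h3 l hl]
  · change A j * Z j * ((B i * Z i)⁻¹ * B j * (B i * Z i)⁻¹⁻¹) =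
      (A j * Z j * (B i * Z i)⁻¹) * r * (A j * Z j * (B i * Z i)⁻¹)⁻¹ * r⁻¹ *
        (B j * Z j * ((B i * Z i)⁻¹ * A j * (B i * Z i)⁻¹⁻¹))
    rw [h4]
    group

/-- telescoping elements -/
private theorem Nl_chain {V : Submodule ℝ (J → ℝ)} (hone : (fun _ => (1 : ℝ)) ∈ V) {c : J → ℝ}
    (hc : c ∈ V) {i j : J} (hi : c i = 0) (hj : c j = 1) (K : ℝ) (hK : ∀ a b, Dm c a b ≤ K)
    (x' h : ℝ) (n : ℕ) :
    ∃ Z : J → FreeGroup ℝ, NlSm (V : Set (J → ℝ)) (n * (h ^ 2 * K)) Z ∧ Z i = 1 ∧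
      Z j = FreeGroup.of (x' + n * h) * (FreeGroup.of x')⁻¹ := by
  induction n with
  | zero =>
    refine ⟨fun _ => 1, NlSm.const (by simp) 1, rfl, ?_⟩
    simp
  | succ n ih =>
    obtain ⟨Z, h1, h2, h3⟩ := ih
    set m : ℝ := x' + n * h with hm
    have hmem : (fun l => m + h * c l) ∈ V := by
      have := V.add_mem (V.smul_mem m hone) (V.smul_mem h hc)
      convert this using 1
      funext l
      simp
    have hE : NlSm (V : Set (J → ℝ)) (h ^ 2 * K)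
        (fun l => FreeGroup.of (m + h * c l) * (FreeGroup.of m)⁻¹) := by
      refine ⟨Dm (fun l => m + h * c l) + 0,
        ((InP.col _ hmem).mul (InP.const (FreeGroup.of m)⁻¹)).of_eq rfl rfl, fun a b => ?_⟩
      have e : (Dm (fun l => m + h * c l) + 0) a b = h ^ 2 * Dm c a b := by
        simp only [Dm, Pi.add_apply, Pi.zero_apply, add_zero]
        ring
      rw [e]
      exact mul_le_mul_of_nonneg_left (hK a b) (sq_nonneg h)
    refine ⟨_, (hE.mul h1).mono ?_, ?_, ?_⟩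
    · push_cast
      linarith
    · change FreeGroup.of (m + h * c i) * (FreeGroup.of m)⁻¹ * Z i = 1
      rw [hi, h2, mul_zero, add_zero, mul_one, mul_inv_cancel]
    · change FreeGroup.of (m + h * c j) * (FreeGroup.of m)⁻¹ * Z j = _
      rw [hj, h3, mul_one]
      have e : x' + ((n + 1 : ℕ) : ℝ) * h = m + h := by
        rw [hm]
        push_cast
        ring
      rw [e]
      group

private theorem Nl_letters [Finite J] {V : Submodule ℝ (J → ℝ)}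
    (hone : (fun _ => (1 : ℝ)) ∈ V) {i j : J} (hsep : ∃ c ∈ V, c i ≠ c j) (x x' ζ : ℝ)
    (hζ : 0 < ζ) :
    ∃ Z : J → FreeGroup ℝ, NlSm (V : Set (J → ℝ)) ζ Z ∧ Z i = 1 ∧
      Z j = FreeGroup.of x * (FreeGroup.of x')⁻¹ := by
  obtain ⟨c₀, hc₀, hne⟩ := hsep
  have hne' : c₀ j - c₀ i ≠ 0 := sub_ne_zero.mpr hne.symm
  set c : J → ℝ := fun l => (c₀ l - c₀ i) / (c₀ j - c₀ i) with hcdef
  have hc : c ∈ V := by
    have := V.smul_mem (c₀ j - c₀ i)⁻¹ (V.sub_mem hc₀ (V.smul_mem (c₀ i) hone))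
    convert this using 1
    funext l
    simp only [hcdef, Pi.smul_apply, Pi.sub_apply, smul_eq_mul, mul_one]
    ring
  have hi : c i = 0 := by simp [hcdef]
  have hj : c j = 1 := div_self hne'
  obtain ⟨K, hK⟩ := (Set.finite_range (fun p : J × J => Dm c p.1 p.2)).bddAbove
  have hK' : ∀ a b, Dm c a b ≤ max K 0 := fun a b => (hK ⟨(a, b), rfl⟩).trans (le_max_left _ _)
  have hK0 : (0 : ℝ) ≤ max K 0 := le_max_right _ _
  obtain ⟨M, hM⟩ := exists_nat_gt ((x - x') ^ 2 * max K 0 / ζ)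
  have hM0 : (0 : ℝ) < M := lt_of_le_of_lt (by positivity) hM
  obtain ⟨Z, h1, h2, h3⟩ := Nl_chain hone hc hi hj (max K 0) hK' x' ((x - x') / M) M
  refine ⟨Z, h1.mono ?_, h2, ?_⟩
  · have e : (M : ℝ) * (((x - x') / M) ^ 2 * max K 0) = (x - x') ^ 2 * max K 0 / M := by
      field_simp
    rw [e, div_le_iff₀ hM0]
    rw [div_lt_iff₀ hζ] at hM
    linarith
  · rw [h3]
    have e : x' + (M : ℝ) * ((x - x') / M) = x := by
      field_simp
      ring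
    rw [e]

private theorem Nl_comm [DecidableEq J] [Finite J] {V : Submodule ℝ (J → ℝ)}
    (hone : (fun _ => (1 : ℝ)) ∈ V) {i j : J} (hsep : ∃ c ∈ V, c i ≠ c j) {S : Finset J}
    {r : FreeGroup ℝ} (hr : r ∈ NlR (V : Set (J → ℝ)) j S) {g : FreeGroup ℝ} (hg : g ∈ F0) :
    g * r * g⁻¹ * r⁻¹ ∈ NlR (V : Set (J → ℝ)) j (insert i S) := by
  unfold F0 Subgroup.normalClosure at hg
  induction hg using Subgroup.closure_induction with
  | mem g hg =>
    obtain ⟨a, ⟨x, x', rfl⟩, hconj⟩ := Group.mem_conjugatesOfSet_iff.mp hg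
    obtain ⟨b, hb⟩ := isConj_iff.mp hconj
    subst hb
    intro η hη
    obtain ⟨A, B, h1, h2, h3, h4⟩ := hr (η / 8) (by linarith)
    obtain ⟨Z', hZ, hZi, hZj⟩ := Nl_letters hone hsep x x' (η / 8) (by linarith)
    have hZc := hZ.conj ((B i)⁻¹ * b)
    have q1 := Nl_step (i := i) h1 h2 h3 h4 hZc
    have q2 := Nl_step (i := i) h1 h2 h3 h4 (NlSm.const (V := (V : Set (J → ℝ))) le_rfl 1)
    have q3 := ((q1.mul q2.inv).conj (A j * 1 * (B i * 1)⁻¹)⁻¹).mono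
      (show _ ≤ η by linarith)
    refine q3.congr ?_
    simp only [hZi, hZj]
    group
  | one =>
    rw [one_mul, inv_one, mul_one, mul_inv_cancel]
    exact Subgroup.one_mem _
  | mul g h _ _ ihg ihh =>
    have e : g * h * r * (g * h)⁻¹ * r⁻¹ = (g * (h * r * h⁻¹ * r⁻¹) * g⁻¹) *
        (g * r * g⁻¹ * r⁻¹) := by group
    rw [e]
    exact Subgroup.mul_mem _ (NlR_conj _ _ _ ihh g) ihg
  | inv g _ ih =>
    have e : g⁻¹ * r * g⁻¹⁻¹ * r⁻¹ = g⁻¹ * (g * r * g⁻¹ * r⁻¹)⁻¹ * g⁻¹⁻¹ := by group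
    rw [e]
    exact NlR_conj _ _ _ (Subgroup.inv_mem _ ih) g⁻¹

private theorem Nl_gam [DecidableEq J] [Finite J] {V : Submodule ℝ (J → ℝ)}
    (hone : (fun _ => (1 : ℝ)) ∈ V) (hsep : ∀ i j, i ≠ j → ∃ c ∈ V, c i ≠ c j) (j : J)
    (S : Finset J) (hj : j ∉ S) : gam S.card ≤ NlR (V : Set (J → ℝ)) j S := by
  induction S using Finset.induction_on with
  | empty => exact fun r _ => NlR_empty _ j r
  | insert i S hi ih =>
    rw [Finset.mem_insert, not_or] at hj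
    rw [Finset.card_insert_of_notMem hi]
    change ⁅gam S.card, F0⁆ ≤ _
    rw [Subgroup.commutator_le]
    intro r hr g hg
    have h1 := Nl_comm hone (hsep i j (fun h => hj.1 h.symm)) (ih hj.2 hr) hg
    have h2 := Subgroup.inv_mem _ h1
    have e : (g * r * g⁻¹ * r⁻¹)⁻¹ = r * g * r⁻¹ * g⁻¹ := by group
    rw [e] at h2
    rw [commutatorElement_def]
    exact h2

end Null

theorem null_pair {J : Type} [Fintype J] [DecidableEq J] {V : Submodule ℝ (J → ℝ)}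
    (hone : (fun _ => (1 : ℝ)) ∈ V) (hsep : ∀ i j, i ≠ j → ∃ c ∈ V, c i ≠ c j)
    (j : J) (g : FreeGroup ℝ) (hg : g ∈ gam (Fintype.card J - 1)) (η : ℝ) (hη : 0 < η) :
    ∃ (A B : J → FreeGroup ℝ) (DA DB : J → J → ℝ), InP (V : Set (J → ℝ)) A DA ∧
      InP (V : Set (J → ℝ)) B DB ∧ (∀ i l, DA i l ≤ η) ∧ (∀ i l, DB i l ≤ η) ∧
      B = Pi.mulSingle j g * A := by
  have h0 : j ∉ Finset.univ.erase j := Finset.notMem_erase j _
  have hcard : (Finset.univ.erase j).card = Fintype.card J - 1 := by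
    rw [Finset.card_erase_of_mem (Finset.mem_univ j), Finset.card_univ]
  rw [← hcard] at hg
  obtain ⟨A, B, ⟨DA, hA, hA'⟩, ⟨DB, hB, hB'⟩, h3, h4⟩ := Nl_gam hone hsep j _ h0 hg η hη
  refine ⟨A, B, DA, DB, hA, hB, hA', hB', ?_⟩
  funext l
  by_cases hl : l = j
  · rw [hl, h4, Pi.mul_apply, Pi.mulSingle_eq_same]
  · rw [Pi.mul_apply, Pi.mulSingle_eq_of_ne hl, one_mul]
    exact (h3 l (Finset.mem_erase.mpr ⟨hl, Finset.mem_univ l⟩)).symm

end Vale.Agent.Lib.P058
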