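import Vale.Agent.Lib.P058L.LDef

/-!
# P058L, module LQuadA: the `|J|`-fold differences vanish

Let `n = card J`, `K i = {u ∈ V | u i = 0}`.

STEP 1.  Fix a row `j`, vectors `u i ∈ K i` for `i ≠ j`, and `v ∈ V`.  Then
`dif v (∏_{i ≠ j} dif (u i)) F = 0`.  Let `ω c` be the signed list of the `2 ^ (n-1)` vectors `c + ∑_{i ∈ I} u i`,
`I ⊆ J \ {j}`, with sign `(-1) ^ (n - 1 - |I|)`; `(∏ dif (u i)) F c` is the sum of `F` over `ω c`.  If
`v ∈ K j`, then the positive part of `ω (c + v)` together with the negative part of `ω c`, and the negative part of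
`ω (c + v)` together with the positive part of `ω c`, have the same letters in every row: in row `j`
because `(c + v) j = c j`, in a row `i ≠ j` because `u i i = 0` makes the members `I`, `insert i I` equal in row
`i` with opposite signs.  So `hbal` gives `F (ω (c + v)) = F (ω c)`.  For general `v` write
`v = v₀ + (v j) • 1` with `v₀ ∈ K j` and use `hinv`.
(Suggested formalisation: define signed lists by recursion on the list of the `u`'s:
`pn [] c = ([c], [])`, `pn (u :: us) c = (P (c + u) ++ N c, N (c + u) ++ P c)` where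
`(P, N) = pn us`; then `difs us F c = (P.map F).sum - (N.map F).sum`, and if some `u ∈ us` vanishes in
row `i` then `P` and `N` have the same letters in row `i`; and the letters of `P`, `N` in row `j` depend only on
`c j` and the `u j`.)

STEP 2.  Claim: for every finset `S` of rows with `|S| < n`, all `u : rows → V` with `u i ∈ K i`, all lists
`ys` in `V` of length `n - |S|`: `difs (ys ++ (list of the u i, i ∈ S)) F = 0`.  Downward induction on
`|S|`.  If `|S| = n - 1` this is STEP 1 (`S = J \ {j}`, `ys = [v]`).  If `|S| < n - 1` there are two rows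
`i ≠ i'` outside `S`; `ys = v :: y :: ys'`-like, i.e. it has at least two members; take a member `y`
(differences commute) and write `y = u + u'`, `u ∈ K i`, `u' ∈ K i'`: with `c ∈ V`, `c i = 0`, `c i' = 1`
(from `hsep`, `hone`) `u = (y i') • c + ...` (e.g. `u = y i' • c`, which vanishes at `i`, and
`u' = y - u`, which vanishes at `i'`).  `dif (u + u') F x = dif u F (x + u') + dif u' F x`, so both terms vanish by
the induction hypothesis for `insert i S`, `insert i' S`.
For `S = ∅`: the theorem (`n ≥ 1`).
-/

namespace Vale.Agent.Lib.P058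

/-- positive and negative part of the iterated difference -/
def LQA_pn {V : Type} [AddCommGroup V] : List V → V → List V × List V
  | [], c => ([c], [])
  | u :: us, c =>
    ((LQA_pn us (c + u)).1 ++ (LQA_pn us c).2, (LQA_pn us (c + u)).2 ++ (LQA_pn us c).1)

theorem LQA_difs_eq {V : Type} [AddCommGroup V] (F : V → ℝ) (us : List V) (c : V) :
    difs us F c = ((LQA_pn us c).1.map F).sum - ((LQA_pn us c).2.map F).sum := by
  induction us generalizing c with
  | nil => simp [difs, LQA_pn]
  | cons u us ih =>
    have h : difs (u :: us) F c = difs us F (c + u) - difs us F c := rfl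
    rw [h, ih, ih]
    simp only [LQA_pn, List.map_append, List.sum_append]
    ring

theorem LQA_comm {V : Type} [AddCommGroup V] (a b : V) (G : V → ℝ) :
    dif a (dif b G) = dif b (dif a G) := by
  funext x
  simp only [dif]
  rw [add_right_comm x a b]
  ring

theorem LQA_perm {V : Type} [AddCommGroup V] (F : V → ℝ) {l l' : List V} (h : l.Perm l') :
    difs l F = difs l' F := by
  induction h with
  | nil => rfl
  | cons a _ ih =>
    change dif a (difs _ F) = dif a (difs _ F)
    rw [ih]
  | swap a b l =>
    change dif b (dif a (difs l F)) = dif a (dif b (difs l F))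
    exact LQA_comm _ _ _
  | trans _ _ ih1 ih2 => exact ih1.trans ih2

theorem LQA_row_eq {J : Type} {V : Submodule ℝ (J → ℝ)} (i : J) (us : List V) (c c' : V)
    (h : (c : J → ℝ) i = (c' : J → ℝ) i) :
    ((LQA_pn us c).1.map (fun c : V => (c : J → ℝ) i)
      = (LQA_pn us c').1.map (fun c : V => (c : J → ℝ) i)) ∧
    ((LQA_pn us c).2.map (fun c : V => (c : J → ℝ) i)
      = (LQA_pn us c').2.map (fun c : V => (c : J → ℝ) i)) := by
  induction us generalizing c c' with
  | nil => simp [LQA_pn, h]
  | cons u us ih =>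
    have h1 : ((c + u : V) : J → ℝ) i = ((c' + u : V) : J → ℝ) i := by
      simp [h]
    have h2 := ih _ _ h1
    have h3 := ih _ _ h
    constructor
    · simp only [LQA_pn, List.map_append]
      rw [h2.1, h3.2]
    · simp only [LQA_pn, List.map_append]
      rw [h2.2, h3.1]

theorem LQA_row_perm {J : Type} {V : Submodule ℝ (J → ℝ)} (i : J) (us : List V)
    (h : ∃ u ∈ us, (u : J → ℝ) i = 0) (c : V) :
    ((LQA_pn us c).1.map (fun c : V => (c : J → ℝ) i)).Perm
      ((LQA_pn us c).2.map (fun c : V => (c : J → ℝ) i)) := by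
  induction us generalizing c with
  | nil =>
    obtain ⟨u, hu, -⟩ := h
    simp at hu
  | cons w us ih =>
    obtain ⟨u, hu, hui⟩ := h
    simp only [LQA_pn, List.map_append]
    rcases List.mem_cons.1 hu with h1 | h1
    · subst h1
      have h2 := LQA_row_eq i us (c + u) c (by simp [hui])
      rw [h2.1, h2.2]
      exact List.perm_append_comm
    · exact (ih ⟨u, h1, hui⟩ _).append (ih ⟨u, h1, hui⟩ _).symm

theorem LQA_inv {V : Type} [AddCommGroup V] (F : V → ℝ) (w : V) (h : ∀ c, F (c + w) = F c)
    (us : List V) (c : V) : difs us F (c + w) = difs us F c := by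
  induction us generalizing c with
  | nil => exact h c
  | cons u us ih =>
    change difs us F (c + w + u) - difs us F (c + w) = difs us F (c + u) - difs us F c
    rw [ih, add_right_comm, ih]

theorem LQA_step1 {J : Type} (V : Submodule ℝ (J → ℝ))
    (hone : (fun _ => (1 : ℝ)) ∈ V) (F : V → ℝ)
    (hbal : ∀ L L' : List V, (∀ j : J, (L.map (fun c : V => (c : J → ℝ) j)).Perm
      (L'.map (fun c : V => (c : J → ℝ) j))) → (L.map F).sum = (L'.map F).sum)
    (hinv : ∀ (c : V) (m : ℝ), F (c + m • ⟨fun _ => 1, hone⟩) = F c)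
    (j : J) (us : List V) (hus : ∀ i, i ≠ j → ∃ u ∈ us, (u : J → ℝ) i = 0)
    (v : V) (x : V) : dif v (difs us F) x = 0 := by
  have key : ∀ (v : V), (v : J → ℝ) j = 0 → ∀ x, difs us F (x + v) = difs us F x := by
    intro v hv x
    have h1 := hbal ((LQA_pn us (x + v)).1 ++ (LQA_pn us x).2)
      ((LQA_pn us (x + v)).2 ++ (LQA_pn us x).1) (by
        intro i
        simp only [List.map_append]
        by_cases hij : i = j
        · subst hij
          have h2 := LQA_row_eq i us (x + v) x (by simp [hv])
          rw [h2.1, h2.2]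
          exact List.perm_append_comm
        · exact (LQA_row_perm i us (hus i hij) _).append (LQA_row_perm i us (hus i hij) _).symm)
    simp only [List.map_append, List.sum_append] at h1
    rw [LQA_difs_eq, LQA_difs_eq]
    linarith
  have hv : v = (v - ((v : J → ℝ) j) • ⟨fun _ => 1, hone⟩) + ((v : J → ℝ) j) • ⟨fun _ => 1, hone⟩ := by
    abel
  change difs us F (x + v) - difs us F x = 0
  rw [sub_eq_zero]
  calc difs us F (x + v)
      = difs us F (x + (v - ((v : J → ℝ) j) • ⟨fun _ => 1, hone⟩)
          + ((v : J → ℝ) j) • ⟨fun _ => 1, hone⟩) := by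
        congr 1
        rw [add_assoc, ← hv]
    _ = difs us F (x + (v - ((v : J → ℝ) j) • ⟨fun _ => 1, hone⟩)) :=
        LQA_inv F _ (fun c => hinv c _) us _
    _ = difs us F x := key _ (by simp) x

theorem LQA_step2 {J : Type} [Fintype J] [DecidableEq J] (V : Submodule ℝ (J → ℝ))
    (hone : (fun _ => (1 : ℝ)) ∈ V) (hsep : ∀ i j, i ≠ j → ∃ c ∈ V, c i ≠ c j) (F : V → ℝ)
    (hbal : ∀ L L' : List V, (∀ j : J, (L.map (fun c : V => (c : J → ℝ) j)).Perm
      (L'.map (fun c : V => (c : J → ℝ) j))) → (L.map F).sum = (L'.map F).sum)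
    (hinv : ∀ (c : V) (m : ℝ), F (c + m • ⟨fun _ => 1, hone⟩) = F c) (m : ℕ) :
    ∀ (S : Finset J) (us ys : List V), S.card + (m + 1) = Fintype.card J →
      (∀ i ∈ S, ∃ u ∈ us, (u : J → ℝ) i = 0) → ys.length = m + 1 →
      ∀ x, difs (ys ++ us) F x = 0 := by
  induction m with
  | zero =>
    intro S us ys hS hus hys x
    obtain ⟨v, rfl⟩ := List.length_eq_one_iff.1 hys
    have h1 : Sᶜ.card = 1 := by rw [Finset.card_compl]; omega
    obtain ⟨j, hj⟩ := Finset.card_eq_one.1 h1
    refine LQA_step1 V hone F hbal hinv j us (fun i hi => hus i ?_) v x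
    by_contra h2
    have h3 : i ∈ Sᶜ := Finset.mem_compl.2 h2
    rw [hj, Finset.mem_singleton] at h3
    exact hi h3
  | succ m ih =>
    intro S us ys hS hus hys x
    obtain ⟨y, ys', rfl⟩ : ∃ y ys', ys = y :: ys' := by
      cases ys with
      | nil => simp at hys
      | cons y ys' => exact ⟨y, ys', rfl⟩
    have h1 : 1 < Sᶜ.card := by rw [Finset.card_compl]; omega
    obtain ⟨i, hi, i', hi', hii⟩ := Finset.one_lt_card.1 h1
    rw [Finset.mem_compl] at hi hi'
    obtain ⟨c, hc, hcc⟩ := hsep i i' hii
    have hd : c i' - c i ≠ 0 := sub_ne_zero.2 (Ne.symm hcc)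
    let o : V := ⟨fun _ => 1, hone⟩
    let e : V := (c i' - c i)⁻¹ • (⟨c, hc⟩ - (c i) • o)
    have he : ∀ t, (e : J → ℝ) t = (c i' - c i)⁻¹ * (c t - c i) := by
      intro t
      simp [e, o]
    let u : V := ((y : J → ℝ) i') • e
    let u' : V := y - u
    have hu : (u : J → ℝ) i = 0 := by
      have : (u : J → ℝ) i = (y : J → ℝ) i' * (e : J → ℝ) i := rfl
      rw [this, he]
      simp
    have hu' : (u' : J → ℝ) i' = 0 := by
      have : (u' : J → ℝ) i' = (y : J → ℝ) i' - (y : J → ℝ) i' * (e : J → ℝ) i' := rfl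
      rw [this, he, inv_mul_cancel₀ hd]
      ring
    have hy : y = u + u' := by
      simp [u']
    have hlen : ys'.length = m + 1 := by simpa using hys
    have hA : ∀ z, dif u (difs (ys' ++ us) F) z = 0 := by
      intro z
      have h2 := ih (insert i S) (u :: us) ys' (by
        rw [Finset.card_insert_of_notMem hi]; omega) (by
        intro t ht
        rcases Finset.mem_insert.1 ht with h3 | h3
        · exact ⟨u, by simp, h3 ▸ hu⟩
        · obtain ⟨w, hw, hw'⟩ := hus t h3
          exact ⟨w, List.mem_cons_of_mem _ hw, hw'⟩) hlen z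
      rw [LQA_perm F List.perm_middle] at h2
      exact h2
    have hB : ∀ z, dif u' (difs (ys' ++ us) F) z = 0 := by
      intro z
      have h2 := ih (insert i' S) (u' :: us) ys' (by
        rw [Finset.card_insert_of_notMem hi']; omega) (by
        intro t ht
        rcases Finset.mem_insert.1 ht with h3 | h3
        · exact ⟨u', by simp, h3 ▸ hu'⟩
        · obtain ⟨w, hw, hw'⟩ := hus t h3
          exact ⟨w, List.mem_cons_of_mem _ hw, hw'⟩) hlen z
      rw [LQA_perm F List.perm_middle] at h2
      exact h2
    have hA' := hA (x + u')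
    have hB' := hB x
    simp only [dif] at hA' hB'
    change difs (ys' ++ us) F (x + y) - difs (ys' ++ us) F x = 0
    rw [hy, ← add_assoc, add_right_comm]
    linarith

theorem difs_card {J : Type} [Fintype J] [DecidableEq J] [Nonempty J] (V : Submodule ℝ (J → ℝ))
    (hone : (fun _ => (1 : ℝ)) ∈ V) (hsep : ∀ i j, i ≠ j → ∃ c ∈ V, c i ≠ c j) (F : V → ℝ)
    (hbal : ∀ L L' : List V, (∀ j : J, (L.map (fun c : V => (c : J → ℝ) j)).Perm
      (L'.map (fun c : V => (c : J → ℝ) j))) → (L.map F).sum = (L'.map F).sum)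
    (hinv : ∀ (c : V) (m : ℝ), F (c + m • ⟨fun _ => 1, hone⟩) = F c)
    (ys : List V) (hys : ys.length = Fintype.card J) (x : V) : difs ys F x = 0 := by
  obtain ⟨m, hm⟩ : ∃ m, Fintype.card J = m + 1 :=
    ⟨Fintype.card J - 1, by have := Fintype.card_pos (α := J); omega⟩
  have h := LQA_step2 V hone hsep F hbal hinv m ∅ [] ys (by simp [hm]) (by simp) (by omega) x
  simpa using h

end Vale.Agent.Lib.P058
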