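import Vale.Agent.Lib.P058L.LDef

/-!
# P058L, module LQuadB: a function with vanishing `n`-fold differences and quadratic growth is a quadratic form

PROOF.  Differences commute: `difs` depends only on the multiset of `ys` and
`dif (y + y') F x = dif y F (x + y') + dif y' F x`.
(1) Downward: if all `(k+1)`-fold differences vanish and `k ≥ 3` then all `k`-fold differences vanish:
`D ys = difs ys F x`, `ys` of length `k`, does not depend on `x` and is additive in every member of `ys`, so
`D (N • ys) = N ^ k * D ys` (all members multiplied by the natural number `N`), while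
`|D (N • ys)| = |difs (N • ys) F 0| ≤ 2 ^ k * C * (N * ∑ ‖y‖) ^ 2`.  So `N ^ k |D ys| ≤ C' N ^ 2` for all `N`
and `D ys = 0`.  Hence all `3`-fold differences vanish (if `n < 3`, longer lists of differences vanish too:
`dif` of zero is zero).
(2) `D y z = dif y (dif z F) x` does not depend on `x`; with `x = 0` and `F 0 = 0` (`hC`):
`D y z = F (y + z) - F y - F z`; it is symmetric and biadditive.
(3) `ℓ y = F y - D y y / 2` is additive, and `|ℓ y| ≤ 4 C ‖y‖ ^ 2`, so `ℓ = 0`: `F y = D y y / 2`.
(4) `D` is real bilinear: `|D y z| ≤ |F (y+z)| + |F y| + |F z|`.  For fixed `z` the additive function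
`y ↦ D y z` is continuous at `0`, hence real linear.  Take `B = (1/2) • D`.
-/

namespace Vale.Agent.Lib.P058

section
variable {E : Type} [AddCommGroup E]

private theorem dif_comm (y z : E) (F : E → ℝ) : dif y (dif z F) = dif z (dif y F) := by
  funext x
  simp only [dif]
  rw [add_right_comm x y z]
  ring

private theorem difs_cons (y : E) (ys : List E) (F : E → ℝ) :
    difs (y :: ys) F = dif y (difs ys F) := rfl

private theorem difs_perm {l l' : List E} (h : l.Perm l') (F : E → ℝ) :
    difs l F = difs l' F := by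
  induction h with
  | nil => rfl
  | cons x _ ih => rw [difs_cons, difs_cons, ih]
  | swap x y l => rw [difs_cons, difs_cons, difs_cons, difs_cons, dif_comm]
  | trans _ _ ih1 ih2 => exact ih1.trans ih2

private theorem dif_nsmul (y : E) (G : E → ℝ) (h : ∀ x, dif y (dif y G) x = 0) (N : ℕ) (x : E) :
    dif (N • y) G x = N * dif y G x := by
  have hper : ∀ x, dif y G (x + y) = dif y G x := fun x => by
    have := h x
    rw [dif] at this
    linarith
  have hper2 : ∀ (N : ℕ) (x : E), dif y G (x + N • y) = dif y G x := by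
    intro N
    induction N with
    | zero => intro x; simp
    | succ N ih => intro x; rw [succ_nsmul, ← add_assoc, hper, ih]
  induction N with
  | zero => simp [dif]
  | succ N ih =>
    have h1 : dif ((N + 1) • y) G x = dif y G (x + N • y) + dif (N • y) G x := by
      simp only [dif]
      rw [succ_nsmul, ← add_assoc]
      ring
    rw [h1, hper2, ih]
    push_cast
    ring

private theorem difs_nsmul (F : E → ℝ) (k : ℕ)
    (h : ∀ ys : List E, ys.length = k + 1 → ∀ x, difs ys F x = 0) (N : ℕ) (ys : List E) :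
    ∀ zs : List E, ys.length + zs.length = k → ∀ x,
      difs (ys.map (fun y => N • y) ++ zs) F x = (N : ℝ) ^ ys.length * difs (ys ++ zs) F x := by
  induction ys with
  | nil => intro zs _ x; simp
  | cons y ys ih =>
    intro zs hl x
    rw [List.length_cons] at hl
    have hz : ∀ x, dif y (dif y (difs (ys.map (fun y => N • y) ++ zs) F)) x = 0 := by
      intro x
      have := h (y :: y :: (ys.map (fun y => N • y) ++ zs))
        (by simp only [List.length_cons, List.length_append, List.length_map]; omega) x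
      exact this
    have h1 : difs ((y :: ys).map (fun y => N • y) ++ zs) F x =
        dif (N • y) (difs (ys.map (fun y => N • y) ++ zs) F) x := rfl
    rw [h1, dif_nsmul y _ hz, ← difs_cons]
    have h2 : (y :: (ys.map (fun y => N • y) ++ zs)).Perm (ys.map (fun y => N • y) ++ (y :: zs)) :=
      List.perm_middle.symm
    rw [difs_perm h2, ih (y :: zs) (by rw [List.length_cons]; omega)]
    have h3 : (ys ++ (y :: zs)).Perm ((y :: ys) ++ zs) := List.perm_middle
    rw [difs_perm h3, List.length_cons]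
    ring

private theorem difs_succ (F : E → ℝ) (k : ℕ)
    (h : ∀ ys : List E, ys.length = k → ∀ x, difs ys F x = 0) :
    ∀ ys : List E, ys.length = k + 1 → ∀ x, difs ys F x = 0 := by
  intro ys hl x
  cases ys with
  | nil => simp at hl
  | cons y ys =>
    rw [List.length_cons, Nat.add_right_cancel_iff] at hl
    rw [difs_cons, dif, h ys hl, h ys hl, sub_zero]

end

variable {E : Type} [NormedAddCommGroup E]

private theorem difs_bound (F : E → ℝ) (R B : ℝ) (h : ∀ z, ‖z‖ ≤ R → |F z| ≤ B) (ys : List E) :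
    ∀ x, ‖x‖ + (ys.map (fun y => ‖y‖)).sum ≤ R → |difs ys F x| ≤ 2 ^ ys.length * B := by
  induction ys with
  | nil =>
    intro x hx
    simp only [List.map_nil, List.sum_nil, add_zero] at hx
    have h1 := h x hx
    simpa [difs] using h1
  | cons y ys ih =>
    intro x hx
    rw [List.map_cons, List.sum_cons] at hx
    have h1 := ih (x + y) (by linarith [norm_add_le x y])
    have h2 := ih x (by linarith [norm_nonneg y])
    rw [difs_cons, dif, List.length_cons, pow_succ]
    have h3 := abs_sub (difs ys F (x + y)) (difs ys F x)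
    linarith

private theorem difs_down [NormedSpace ℝ E] (F : E → ℝ) (C : ℝ)
    (hC : ∀ x, |F x| ≤ C * ‖x‖ ^ 2) (k : ℕ)
    (h : ∀ ys : List E, ys.length = k + 3 + 1 → ∀ x, difs ys F x = 0) :
    ∀ ys : List E, ys.length = k + 3 → ∀ x, difs ys F x = 0 := by
  intro ys hl x
  set S : ℝ := ‖x‖ + (ys.map (fun y => ‖y‖)).sum with hS
  have hS1 : 0 ≤ (ys.map (fun y => ‖y‖)).sum := by
    apply List.sum_nonneg
    intro a ha
    rw [List.mem_map] at ha
    obtain ⟨b, -, rfl⟩ := ha
    exact norm_nonneg b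
  have hS0 : 0 ≤ S := add_nonneg (norm_nonneg x) hS1
  have hC0 : 0 ≤ |C| := abs_nonneg C
  have key : ∀ N : ℕ, 1 ≤ N → (N : ℝ) * |difs ys F x| ≤ 2 ^ (k + 3) * (|C| * S ^ 2) := by
    intro N hN
    have hN1 : (1 : ℝ) ≤ N := by exact_mod_cast hN
    have h1 := difs_nsmul F (k + 3) h N ys [] (by simpa using hl) x
    rw [List.append_nil, List.append_nil] at h1
    have hmap : ((ys.map (fun y => N • y)).map (fun y => ‖y‖)).sum =
        N * (ys.map (fun y => ‖y‖)).sum := by
      rw [List.map_map]
      have e : ((fun y : E => ‖y‖) ∘ fun y => N • y) = fun y : E => (N : ℝ) * ‖y‖ := by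
        funext y
        rw [Function.comp_apply, ← Nat.cast_smul_eq_nsmul ℝ, norm_smul, Real.norm_natCast]
      rw [e, List.sum_map_mul_left]
    have h2 := difs_bound F (N * S) (|C| * (N * S) ^ 2) (fun z hz => by
      refine (hC z).trans ?_
      have h3 : C * ‖z‖ ^ 2 ≤ |C| * ‖z‖ ^ 2 :=
        mul_le_mul_of_nonneg_right (le_abs_self C) (sq_nonneg _)
      refine h3.trans (mul_le_mul_of_nonneg_left ?_ hC0)
      exact pow_le_pow_left₀ (norm_nonneg z) hz 2) (ys.map (fun y => N • y)) x (by
        rw [hmap, hS, mul_add]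
        nlinarith [norm_nonneg x])
    rw [h1, List.length_map, hl, abs_mul, abs_of_nonneg (by positivity : (0 : ℝ) ≤ (N : ℝ) ^ (k + 3))]
      at h2
    have hN0 : (0 : ℝ) < (N : ℝ) ^ 2 := by positivity
    have h4 : (N : ℝ) ^ 2 * ((N : ℝ) ^ (k + 1) * |difs ys F x|) ≤
        (N : ℝ) ^ 2 * (2 ^ (k + 3) * (|C| * S ^ 2)) := by
      calc (N : ℝ) ^ 2 * ((N : ℝ) ^ (k + 1) * |difs ys F x|)
          = (N : ℝ) ^ (k + 3) * |difs ys F x| := by ring
        _ ≤ 2 ^ (k + 3) * (|C| * (N * S) ^ 2) := h2
        _ = _ := by ring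
    have h5 := le_of_mul_le_mul_left h4 hN0
    refine le_trans (mul_le_mul_of_nonneg_right ?_ (abs_nonneg _)) h5
    exact le_self_pow₀ hN1 (Nat.succ_ne_zero k)
  by_contra hne
  have hpos : 0 < |difs ys F x| := abs_pos.mpr hne
  obtain ⟨N, hN⟩ := exists_nat_gt (2 ^ (k + 3) * (|C| * S ^ 2) / |difs ys F x|)
  have h1 := key (N + 1) (by omega)
  rw [div_lt_iff₀ hpos] at hN
  push_cast at h1
  linarith

theorem poly_quad {E : Type} [NormedAddCommGroup E] [NormedSpace ℝ E] (F : E → ℝ) (n : ℕ)
    (hn : ∀ ys : List E, ys.length = n → ∀ x, difs ys F x = 0) (C : ℝ)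
    (hC : ∀ x, |F x| ≤ C * ‖x‖ ^ 2) :
    ∃ B : E →ₗ[ℝ] E →ₗ[ℝ] ℝ, (∀ x y, B x y = B y x) ∧ ∀ x, F x = B x x := by
  -- all `3`-fold differences vanish
  have hup : ∀ m, ∀ ys : List E, ys.length = n + m → ∀ x, difs ys F x = 0 := by
    intro m
    induction m with
    | zero => exact hn
    | succ m ih => exact difs_succ F (n + m) ih
  have hdown : ∀ j, (∀ ys : List E, ys.length = j + 3 → ∀ x, difs ys F x = 0) →
      ∀ ys : List E, ys.length = 3 → ∀ x, difs ys F x = 0 := by
    intro j
    induction j with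
    | zero => intro h ys hl; exact h ys (by rw [hl])
    | succ j ih =>
      intro h
      apply ih
      apply difs_down F C hC j
      intro ys hl
      exact h ys (by omega)
  have h3 := hdown n (hup 3)
  have hF0 : F 0 = 0 := by
    have := hC 0
    rw [norm_zero] at this
    have h0 : |F 0| ≤ 0 := by simpa using this
    exact abs_eq_zero.mp (le_antisymm h0 (abs_nonneg _))
  set D : E → E → ℝ := fun y z => F (y + z) - F y - F z with hD
  have hDx : ∀ y z x, dif y (dif z F) x = D y z := by
    intro y z x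
    have h1 := h3 [x, y, z] rfl 0
    have h2 : dif x (dif y (dif z F)) 0 = 0 := h1
    rw [dif, zero_add, sub_eq_zero] at h2
    rw [h2]
    simp only [dif, hD, zero_add, hF0]
    ring
  have hDadd : ∀ y y' z, D (y + y') z = D y z + D y' z := by
    intro y y' z
    rw [← hDx (y + y') z 0, ← hDx y z (0 + y'), ← hDx y' z 0]
    simp only [dif]
    rw [add_comm y y', ← add_assoc]
    ring
  have hDsymm : ∀ y z, D y z = D z y := by
    intro y z
    simp only [hD]
    rw [add_comm y z]
    ring
  have hDadd' : ∀ y z z', D y (z + z') = D y z + D y z' := by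
    intro y z z'
    rw [hDsymm, hDadd, hDsymm z, hDsymm z']
  have hC0 : 0 ≤ |C| := abs_nonneg C
  have hFb : ∀ x, |F x| ≤ |C| * ‖x‖ ^ 2 := fun x =>
    (hC x).trans (mul_le_mul_of_nonneg_right (le_abs_self C) (sq_nonneg _))
  have hDb : ∀ y z, |D y z| ≤ |C| * ((‖y‖ + ‖z‖) ^ 2 + ‖y‖ ^ 2 + ‖z‖ ^ 2) := by
    intro y z
    have h1 : |D y z| ≤ |F (y + z)| + |F y| + |F z| := by
      simp only [hD]
      refine (abs_sub _ _).trans ?_
      have := abs_sub (F (y + z)) (F y)
      linarith
    have h2 := hFb (y + z)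
    have h4 : ‖y + z‖ ^ 2 ≤ (‖y‖ + ‖z‖) ^ 2 :=
      pow_le_pow_left₀ (norm_nonneg _) (norm_add_le y z) 2
    have h5 := mul_le_mul_of_nonneg_left h4 hC0
    have h6 := hFb y
    have h7 := hFb z
    nlinarith
  -- the additive part vanishes
  set ℓ : E → ℝ := fun y => F y - D y y / 2 with hℓ
  have hℓadd : ∀ y z, ℓ (y + z) = ℓ y + ℓ z := by
    intro y z
    have h1 : D (y + z) (y + z) = D y y + 2 * D y z + D z z := by
      rw [hDadd, hDadd', hDadd', hDsymm z y]
      ring
    have h2 : F (y + z) = F y + F z + D y z := by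
      simp only [hD]; ring
    simp only [hℓ]
    rw [h1, h2]
    ring
  have hℓn : ∀ (N : ℕ) y, ℓ (N • y) = N * ℓ y := by
    intro N y
    induction N with
    | zero =>
      have := hℓadd 0 0
      rw [add_zero] at this
      have h0 : ℓ 0 = 0 := by linarith
      simp [h0]
    | succ N ih =>
      rw [succ_nsmul, hℓadd, ih]
      push_cast
      ring
  have hℓb : ∀ y, |ℓ y| ≤ 4 * |C| * ‖y‖ ^ 2 := by
    intro y
    have h1 := hFb y
    have h2 := hDb y y
    have h4 : |ℓ y| ≤ |F y| + |D y y| / 2 := by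
      simp only [hℓ]
      refine (abs_sub _ _).trans ?_
      rw [abs_div, abs_two]
    nlinarith
  have hℓ0 : ∀ y, ℓ y = 0 := by
    intro y
    by_contra hne
    have hpos : 0 < |ℓ y| := abs_pos.mpr hne
    obtain ⟨N, hN⟩ := exists_nat_gt (4 * |C| * ‖y‖ ^ 2 / |ℓ y|)
    have hN1 : (0 : ℝ) < (N : ℝ) + 1 := by positivity
    have h1 := hℓb (((N : ℝ) + 1)⁻¹ • y)
    have h2 := hℓn (N + 1) (((N : ℝ) + 1)⁻¹ • y)
    have h4 : (N + 1) • (((N : ℝ) + 1)⁻¹ • y) = y := by
      rw [← Nat.cast_smul_eq_nsmul ℝ, smul_smul]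
      push_cast
      rw [mul_inv_cancel₀ hN1.ne', one_smul]
    rw [h4] at h2
    push_cast at h2
    rw [norm_smul, norm_inv, Real.norm_of_nonneg hN1.le, mul_pow] at h1
    have h5 : |ℓ y| = ((N : ℝ) + 1) * |ℓ (((N : ℝ) + 1)⁻¹ • y)| := by
      rw [h2, abs_mul, abs_of_pos hN1]
    have h6 : ((N : ℝ) + 1) * |ℓ (((N : ℝ) + 1)⁻¹ • y)| ≤
        ((N : ℝ) + 1) * (4 * |C| * ((((N : ℝ) + 1)⁻¹) ^ 2 * ‖y‖ ^ 2)) :=
      mul_le_mul_of_nonneg_left h1 hN1.le
    have h7 : ((N : ℝ) + 1) * (4 * |C| * ((((N : ℝ) + 1)⁻¹) ^ 2 * ‖y‖ ^ 2)) =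
        4 * |C| * ‖y‖ ^ 2 / ((N : ℝ) + 1) := by
      field_simp
    rw [← h5, h7, le_div_iff₀ hN1] at h6
    rw [div_lt_iff₀ hpos] at hN
    nlinarith
  -- real bilinearity
  have hDn : ∀ (N : ℕ) y z, D (N • y) z = N * D y z := by
    intro N y z
    induction N with
    | zero =>
      have := hDadd 0 0 z
      rw [add_zero] at this
      have h0 : D 0 z = 0 := by linarith
      rw [zero_smul, h0]
      simp
    | succ N ih =>
      rw [succ_nsmul, hDadd, ih]
      push_cast
      ring
  have hsmul : ∀ (t : ℝ) y z, D (t • y) z = t * D y z := by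
    intro t y z
    let a : E →+ ℝ := AddMonoidHom.mk' (fun y => D y z) (fun y y' => hDadd y y' z)
    have hcont : Continuous a := by
      apply continuous_of_continuousAt_zero
      rw [Metric.continuousAt_iff]
      intro ε hε
      set K : ℝ := |C| * ((1 + ‖z‖) ^ 2 + 1 + ‖z‖ ^ 2) with hK
      have hK0 : 0 ≤ K := by positivity
      obtain ⟨N, hN⟩ := exists_nat_gt (K / ε)
      have hN1 : (0 : ℝ) < (N : ℝ) + 1 := by positivity
      refine ⟨((N : ℝ) + 1)⁻¹, by positivity, fun {y} hy => ?_⟩
      rw [dist_zero_right] at hy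
      rw [map_zero, dist_zero_right, Real.norm_eq_abs]
      change |D y z| < ε
      have h1 := hDb ((N + 1) • y) z
      have h2 : ‖(N + 1) • y‖ ≤ 1 := by
        rw [← Nat.cast_smul_eq_nsmul ℝ, norm_smul, Real.norm_natCast]
        push_cast
        have := mul_le_mul_of_nonneg_left hy.le hN1.le
        rwa [mul_inv_cancel₀ hN1.ne'] at this
      have h4 : |D ((N + 1) • y) z| ≤ K := by
        refine h1.trans (mul_le_mul_of_nonneg_left ?_ hC0)
        have h5 : (‖(N + 1) • y‖ + ‖z‖) ^ 2 ≤ (1 + ‖z‖) ^ 2 :=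
          pow_le_pow_left₀ (by positivity) (by linarith) 2
        have h6 : ‖(N + 1) • y‖ ^ 2 ≤ 1 := by
          have := pow_le_pow_left₀ (norm_nonneg ((N + 1) • y)) h2 2
          simpa using this
        linarith
      rw [hDn, abs_mul] at h4
      push_cast at h4
      rw [abs_of_pos hN1] at h4
      rw [div_lt_iff₀ hε] at hN
      by_contra hcon
      push Not at hcon
      have h7 := mul_le_mul_of_nonneg_left hcon hN1.le
      nlinarith
    have := map_real_smul a hcont t y
    exact this
  refine ⟨LinearMap.mk₂ ℝ (fun y z => D y z / 2) ?_ ?_ ?_ ?_, ?_, ?_⟩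
  · intro y y' z
    change D (y + y') z / 2 = D y z / 2 + D y' z / 2
    rw [hDadd]; ring
  · intro t y z
    change D (t • y) z / 2 = t * (D y z / 2)
    rw [hsmul]; ring
  · intro y z z'
    change D y (z + z') / 2 = D y z / 2 + D y z' / 2
    rw [hDadd']; ring
  · intro t y z
    change D y (t • z) / 2 = t * (D y z / 2)
    rw [hDsymm, hsmul, hDsymm]; ring
  · intro x y
    change D x y / 2 = D y x / 2
    rw [hDsymm]
  · intro x
    change F x = D x x / 2
    have := hℓ0 x
    simp only [hℓ] at this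
    linarith

end Vale.Agent.Lib.P058
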