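import Vale.Agent.Lib.P058L.LDef

/-!
# P058L, module LQuadC: translation invariant quadratic forms are linear functions of `Dm c`

`quad_functional`: let `π : (J → ℝ) →ₗ[ℝ] V` be a projection onto `V` (`Submodule.exists_isCompl`,
`Submodule.linearProjOfIsCompl`, or `LinearMap.exists_leftInverse_of_injective V.subtype`), `j₀` a row, and
`b i l = B (π (Pi.single i 1)) (π (Pi.single l 1))`; so `B c c = ∑ i, ∑ l, c i * c l * b i l` for `c ∈ V`.
By `hinv` with `m = - c j₀`: `B c c = ∑ i l, (c i - c j₀) * (c l - c j₀) * b i l`, and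
`x * y = (x ^ 2 + y ^ 2 - (x - y) ^ 2) / 2`, so with `x = c i - c j₀`, `y = c l - c j₀`:
`x ^ 2 = Dm c i j₀`, `y ^ 2 = Dm c l j₀`, `(x - y) ^ 2 = Dm c i l`.  Put
`lam X = ∑ i, ∑ l, b i l * (X i j₀ + X l j₀ - X i l) / 2`.

`psd_zero`: the set of `c ∈ V` with `lam (Dm c) = 0` is a subspace:
`Dm (c + c') + Dm (c - c') = 2 • Dm c + 2 • Dm c'` and both terms on the left have `lam ≥ 0`; scaling
`Dm (t • c) = t ^ 2 • Dm c`.  It contains `xs` and the constants (`Dm = 0`).
-/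

namespace Vale.Agent.Lib.P058

theorem quad_functional {J : Type} [Fintype J] [DecidableEq J] [Nonempty J]
    (V : Submodule ℝ (J → ℝ)) (hone : (fun _ => (1 : ℝ)) ∈ V) (B : V →ₗ[ℝ] V →ₗ[ℝ] ℝ)
    (hinv : ∀ (c : V) (m : ℝ), B (c + m • ⟨fun _ => 1, hone⟩) (c + m • ⟨fun _ => 1, hone⟩) =
      B c c) :
    ∃ lam : (J → J → ℝ) →ₗ[ℝ] ℝ, ∀ c : V, lam (Dm (c : J → ℝ)) = B c c := by
  classical
  obtain ⟨π, hπ⟩ := LinearMap.exists_leftInverse_of_injective V.subtype (Submodule.ker_subtype V)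
  have hπ' : ∀ c : V, π (c : J → ℝ) = c := fun c => LinearMap.congr_fun hπ c
  let j₀ : J := Classical.arbitrary J
  let b : J → J → ℝ := fun i l => B (π (Pi.single i 1)) (π (Pi.single l 1))
  have hexp : ∀ c : V, B c c = ∑ i, ∑ l, (c : J → ℝ) i * (c : J → ℝ) l * b i l := by
    intro c
    have h1 : c = ∑ i, (c : J → ℝ) i • π (Pi.single i 1) := by
      conv_lhs => rw [← hπ' c]
      conv_lhs => rw [pi_eq_sum_univ' (c : J → ℝ)]
      rw [map_sum]
      refine Finset.sum_congr rfl fun i _ => ?_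
      rw [map_smul]
    conv_lhs => rw [h1]
    rw [map_sum]
    simp only [map_sum B, LinearMap.sum_apply, map_smul, LinearMap.smul_apply, smul_eq_mul]
    rw [Finset.sum_comm]
    refine Finset.sum_congr rfl fun i _ => ?_
    rw [Finset.mul_sum]
    refine Finset.sum_congr rfl fun l _ => ?_
    change _ = _ * _ * B (π (Pi.single l 1)) (π (Pi.single i 1))
    ring
  refine ⟨{ toFun := fun X => ∑ i, ∑ l, b i l * (X i j₀ + X l j₀ - X i l) / 2
            map_add' := ?_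
            map_smul' := ?_ }, ?_⟩
  · intro X Y
    rw [← Finset.sum_add_distrib]
    refine Finset.sum_congr rfl fun i _ => ?_
    rw [← Finset.sum_add_distrib]
    refine Finset.sum_congr rfl fun l _ => ?_
    simp only [Pi.add_apply]
    ring
  · intro t X
    rw [RingHom.id_apply, smul_eq_mul, Finset.mul_sum]
    refine Finset.sum_congr rfl fun i _ => ?_
    rw [Finset.mul_sum]
    refine Finset.sum_congr rfl fun l _ => ?_
    simp only [Pi.smul_apply, smul_eq_mul]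
    ring
  · intro c
    rw [← hinv c (-(c : J → ℝ) j₀), hexp]
    change ∑ i, ∑ l, b i l * (Dm (c : J → ℝ) i j₀ + Dm (c : J → ℝ) l j₀ - Dm (c : J → ℝ) i l) / 2
      = _
    refine Finset.sum_congr rfl fun i _ => Finset.sum_congr rfl fun l _ => ?_
    have h2 : ∀ i : J, ((c + (-(c : J → ℝ) j₀) • (⟨fun _ => 1, hone⟩ : V) : V) : J → ℝ) i =
        (c : J → ℝ) i - (c : J → ℝ) j₀ := by
      intro i
      change (c : J → ℝ) i + (-(c : J → ℝ) j₀) * 1 = _
      ring
    rw [h2, h2]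
    simp only [Dm]
    ring

theorem psd_zero {J : Type} (V : Submodule ℝ (J → ℝ)) (lam : (J → J → ℝ) →ₗ[ℝ] ℝ)
    (hpos : ∀ c ∈ V, 0 ≤ lam (Dm c)) (xs : List (J → ℝ)) (hxs : ∀ x ∈ xs, x ∈ V)
    (hx0 : ∀ x ∈ xs, lam (Dm x) = 0)
    (hspan : V ≤ Submodule.span ℝ ({x | x ∈ xs} ∪ {fun _ => (1 : ℝ)})) :
    ∀ c ∈ V, lam (Dm c) = 0 := by
  have hadd : ∀ c ∈ V, ∀ c' ∈ V, lam (Dm c) = 0 → lam (Dm c') = 0 → lam (Dm (c + c')) = 0 := by
    intro c hc c' hc' h h'
    have h1 : Dm (c + c') + Dm (c - c') = (2 : ℝ) • Dm c + (2 : ℝ) • Dm c' := by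
      funext i j
      simp only [Dm, Pi.add_apply, Pi.sub_apply, Pi.smul_apply, smul_eq_mul]
      ring
    have h2 : lam (Dm (c + c')) + lam (Dm (c - c')) = 0 := by
      rw [← map_add, h1, map_add, map_smul, map_smul, h, h', smul_zero, add_zero]
    have h3 := hpos _ (V.add_mem hc hc')
    have h4 := hpos _ (V.sub_mem hc hc')
    linarith
  have hsmul : ∀ (t : ℝ) (c : J → ℝ), lam (Dm c) = 0 → lam (Dm (t • c)) = 0 := by
    intro t c h
    have h1 : Dm (t • c) = (t ^ 2) • Dm c := by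
      funext i j
      simp only [Dm, Pi.smul_apply, smul_eq_mul]
      ring
    rw [h1, map_smul, h, smul_zero]
  have hzero : lam (Dm (0 : J → ℝ)) = 0 := by
    have h1 : Dm (0 : J → ℝ) = 0 := by
      funext i j
      simp [Dm]
    rw [h1, map_zero]
  let W : Submodule ℝ (J → ℝ) :=
    { carrier := {c | c ∈ V ∧ lam (Dm c) = 0}
      add_mem' := fun {a b} ha hb => ⟨V.add_mem ha.1 hb.1, hadd a ha.1 b hb.1 ha.2 hb.2⟩
      zero_mem' := ⟨V.zero_mem, hzero⟩
      smul_mem' := fun t c hc => ⟨V.smul_mem t hc.1, hsmul t c hc.2⟩ }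
  have hW : Submodule.span ℝ {x | x ∈ xs} ≤ W :=
    Submodule.span_le.2 fun x hx => ⟨hxs x hx, hx0 x hx⟩
  intro c hc
  have h1 := hspan hc
  rw [Submodule.span_union, Submodule.mem_sup] at h1
  obtain ⟨y, hy, z, hz, hyz⟩ := h1
  obtain ⟨s, hs⟩ := Submodule.mem_span_singleton.1 hz
  have h2 : Dm c = Dm y := by
    funext i j
    rw [← hyz, ← hs]
    simp only [Dm, Pi.add_apply, Pi.smul_apply, smul_eq_mul]
    ring
  rw [h2]
  exact (hW hy).2

end Vale.Agent.Lib.P058
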