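import Vale.Agent.Lib.P058L.LDef
import Vale.Agent.Lib.P058.Compact
import Vale.Agent.Lib.P058.Main2

/-!
# P058L, module LRam: from elements of the free group to Ramsey sets

`words_of_elements`: as `realize` (module Realize).  `exists_ultra` gives `Φ`; the colouring `χ` of words gives
`κ g` = the colour with `∀ᶠ w in Φ g, χ w = κ g` (`Ultrafilter.eq_pure_of_finite ((Φ g).map χ)`).
Take `u` from the hypothesis, `k` the common value of `κ (u j)`, and `realize_key` for
`C j = {w | χ w = k}`.  (If `J` is empty everything is trivial.)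

`finite_words`: compactness, word by word the proof of `realize_finite` (module Compact) with
`words_of_elements` instead of `realize` (drop `wnorm`).

`isRamsey_of_elements`: for `r ≥ 2` take the finite set `W` of words for `C = Fin r`, `D ≥ 1` larger
than all lengths of words in `W`; a word `w` of length `≤ D` gives the point
`pt w = !₂[...]`, `(pt w) k = w.getD k 0` of `EuclideanSpace ℝ (Fin D)`; for words of equal length
`dist (pt w) (pt w') ^ 2 = wdist w w'`.  For `c : EuclideanSpace ℝ (Fin D) → Fin r` colour words by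
`c (pt w)`; the family `w : A → List ℝ` gives `f a = pt (w a)`, an isometry since
`dist (f a) (f b) ^ 2 = dist a b ^ 2`.
-/

namespace Vale.Agent.Lib.P058

theorem words_of_elements {J : Type} [Finite J] (V : Set (J → ℝ)) (D0 : J → J → ℝ)
    (h : ∀ (C : Type) [Finite C] (κ : FreeGroup ℝ → C),
      ∃ u : J → FreeGroup ℝ, InP V u D0 ∧ ∀ i j, κ (u i) = κ (u j))
    (C : Type) [Finite C] (χ : List ℝ → C) :
    ∃ w : J → List ℝ, (∀ i j, (w i).length = (w j).length) ∧
      (∀ i j, wdist (w i) (w j) = D0 i j) ∧ ∀ i j, χ (w i) = χ (w j) := by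
  obtain ⟨Φ, hmul, hof⟩ := exists_ultra
  have hκ : ∀ g : FreeGroup ℝ, ∃ k : C, ∀ᶠ w in (Φ g : Filter (List ℝ)), χ w = k := by
    intro g
    obtain ⟨k, hk⟩ := Ultrafilter.eq_pure_of_finite ((Φ g).map χ)
    refine ⟨k, ?_⟩
    have : ∀ᶠ c in (((Φ g).map χ : Ultrafilter C) : Filter C), c = k := by
      rw [hk]
      simp
    simpa using this
  choose κ hκ using hκ
  obtain ⟨u, hu, huk⟩ := h C κ
  rcases isEmpty_or_nonempty J with hJ | ⟨⟨j0⟩⟩
  · exact ⟨fun _ => [], fun i => (hJ.false i).elim, fun i => (hJ.false i).elim,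
      fun i => (hJ.false i).elim⟩
  · obtain ⟨w, hw, hwl, hwd, -⟩ := realize_key Φ hmul hof hu (fun _ => {w | χ w = κ (u j0)})
      (fun j => by
        rw [← huk j j0]
        exact hκ (u j))
    refine ⟨w, hwl, hwd, fun i j => ?_⟩
    have h1 : χ (w i) = κ (u j0) := hw i
    have h2 : χ (w j) = κ (u j0) := hw j
    rw [h1, h2]

theorem finite_words {J : Type} [Finite J] (V : Set (J → ℝ)) (D0 : J → J → ℝ)
    (h : ∀ (C : Type) [Finite C] (κ : FreeGroup ℝ → C),
      ∃ u : J → FreeGroup ℝ, InP V u D0 ∧ ∀ i j, κ (u i) = κ (u j))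
    (C : Type) [Finite C] :
    ∃ W : Finset (List ℝ), ∀ χ : List ℝ → C, ∃ w : J → List ℝ, (∀ j, w j ∈ W) ∧
      (∀ i j, (w i).length = (w j).length) ∧
      (∀ i j, wdist (w i) (w j) = D0 i j) ∧ ∀ i j, χ (w i) = χ (w j) := by
  classical
  by_contra hcon
  push Not at hcon
  choose χ hχ using hcon
  let U : Ultrafilter (Finset (List ℝ)) := Ultrafilter.of Filter.atTop
  have hU : (U : Filter (Finset (List ℝ))) ≤ Filter.atTop := Ultrafilter.of_le _
  have hlim : ∀ u : List ℝ, ∃ k : C, ∀ᶠ W in (U : Filter (Finset (List ℝ))), χ W u = k := by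
    intro u
    obtain ⟨k, hk⟩ := Ultrafilter.eq_pure_of_finite (U.map fun W => χ W u)
    refine ⟨k, ?_⟩
    have h1 : ({k} : Set C) ∈ U.map fun W => χ W u := by
      rw [hk]
      exact Ultrafilter.mem_pure.2 rfl
    exact Ultrafilter.mem_map.1 h1
  choose ψ hψ using hlim
  obtain ⟨w, hw1, hw3, hw4⟩ := words_of_elements V D0 h C ψ
  have := Fintype.ofFinite J
  have h1 : ∀ᶠ W in (U : Filter (Finset (List ℝ))), Finset.univ.image w ≤ W :=
    hU (Filter.eventually_ge_atTop _)
  have h2 : ∀ᶠ W in (U : Filter (Finset (List ℝ))), ∀ j, χ W (w j) = ψ (w j) :=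
    Filter.eventually_all.2 fun j => hψ (w j)
  obtain ⟨W, hW1, hW2⟩ := (h1.and h2).exists
  obtain ⟨i, j, hij⟩ := hχ W w
    (fun j => hW1 (Finset.mem_image_of_mem w (Finset.mem_univ j))) hw1 hw3
  exact hij (by rw [hW2, hW2, hw4 i j])

private theorem lRam_sum (D : ℕ) (u v : List ℝ) (h : u.length = v.length) (hD : u.length ≤ D) :
    ∑ k : Fin D, (u.getD k 0 - v.getD k 0) ^ 2 = wdist u v := by
  induction u generalizing v D with
  | nil =>
    have hv : v = [] := List.eq_nil_of_length_eq_zero (by rw [← h]; rfl)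
    subst hv
    simp [wdist]
  | cons a u ih =>
    cases v with
    | nil => simp at h
    | cons b v =>
      simp only [List.length_cons, add_left_inj] at h
      cases D with
      | zero => simp at hD
      | succ D =>
        simp only [List.length_cons, add_le_add_iff_right] at hD
        rw [Fin.sum_univ_succ, wdist_cons, ← ih D v h hD]
        simp

theorem isRamsey_of_elements {d : ℕ} (A : Set (EuclideanSpace ℝ (Fin d))) (hA : A.Finite)
    (V : Set (A → ℝ))
    (h : ∀ (C : Type) [Finite C] (κ : FreeGroup ℝ → C),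
      ∃ u : A → FreeGroup ℝ, InP V u (fun a b => dist a b ^ 2) ∧ ∀ i j, κ (u i) = κ (u j)) :
    IsRamsey A := by
  intro r _
  have : Finite A := hA.to_subtype
  obtain ⟨W, hW⟩ := finite_words V (fun a b : A => dist a b ^ 2) h (Fin r)
  set D := W.sup List.length + 1 with hD
  refine ⟨D, by omega, fun c => ?_⟩
  let pt : List ℝ → EuclideanSpace ℝ (Fin D) := fun w => WithLp.toLp 2 fun k => w.getD k 0
  obtain ⟨w, hwW, hwl, hwd, hwc⟩ := hW (fun w => c (pt w))
  refine ⟨fun a => pt (w a), Isometry.of_dist_eq fun a b => ?_, fun a b => hwc a b⟩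
  have h1 : (w a).length ≤ D := by
    have := Finset.le_sup (f := List.length) (hwW a)
    omega
  have h2 : dist (pt (w a)) (pt (w b)) ^ 2 = dist a b ^ 2 := by
    rw [EuclideanSpace.dist_sq_eq, ← hwd a b, ← lRam_sum D (w a) (w b) (hwl a b) h1]
    refine Finset.sum_congr rfl fun k _ => ?_
    rw [Real.dist_eq, sq_abs]
  exact (sq_eq_sq₀ dist_nonneg dist_nonneg).1 h2

end Vale.Agent.Lib.P058
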