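import Vale.Agent.Lib.P058L.LLift
import Vale.Agent.Lib.P058L.LCone
import Vale.Agent.Lib.P058L.LHB
import Vale.Agent.Lib.P058L.LMean
import Vale.Agent.Lib.P058L.LQuadA
import Vale.Agent.Lib.P058L.LQuadB
import Vale.Agent.Lib.P058L.LQuadC
import Vale.Agent.Lib.P058.Duality

/-!
# P058L, module LStar: the duality argument
-/

namespace Vale.Agent.Lib.P058

variable {J : Type}

theorem Dm_add_const (c : J → ℝ) (m : ℝ) : Dm (fun j => c j + m) = Dm c := by
  funext i j
  simp [Dm]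

theorem Dm_const (m : ℝ) : Dm (fun _ : J => m) = 0 := by
  funext i j
  simp [Dm]

theorem map_DL (ℓ : (J → J → ℝ) →ₗ[ℝ] ℝ) (L : List (J → ℝ)) :
    ℓ (DL L) = (L.map (fun c => ℓ (Dm c))).sum := by
  rw [DL, map_list_sum, List.map_map]
  rfl

theorem sbal_kill {V : Submodule ℝ (J → ℝ)} (hone : (fun _ => (1 : ℝ)) ∈ V) [Nonempty J]
    (g : (J → ℝ) → ℝ) (hg0 : ∀ m : ℝ, g (fun _ => m) = 0)
    (hg : ∀ L L' : List (J → ℝ), (∀ c ∈ L, c ∈ V) → (∀ c ∈ L', c ∈ V) → RowEq L L' →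
        (L.map g).sum = (L'.map g).sum)
    {L L' : List (J → ℝ)} (hL : ∀ c ∈ L, c ∈ V) (hL' : ∀ c ∈ L', c ∈ V) (h : SBal L L') :
    (L.map g).sum = (L'.map g).sum := by
  have hc : ∀ m : ℝ, (fun _ : J => m) ∈ V := by
    intro m
    have := V.smul_mem m hone
    convert this using 1
    funext j
    simp
  let j₀ : J := Classical.arbitrary J
  have h1 := hg (L ++ L'.map (fun c => (fun _ : J => c j₀)))
    (L' ++ L.map (fun c => (fun _ : J => c j₀))) (by
      intro c hc'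
      rcases List.mem_append.1 hc' with h | h
      · exact hL c h
      · obtain ⟨a, -, rfl⟩ := List.mem_map.1 h
        exact hc _) (by
      intro c hc'
      rcases List.mem_append.1 hc' with h | h
      · exact hL' c h
      · obtain ⟨a, -, rfl⟩ := List.mem_map.1 h
        exact hc _) (h.rowEq j₀)
  have h2 : ∀ M : List (J → ℝ), ((M.map (fun c => (fun _ : J => c j₀))).map g).sum = 0 := by
    intro M
    rw [List.map_map]
    have : (g ∘ fun c : J → ℝ => (fun _ : J => c j₀)) = fun _ => 0 := by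
      funext c
      exact hg0 _
    rw [this]
    simp
  rw [List.map_append, List.map_append, List.sum_append, List.sum_append, h2, h2, add_zero,
    add_zero] at h1
  exact h1

theorem lists_nonneg [Fintype J] [DecidableEq J] [Nonempty J] {V : Submodule ℝ (J → ℝ)}
    (hone : (fun _ => (1 : ℝ)) ∈ V) (hsep : ∀ i j, i ≠ j → ∃ c ∈ V, c i ≠ c j)
    (ℓp ℓm : (J → J → ℝ) →ₗ[ℝ] ℝ)
    (hℓ : ∀ p : (J → J → ℝ) × (J → J → ℝ), CNC (V : Set (J → ℝ)) p → 0 ≤ ℓp p.1 + ℓm p.2)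
    (L L' : List (J → ℝ)) (hL : ∀ c ∈ L, c ∈ V) (hL' : ∀ c ∈ L', c ∈ V) (h : RowEq L L') :
    0 ≤ ℓp (DL L) + ℓm (DL L') := by
  obtain ⟨Cp, hCp0, hCp⟩ := abs_le_of_entries ℓp
  obtain ⟨Cm, hCm0, hCm⟩ := abs_le_of_entries ℓm
  refine le_of_forall_pos_le_add fun ε hε => ?_
  have hK : 0 < Cp + Cm + 1 := by linarith
  obtain ⟨v, D, D', hD, hD', h1, h2⟩ := lift_pair hone hsep L L' hL hL' h (ε / (Cp + Cm + 1))
    (div_pos hε hK)
  have hη0 : 0 ≤ ε / (Cp + Cm + 1) := (div_pos hε hK).le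
  have h3 := hℓ (D, D') ⟨v, hD, hD'⟩
  have h4 := hCp (D - DL L) (ε / (Cp + Cm + 1)) (fun i j => h1 i j) hη0
  have h5 := hCm (D' - DL L') (ε / (Cp + Cm + 1)) (fun i j => h2 i j) hη0
  rw [map_sub] at h4 h5
  have h6 := (abs_le.1 h4).2
  have h7 := (abs_le.1 h5).2
  have h8 : (Cp + Cm) * (ε / (Cp + Cm + 1)) ≤ ε := by
    rw [← mul_div_assoc, div_le_iff₀ hK]
    nlinarith
  simp only at h3
  nlinarith

theorem list_sum_zero_of_nonneg {α : Type} (q : α → ℝ) (xs : List α) (h0 : ∀ x ∈ xs, 0 ≤ q x)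
    (hs : (xs.map q).sum = 0) : ∀ x ∈ xs, q x = 0 := by
  induction xs with
  | nil => simp
  | cons a xs ih =>
    have h1 : 0 ≤ (xs.map q).sum := List.sum_nonneg (by
      intro y hy
      obtain ⟨x, hx, rfl⟩ := List.mem_map.1 hy
      exact h0 x (List.mem_cons_of_mem _ hx))
    have h2 := h0 a List.mem_cons_self
    rw [List.map_cons, List.sum_cons] at hs
    intro x hx
    rcases List.mem_cons.1 hx with rfl | hx
    · linarith
    · exact ih (fun y hy => h0 y (List.mem_cons_of_mem _ hy)) (by linarith) x hx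

/-- the dual criterion: it suffices that every linear functional which does not distinguish row equal
lists vanishes at the cost `DL xs` -/
theorem star_trace [Fintype J] [DecidableEq J] [Nonempty J] {V : Submodule ℝ (J → ℝ)}
    (hone : (fun _ => (1 : ℝ)) ∈ V) (hsep : ∀ i j, i ≠ j → ∃ c ∈ V, c i ≠ c j)
    (xs : List (J → ℝ)) (hxs : ∀ c ∈ xs, c ∈ V)
    (hspan : V ≤ Submodule.span ℝ ({x | x ∈ xs} ∪ {fun _ => (1 : ℝ)}))
    (htr : ∀ lam : (J → J → ℝ) →ₗ[ℝ] ℝ, (∀ L L' : List (J → ℝ), (∀ c ∈ L, c ∈ V) →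
      (∀ c ∈ L', c ∈ V) → RowEq L L' → lam (DL L) = lam (DL L')) → lam (DL xs) = 0)
    (τ : ℝ) (hτ : 0 < τ) :
    CNC (V : Set (J → ℝ)) ((1 + τ) • DL xs, τ • DL xs) := by
  by_contra hx
  obtain ⟨ℓ, hℓ, hℓx, hprop⟩ := cone_separation {p | CNC (V : Set (J → ℝ)) p} (CNC_zero _)
    (fun p hp q hq => CNC_add hp hq) (fun t ht p hp => CNC_smul hone ht hp) _ hx
  let ℓp : (J → J → ℝ) →ₗ[ℝ] ℝ := ℓ ∘ₗ LinearMap.inl ℝ _ _
  let ℓm : (J → J → ℝ) →ₗ[ℝ] ℝ := ℓ ∘ₗ LinearMap.inr ℝ _ _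
  have hsplit : ∀ p, ℓ p = ℓp p.1 + ℓm p.2 := by
    intro p
    simp only [ℓp, ℓm, LinearMap.comp_apply, LinearMap.inl_apply, LinearMap.inr_apply]
    rw [← map_add]
    congr 1
    ext <;> simp
  have hlists : ∀ L L' : List (J → ℝ), (∀ c ∈ L, c ∈ V) → (∀ c ∈ L', c ∈ V) → RowEq L L' →
      0 ≤ (L.map (fun c => ℓp (Dm c))).sum + (L'.map (fun c => ℓm (Dm c))).sum := by
    intro L L' hL hL' h
    rw [← map_DL, ← map_DL]
    exact lists_nonneg hone hsep ℓp ℓm (fun p hp => by rw [← hsplit]; exact hℓ p hp) L L' hL hL' h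
  obtain ⟨f, hf1, hf2, hf3⟩ := two_sided (V : Set (J → ℝ)) (fun c => ℓp (Dm c))
    (fun c => ℓm (Dm c)) (fun L L' hL hL' h => hlists L L' hL hL' h)
  obtain ⟨g, hg1, hg2, hg3, hg4⟩ := exists_invariant V hone (fun c => ℓp (Dm c))
    (fun c => ℓm (Dm c)) f (fun c m => by simp only [Dm_add_const])
    (fun c m => by simp only [Dm_add_const]) hf1 hf2 hf3
  have hcV : ∀ m : ℝ, (fun _ : J => m) ∈ V := by
    intro m
    have := V.smul_mem m hone
    convert this using 1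
    funext j
    simp
  have hg0 : ∀ m : ℝ, g (fun _ => m) = 0 := by
    intro m
    have h1 := hg1 _ (hcV m)
    have h2 := hg2 _ (hcV m)
    rw [Dm_const, map_zero] at h1 h2
    linarith
  have hkill : ∀ L L' : List (J → ℝ), (∀ c ∈ L, c ∈ V) → (∀ c ∈ L', c ∈ V) → SBal L L' →
      (L.map g).sum = (L'.map g).sum := fun L L' hL hL' h =>
    sbal_kill hone g hg0 hg3 hL hL' h
  -- `g` is a quadratic form on `V`
  obtain ⟨Cp, hCp0, hCp⟩ := abs_le_of_entries ℓp
  obtain ⟨Cm, hCm0, hCm⟩ := abs_le_of_entries ℓm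
  have hDm : ∀ (c : V) (i j : J), |Dm (c : J → ℝ) i j| ≤ 4 * ‖c‖ ^ 2 := by
    intro c i j
    have h1 : |(c : J → ℝ) i| ≤ ‖c‖ := norm_le_pi_norm (c : J → ℝ) i
    have h2 : |(c : J → ℝ) j| ≤ ‖c‖ := norm_le_pi_norm (c : J → ℝ) j
    rw [Dm, abs_of_nonneg (sq_nonneg _)]
    have h3 : |(c : J → ℝ) i - (c : J → ℝ) j| ≤ 2 * ‖c‖ := by
      calc |(c : J → ℝ) i - (c : J → ℝ) j| ≤ |(c : J → ℝ) i| + |(c : J → ℝ) j| := abs_sub _ _
        _ ≤ 2 * ‖c‖ := by linarith
    have h4 := sq_le_sq' (by linarith [abs_nonneg ((c : J → ℝ) i - (c : J → ℝ) j), norm_nonneg c])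
      h3
    rw [sq_abs] at h4
    linarith
  have hbound : ∀ c : V, |g c| ≤ ((Cp + Cm) * 4) * ‖c‖ ^ 2 := by
    intro c
    have h1 := hg1 _ c.2
    have h2 := hg2 _ c.2
    have h3 := hCp _ _ (hDm c) (by positivity)
    have h4 := hCm _ _ (hDm c) (by positivity)
    have h5 := (abs_le.1 h3).2
    have h6 := (abs_le.1 h4).2
    have h7 : 0 ≤ ‖c‖ ^ 2 := by positivity
    rw [abs_le]
    constructor
    · nlinarith [mul_nonneg hCp0 h7, mul_nonneg hCm0 h7]
    · nlinarith [mul_nonneg hCp0 h7, mul_nonneg hCm0 h7]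
  have hinv : ∀ (c : V) (m : ℝ), g ((c + m • ⟨fun _ => 1, hone⟩ : V) : J → ℝ) = g c := by
    intro c m
    rw [← hg4 _ c.2 m]
    congr 1
    funext j
    simp
  obtain ⟨B, hBs, hB⟩ := poly_quad (fun c : V => g c) (Fintype.card J)
    (fun ys hys x => difs_card V hone hsep (fun c : V => g c) (fun L L' hLL' => by
      have h1 := hg3 (L.map (fun c : V => (c : J → ℝ))) (L'.map (fun c : V => (c : J → ℝ)))
        (by
          intro c hc
          obtain ⟨a, -, rfl⟩ := List.mem_map.1 hc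
          exact a.2)
        (by
          intro c hc
          obtain ⟨a, -, rfl⟩ := List.mem_map.1 hc
          exact a.2)
        (fun j => by
          have h2 := hLL' j
          rw [List.map_map, List.map_map]
          simpa [List.map_flatMap, Function.comp_def, List.flatMap_singleton'] using h2)
      rw [List.map_map, List.map_map] at h1
      exact h1) hinv ys hys x) _ hbound
  obtain ⟨lam, hlam⟩ := quad_functional V hone B (fun c m => by
    rw [← hB, ← hB]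
    exact hinv c m)
  have hlamg : ∀ c ∈ V, lam (Dm c) = g c := by
    intro c hc
    rw [hlam ⟨c, hc⟩, ← hB]
  have hlist : ∀ L : List (J → ℝ), (∀ c ∈ L, c ∈ V) → lam (DL L) = (L.map g).sum := by
    intro L hL
    rw [map_DL]
    congr 1
    exact List.map_congr_left fun c hc => hlamg c (hL c hc)
  have hlam0 : lam (DL xs) = 0 := htr lam fun L L' hL hL' h => by
    rw [hlist L hL, hlist L' hL']
    exact hg3 L L' hL hL' h
  -- the two values
  have hp0 : 0 ≤ ℓp (DL xs) := by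
    have h1 : 0 ≤ (ℓp - lam) (DL xs) := by
      rw [map_DL]
      refine List.sum_nonneg ?_
      intro y hy
      obtain ⟨x, hx, rfl⟩ := List.mem_map.1 hy
      have h2 := hg1 x (hxs x hx)
      rw [LinearMap.sub_apply, hlamg x (hxs x hx)]
      linarith
    rw [LinearMap.sub_apply, hlam0, sub_zero] at h1
    exact h1
  have hm0 : 0 ≤ ℓm (DL xs) := by
    have h1 : 0 ≤ (ℓm + lam) (DL xs) := by
      rw [map_DL]
      refine List.sum_nonneg ?_
      intro y hy
      obtain ⟨x, hx, rfl⟩ := List.mem_map.1 hy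
      have h2 := hg2 x (hxs x hx)
      rw [LinearMap.add_apply, hlamg x (hxs x hx)]
      linarith
    rw [LinearMap.add_apply, hlam0, add_zero] at h1
    exact h1
  have hxval : ℓ ((1 + τ) • DL xs, τ • DL xs) = (1 + τ) * ℓp (DL xs) + τ * ℓm (DL xs) := by
    rw [hsplit]
    simp only [map_smul, smul_eq_mul]
  rw [hxval] at hℓx hprop
  have hp1 : ℓp (DL xs) = 0 := by
    have h1 := mul_nonneg hτ.le hm0
    have h2 := mul_nonneg hτ.le hp0
    nlinarith
  have hm1 : ℓm (DL xs) = 0 := by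
    rw [hp1] at hℓx
    have h1 := mul_nonneg hτ.le hm0
    have h2 : τ * ℓm (DL xs) = 0 := by linarith
    rcases mul_eq_zero.1 h2 with h3 | h3
    · exact absurd h3 hτ.ne'
    · exact h3
  have hP0 : ∀ c ∈ V, (ℓp - lam) (Dm c) = 0 := by
    refine psd_zero V (ℓp - lam) (fun c hc => ?_) xs hxs ?_ hspan
    · have h2 := hg1 c hc
      rw [LinearMap.sub_apply, hlamg c hc]
      linarith
    · refine list_sum_zero_of_nonneg _ xs (fun x hx => ?_) ?_
      · have h2 := hg1 x (hxs x hx)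
        rw [LinearMap.sub_apply, hlamg x (hxs x hx)]
        linarith
      · rw [← map_DL, LinearMap.sub_apply, hp1, hlam0, sub_zero]
  have hM0 : ∀ c ∈ V, (ℓm + lam) (Dm c) = 0 := by
    refine psd_zero V (ℓm + lam) (fun c hc => ?_) xs hxs ?_ hspan
    · have h2 := hg2 c hc
      rw [LinearMap.add_apply, hlamg c hc]
      linarith
    · refine list_sum_zero_of_nonneg _ xs (fun x hx => ?_) ?_
      · have h2 := hg2 x (hxs x hx)
        rw [LinearMap.add_apply, hlamg x (hxs x hx)]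
        linarith
      · rw [← map_DL, LinearMap.add_apply, hm1, hlam0, add_zero]
  have hzero : ∀ p, CNC (V : Set (J → ℝ)) p → ℓ p = 0 := by
    intro p hp
    obtain ⟨L, L', hL, hL', h1, h2, h3⟩ := CNC_lists hp
    have e1 : (ℓp - lam) (DL L) = 0 := by
      rw [map_DL]
      refine List.sum_eq_zero ?_
      intro y hy
      obtain ⟨x, hx, rfl⟩ := List.mem_map.1 hy
      exact hP0 x (hL x hx)
    have e2 : (ℓm + lam) (DL L') = 0 := by
      rw [map_DL]
      refine List.sum_eq_zero ?_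
      intro y hy
      obtain ⟨x, hx, rfl⟩ := List.mem_map.1 hy
      exact hM0 x (hL' x hx)
    have e3 : lam (DL L) = lam (DL L') := by
      rw [hlist L hL, hlist L' hL', hkill L L' hL hL' h3]
    rw [LinearMap.sub_apply] at e1
    rw [LinearMap.add_apply] at e2
    rw [hsplit, h1, h2]
    linarith
  rcases hprop with h | ⟨p, hp, h⟩
  · rw [hp1, hm1] at h
    simp at h
  · rw [hzero p hp] at h
    exact lt_irrefl _ h

theorem star [Fintype J] [DecidableEq J] [Nonempty J] {V : Submodule ℝ (J → ℝ)}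
    (hone : (fun _ => (1 : ℝ)) ∈ V) (hsep : ∀ i j, i ≠ j → ∃ c ∈ V, c i ≠ c j)
    (xs : List (J → ℝ)) (hxs : ∀ c ∈ xs, c ∈ V)
    (hspan : V ≤ Submodule.span ℝ ({x | x ∈ xs} ∪ {fun _ => (1 : ℝ)}))
    (P N : List (J → ℝ)) (hP : ∀ c ∈ P, c ∈ V) (hN : ∀ c ∈ N, c ∈ V) (hPN : SBal P N)
    (hD : DL xs = DL P - DL N) (τ : ℝ) (hτ : 0 < τ) :
    CNC (V : Set (J → ℝ)) ((1 + τ) • DL xs, τ • DL xs) := by
  refine star_trace hone hsep xs hxs hspan (fun lam hlam => ?_) τ hτ
  have h1 := sbal_kill hone (fun c => lam (Dm c)) (fun m => by rw [Dm_const, map_zero])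
    (fun L L' hL hL' h => by
      rw [← map_DL, ← map_DL]
      exact hlam L L' hL hL' h) hP hN hPN
  rw [hD, map_sub, map_DL, map_DL, h1, sub_self]

end Vale.Agent.Lib.P058
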