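import Vale.Agent.Lib.P058L.LStar
import Vale.Agent.Lib.P058L.LHJ
import Vale.Agent.Lib.P058L.LRam

/-!
# P058L, module LSuff: `ListGood A → IsRamsey A`
-/

namespace Vale.Agent.Lib.P058

/-- the list in which `f k` occurs `m k` times -/
def rep {α : Type} {n : ℕ} (m : Fin n → ℕ) (f : Fin n → α) : List α :=
  (List.ofFn (fun k => List.replicate (m k) (f k))).flatten

theorem sum_rep {α M : Type} [AddCommMonoid M] {n : ℕ} (m : Fin n → ℕ) (f : Fin n → α)
    (φ : α → M) : ((rep m f).map φ).sum = ∑ k, m k • φ (f k) := by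
  rw [rep, List.map_flatten, List.sum_flatten, List.map_map, List.map_ofFn, List.sum_ofFn]
  simp

theorem mem_rep {α : Type} {n : ℕ} {m : Fin n → ℕ} {f : Fin n → α} {a : α} (h : a ∈ rep m f) :
    ∃ k, a = f k := by
  rw [rep, List.mem_flatten] at h
  obtain ⟨l, hl, ha⟩ := h
  obtain ⟨k, rfl⟩ := (List.mem_ofFn).1 hl
  exact ⟨k, List.eq_of_mem_replicate ha⟩

theorem count_map_eq {α : Type} (L : List α) (φ : α → ℝ) (t : ℝ) :
    (L.map φ).count t = (L.map (fun a => if φ a = t then 1 else 0)).sum := by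
  induction L with
  | nil => simp
  | cons a L ih =>
    rw [List.map_cons, List.map_cons, List.sum_cons, List.count_cons, ih]
    simp only [beq_iff_eq]
    omega

theorem DL_apply {J : Type} (L : List (J → ℝ)) (i j : J) :
    DL L i j = (L.map (fun c => (c i - c j) ^ 2)).sum := by
  induction L with
  | nil => simp [DL]
  | cons a L ih =>
    rw [DL, List.map_cons, List.sum_cons, List.map_cons, List.sum_cons, ← ih]
    rfl

theorem affine_mem_affV {d : ℕ} (A : Set (EuclideanSpace ℝ (Fin d)))
    (c : EuclideanSpace ℝ (Fin d) →ᵃ[ℝ] ℝ) :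
    (fun a : A => c (a : EuclideanSpace ℝ (Fin d))) ∈ affV A := by
  refine ⟨(InnerProductSpace.toDual ℝ (EuclideanSpace ℝ (Fin d))).symm
    (LinearMap.toContinuousLinearMap c.linear), c 0, fun a => ?_⟩
  rw [InnerProductSpace.toDual_symm_apply]
  have h := congrFun c.decomp (a : EuclideanSpace ℝ (Fin d))
  simpa using h

/-- The dual criterion: `A` is Ramsey if every linear functional that does not distinguish row equal
lists of affine functions on `A` vanishes at the matrix of the squared distances. -/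
theorem isRamsey_of_trace {d : ℕ} (A : Set (EuclideanSpace ℝ (Fin d))) (hA : A.Finite)
    (hne : A.Nonempty)
    (h : ∀ lam : (A → A → ℝ) →ₗ[ℝ] ℝ, (∀ L L' : List (A → ℝ), (∀ c ∈ L, c ∈ affV A) →
      (∀ c ∈ L', c ∈ affV A) → RowEq L L' → lam (DL L) = lam (DL L')) →
      lam (fun a b => dist a b ^ 2) = 0) : IsRamsey A := by
  classical
  have : Fintype A := hA.fintype
  have : Nonempty A := hne.to_subtype
  let xs : List (A → ℝ) := List.ofFn fun i : Fin d => fun a : A =>
    (a : EuclideanSpace ℝ (Fin d)) i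
  have hone : (fun _ => (1 : ℝ)) ∈ affV A := ⟨0, 1, fun a => by simp⟩
  have hsep : ∀ i j : A, i ≠ j → ∃ c ∈ affV A, c i ≠ c j := by
    intro i j hij
    have h1 : (i : EuclideanSpace ℝ (Fin d)) ≠ j := fun h => hij (Subtype.ext h)
    by_contra hcon
    push Not at hcon
    have h2 := hcon (fun a => inner ℝ ((i : EuclideanSpace ℝ (Fin d)) - j)
      (a : EuclideanSpace ℝ (Fin d))) ⟨_, 0, fun a => (add_zero _).symm⟩
    have h3 : inner ℝ ((i : EuclideanSpace ℝ (Fin d)) - j)
      ((i : EuclideanSpace ℝ (Fin d)) - j) = 0 := by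
      rw [inner_sub_right, h2, sub_self]
    exact h1 (sub_eq_zero.1 (inner_self_eq_zero.1 h3))
  have hxs : ∀ x ∈ xs, x ∈ affV A := by
    intro x hx
    obtain ⟨i, rfl⟩ := (List.mem_ofFn).1 hx
    refine ⟨EuclideanSpace.single i 1, 0, fun a => ?_⟩
    rw [EuclideanSpace.inner_single_left]
    simp
  have hspan : affV A ≤ Submodule.span ℝ ({x | x ∈ xs} ∪ {fun _ => (1 : ℝ)}) := by
    rintro x ⟨w, b, hx⟩
    have h1 : x = ∑ i, w i • (fun a : A => (a : EuclideanSpace ℝ (Fin d)) i)
        + b • (fun _ : A => (1 : ℝ)) := by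
      funext a
      rw [hx a, Pi.add_apply, Finset.sum_apply]
      simp [PiLp.inner_apply, mul_comm]
    rw [h1]
    refine Submodule.add_mem _ (Submodule.sum_mem _ fun i _ => Submodule.smul_mem _ _
      (Submodule.subset_span (Or.inl ?_))) (Submodule.smul_mem _ _
      (Submodule.subset_span (Or.inr rfl)))
    exact (List.mem_ofFn).2 ⟨i, rfl⟩
  have hDL : DL xs = fun a b : A => dist a b ^ 2 := by
    funext a b
    rw [DL_apply, List.map_ofFn, List.sum_ofFn, Subtype.dist_eq, EuclideanSpace.dist_sq_eq]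
    refine Finset.sum_congr rfl fun i _ => ?_
    rw [Real.dist_eq, sq_abs]
    rfl
  refine isRamsey_of_elements A hA (affV A : Set (A → ℝ)) fun C _ κ => ?_
  refine hj_step hone _ (fun τ hτ => ?_) C κ
  rw [← hDL]
  refine star_trace hone hsep xs hxs hspan (fun lam hlam => ?_) τ hτ
  rw [hDL]
  exact h lam hlam

theorem isRamsey_of_listGood {d : ℕ} (A : Set (EuclideanSpace ℝ (Fin d))) (hA : A.Finite)
    (hne : A.Nonempty) (h : ListGood A) : IsRamsey A := by
  classical
  have : Nonempty A := hne.to_subtype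
  have hone : (fun _ => (1 : ℝ)) ∈ affV A := ⟨0, 1, fun a => by simp⟩
  obtain ⟨n, e, c, hc1, hc2⟩ := h
  let f : Fin n → A → ℝ := fun k a => c k (a : EuclideanSpace ℝ (Fin d))
  let P : List (A → ℝ) := rep (fun k => (e k).toNat) f
  let N : List (A → ℝ) := rep (fun k => (-(e k)).toNat) f
  have hP : ∀ x ∈ P, x ∈ affV A := by
    intro x hx
    obtain ⟨k, rfl⟩ := mem_rep hx
    exact affine_mem_affV A (c k)
  have hN : ∀ x ∈ N, x ∈ affV A := by
    intro x hx
    obtain ⟨k, rfl⟩ := mem_rep hx
    exact affine_mem_affV A (c k)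
  have hnat : ∀ z : ℤ, ((z.toNat : ℤ) : ℤ) - ((-z).toNat : ℤ) = z := fun z => by omega
  have hPN : SBal P N := by
    intro i j
    rw [List.perm_iff_count]
    intro t
    rw [List.count_append, List.count_append, count_map_eq, count_map_eq, count_map_eq,
      count_map_eq, sum_rep, sum_rep, sum_rep, sum_rep]
    have h1 := hc2 t i i.2 j j.2
    have h2 : ∀ i : A, (∑ k, if c k (i : EuclideanSpace ℝ (Fin d)) = t then e k else 0) =
        ((∑ k, (e k).toNat • (if f k i = t then 1 else 0) : ℕ) : ℤ) -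
        ((∑ k, (-(e k)).toNat • (if f k i = t then 1 else 0) : ℕ) : ℤ) := by
      intro i
      rw [Nat.cast_sum, Nat.cast_sum, ← Finset.sum_sub_distrib]
      refine Finset.sum_congr rfl fun k _ => ?_
      by_cases hk : c k (i : EuclideanSpace ℝ (Fin d)) = t
      · have hk' : f k i = t := hk
        rw [if_pos hk, if_pos hk']
        simp only [smul_eq_mul, mul_one]
        exact (hnat _).symm
      · have hk' : ¬ f k i = t := hk
        rw [if_neg hk, if_neg hk']
        simp
    rw [h2, h2] at h1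
    omega
  have hD : (fun a b : A => dist a b ^ 2) = DL P - DL N := by
    funext a b
    rw [Pi.sub_apply, Pi.sub_apply, DL_apply, DL_apply, sum_rep, sum_rep,
      ← Finset.sum_sub_distrib, Subtype.dist_eq, ← hc1 a a.2 b b.2]
    refine Finset.sum_congr rfl fun k _ => ?_
    have h1 : (e k : ℝ) = ((e k).toNat : ℝ) - ((-(e k)).toNat : ℝ) := by
      exact_mod_cast (hnat (e k)).symm
    rw [nsmul_eq_mul, nsmul_eq_mul, ← sub_mul, ← h1]
  refine isRamsey_of_trace A hA hne fun lam hlam => ?_
  have h1 := sbal_kill hone (fun c => lam (Dm c)) (fun m => by rw [Dm_const, map_zero])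
    (fun L L' hL hL' h => by
      rw [← map_DL, ← map_DL]
      exact hlam L L' hL hL' h) hP hN hPN
  rw [hD, map_sub, map_DL, map_DL, h1, sub_self]

end Vale.Agent.Lib.P058
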