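import Vale.Agent.Lib.P058.Main
import Vale.Agent.Lib.P058C.NecB
import Vale.Agent.Lib.P058L.LDef

/-!
# P058L, module LTrans: subtransitive sets are the sets with an unsigned representation

A finite nonempty set is subtransitive iff there are affine functions `c k` with
`∑ (c k x - c k y) ^ 2 = |x - y| ^ 2` on `A` such that the multiset of the values `c k x` is the same for all
`x ∈ A`.
-/

namespace Vale.Agent.Lib.P058

theorem exists_perm_of_count {n : ℕ} (f g : Fin n → ℝ)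
    (h : ∀ t, ∑ k, (if f k = t then (1 : ℤ) else 0) = ∑ k, if g k = t then (1 : ℤ) else 0) :
    ∃ σ : Equiv.Perm (Fin n), ∀ k, g (σ k) = f k := by
  classical
  have h1 : ∀ t, Fintype.card {k // f k = t} = Fintype.card {k // g k = t} := by
    intro t
    have := h t
    rw [Finset.sum_boole, Finset.sum_boole] at this
    rw [Fintype.card_subtype, Fintype.card_subtype]
    exact_mod_cast this
  exact ⟨Equiv.ofFiberEquiv (fun t => Fintype.equivOfCardEq (h1 t)),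
    fun k => Equiv.ofFiberEquiv_map _ k⟩

theorem isSubtransitive_of_unsigned {d : ℕ} (A : Set (EuclideanSpace ℝ (Fin d)))
    (hne : A.Nonempty) (n : ℕ) (c : Fin n → EuclideanSpace ℝ (Fin d) →ᵃ[ℝ] ℝ)
    (h1 : ∀ x ∈ A, ∀ y ∈ A, ∑ k, (c k x - c k y) ^ 2 = dist x y ^ 2)
    (h2 : ∀ t : ℝ, ∀ x ∈ A, ∀ y ∈ A, ∑ k, (if c k x = t then (1 : ℤ) else 0) =
      ∑ k, if c k y = t then (1 : ℤ) else 0) : IsSubtransitive A := by
  obtain ⟨a0, ha0⟩ := hne
  let T : Equiv.Perm (Fin n) → EuclideanSpace ℝ (Fin n) ≃ₗᵢ[ℝ] EuclideanSpace ℝ (Fin n) :=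
    fun σ => LinearIsometryEquiv.piLpCongrLeft 2 ℝ ℝ σ
  have hT : ∀ σ v k, (T σ v) k = v (σ.symm k) := fun σ v k => rfl
  let F : EuclideanSpace ℝ (Fin d) → EuclideanSpace ℝ (Fin n) := fun a =>
    WithLp.toLp 2 (fun k => c k a)
  have hTT : ∀ σ τ v, T τ (T σ v) = T (σ.trans τ) v := by
    intro σ τ v
    ext k
    rw [hT, hT, hT]
    rfl
  refine ⟨n, Set.range (fun σ => T σ (F a0)), Set.finite_range _, ?_, fun a => F a, ?_, ?_⟩
  · rintro _ ⟨σ, rfl⟩ _ ⟨τ, rfl⟩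
    refine ⟨(T (σ.symm.trans τ)).toIsometryEquiv, ?_, ?_⟩
    · ext v
      constructor
      · rintro ⟨_, ⟨ρ, rfl⟩, rfl⟩
        refine ⟨ρ.trans (σ.symm.trans τ), ?_⟩
        exact (hTT _ _ _).symm
      · rintro ⟨ρ, rfl⟩
        refine ⟨T (ρ.trans (τ.symm.trans σ)) (F a0), ⟨_, rfl⟩, ?_⟩
        show T _ (T _ _) = T ρ (F a0)
        rw [hTT]
        congr 1
        congr 1
        ext k
        simp
    · show T _ (T _ _) = T τ (F a0)
      rw [hTT]
      congr 1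
      congr 1
      ext k
      simp
  · refine Isometry.of_dist_eq fun a b => ?_
    rw [EuclideanSpace.dist_eq, ← Real.sqrt_sq (dist_nonneg (x := a) (y := b)), Subtype.dist_eq,
      ← h1 a a.2 b b.2]
    congr 1
    refine Finset.sum_congr rfl fun k _ => ?_
    rw [Real.dist_eq, sq_abs]
  · intro a
    obtain ⟨σ, hσ⟩ := exists_perm_of_count (fun k => c k a0) (fun k => c k a)
      (fun t => h2 t a0 ha0 a a.2)
    refine ⟨σ, ?_⟩
    ext k
    show (T σ (F a0)) k = c k a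
    rw [hT]
    have := hσ (σ.symm k)
    rw [Equiv.apply_symm_apply] at this
    exact this.symm

theorem unsigned_of_isSubtransitive {d : ℕ} (A : Set (EuclideanSpace ℝ (Fin d)))
    (hA : A.Finite) (h : IsSubtransitive A) :
    ∃ (n : ℕ) (c : Fin n → EuclideanSpace ℝ (Fin d) →ᵃ[ℝ] ℝ),
    (∀ x ∈ A, ∀ y ∈ A, ∑ k, (c k x - c k y) ^ 2 = dist x y ^ 2) ∧
    ∀ t : ℝ, ∀ x ∈ A, ∀ y ∈ A, ∑ k, (if c k x = t then (1 : ℤ) else 0) =
      ∑ k, if c k y = t then (1 : ℤ) else 0 := by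
  classical
  obtain ⟨m, X, hX, hT, f, hf, hfX⟩ := h
  have : Fintype A := hA.fintype
  have : Fintype X := hX.fintype
  let P : Subgroup (Equiv.Perm X) :=
    { carrier := {π | ∀ x y, dist (π x) (π y) = dist x y}
      mul_mem' := by
        intro π σ hπ hσ x y
        rw [Equiv.Perm.mul_apply, Equiv.Perm.mul_apply, hπ, hσ]
      one_mem' := fun x y => rfl
      inv_mem' := by
        intro π hπ x y
        have := hπ (π.symm x) (π.symm y)
        rw [Equiv.apply_symm_apply, Equiv.apply_symm_apply] at this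
        exact this.symm }
  have : Fintype P := Fintype.ofFinite P
  let F : P → A → EuclideanSpace ℝ (Fin m) := fun π a => (π.1 ⟨f a, hfX a⟩ : X)
  have hF : ∀ π, Isometry (F π) := by
    intro π
    refine Isometry.of_dist_eq fun a b => ?_
    have h1 := π.2 ⟨f a, hfX a⟩ ⟨f b, hfX b⟩
    rw [Subtype.dist_eq, Subtype.dist_eq] at h1
    show dist (F π a) (F π b) = _
    rw [h1]
    exact hf.dist_eq a b
  choose g hg using fun (π : P) (i : Fin m) => exists_affine A (F π) (hF π) i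
  let ι := Fin m × P
  let e : Fin (Fintype.card ι) ≃ ι := (Fintype.equivFin ι).symm
  have hN : (0 : ℝ) < Fintype.card P := by
    have : 0 < Fintype.card P := Fintype.card_pos_iff.2 ⟨1⟩
    exact_mod_cast this
  let s : ℝ := (√(Fintype.card P : ℝ))⁻¹
  have hs : s ^ 2 = (Fintype.card P : ℝ)⁻¹ := by
    rw [inv_pow, Real.sq_sqrt hN.le]
  refine ⟨Fintype.card ι, fun k => s • g (e k).2 (e k).1, ?_, ?_⟩
  · intro x hx y hy
    have h1 : ∑ k : Fin (Fintype.card ι), ((s • g (e k).2 (e k).1) x -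
        (s • g (e k).2 (e k).1) y) ^ 2 = ∑ p : ι, (s * F p.2 ⟨x, hx⟩ p.1 -
        s * F p.2 ⟨y, hy⟩ p.1) ^ 2 := by
      rw [← e.sum_comp]
      refine Finset.sum_congr rfl fun k _ => ?_
      have e1 := hg (e k).2 (e k).1 ⟨x, hx⟩
      have e2 := hg (e k).2 (e k).1 ⟨y, hy⟩
      rw [← e1, ← e2]
      rfl
    rw [h1, Fintype.sum_prod_type_right]
    have h2 : ∀ π : P, ∑ i, (s * F π ⟨x, hx⟩ i - s * F π ⟨y, hy⟩ i) ^ 2 =
        (Fintype.card P : ℝ)⁻¹ * dist x y ^ 2 := by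
      intro π
      have h3 : dist x y = dist (F π ⟨x, hx⟩) (F π ⟨y, hy⟩) :=
        ((hF π).dist_eq ⟨x, hx⟩ ⟨y, hy⟩).symm
      rw [h3, EuclideanSpace.dist_sq_eq, Finset.mul_sum, ← hs]
      refine Finset.sum_congr rfl fun i _ => ?_
      rw [Real.dist_eq, sq_abs]
      ring
    rw [Finset.sum_congr rfl fun π _ => h2 π, Finset.sum_const, Finset.card_univ, nsmul_eq_mul,
      ← mul_assoc, mul_inv_cancel₀ hN.ne', one_mul]
  · intro t x hx y hy
    have h1 : ∀ z (hz : z ∈ A), ∑ k : Fin (Fintype.card ι),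
        (if (s • g (e k).2 (e k).1) z = t then (1 : ℤ) else 0) =
        ∑ π : P, ∑ i, if s * F π ⟨z, hz⟩ i = t then (1 : ℤ) else 0 := by
      intro z hz
      rw [← Fintype.sum_prod_type_right
        (f := fun p : ι => if s * F p.2 ⟨z, hz⟩ p.1 = t then (1 : ℤ) else 0), ← e.sum_comp]
      refine Finset.sum_congr rfl fun k _ => ?_
      have e1 := hg (e k).2 (e k).1 ⟨z, hz⟩
      rw [← e1]
      rfl
    rw [h1 x hx, h1 y hy]
    obtain ⟨G, hG1, hG2⟩ := hT (f ⟨x, hx⟩) (hfX _) (f ⟨y, hy⟩) (hfX _)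
    have hGX : ∀ z : X, G z ∈ X := fun z => by
      have := Set.mem_image_of_mem G z.2
      rwa [hG1] at this
    let σ₀ : X → X := fun z => ⟨G z, hGX z⟩
    have hinj : Function.Injective σ₀ := by
      intro z w hzw
      have : G z = G w := congrArg Subtype.val hzw
      exact Subtype.ext (G.injective this)
    let σ₁ : Equiv.Perm X := Equiv.ofBijective σ₀ (Finite.injective_iff_bijective.1 hinj)
    have hσ₁ : ∀ z w, dist (σ₁ z) (σ₁ w) = dist z w := by
      intro z w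
      show dist (σ₀ z) (σ₀ w) = _
      rw [Subtype.dist_eq, Subtype.dist_eq]
      exact G.dist_eq z w
    let σ : P := ⟨σ₁, hσ₁⟩
    have h2 : ∀ π : P, F (π * σ) ⟨x, hx⟩ = F π ⟨y, hy⟩ := by
      intro π
      show (((π.1 * σ₁) ⟨f ⟨x, hx⟩, hfX _⟩ : X) : EuclideanSpace ℝ (Fin m)) =
        (π.1 ⟨f ⟨y, hy⟩, hfX _⟩ : X)
      rw [Equiv.Perm.mul_apply]
      have h3 : σ₁ ⟨f ⟨x, hx⟩, hfX _⟩ = ⟨f ⟨y, hy⟩, hfX _⟩ := Subtype.ext hG2
      rw [h3]
    rw [← Equiv.sum_comp (Equiv.mulRight σ)]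
    refine Finset.sum_congr rfl fun π _ => ?_
    rw [Equiv.coe_mulRight, h2]

theorem isSubtransitive_iff {d : ℕ} (A : Set (EuclideanSpace ℝ (Fin d))) (hA : A.Finite)
    (hne : A.Nonempty) : IsSubtransitive A ↔
    ∃ (n : ℕ) (c : Fin n → EuclideanSpace ℝ (Fin d) →ᵃ[ℝ] ℝ),
    (∀ x ∈ A, ∀ y ∈ A, ∑ k, (c k x - c k y) ^ 2 = dist x y ^ 2) ∧
    ∀ t : ℝ, ∀ x ∈ A, ∀ y ∈ A, ∑ k, (if c k x = t then (1 : ℤ) else 0) =
      ∑ k, if c k y = t then (1 : ℤ) else 0 :=
  ⟨unsigned_of_isSubtransitive A hA, fun ⟨n, c, h1, h2⟩ =>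
    isSubtransitive_of_unsigned A hne n c h1 h2⟩

theorem listGood_of_isSubtransitive {d : ℕ} (A : Set (EuclideanSpace ℝ (Fin d))) (hA : A.Finite)
    (h : IsSubtransitive A) : ListGood A := by
  obtain ⟨n, c, h1, h2⟩ := unsigned_of_isSubtransitive A hA h
  refine ⟨n, fun _ => 1, c, fun x hx y hy => ?_, h2⟩
  rw [← h1 x hx y hy]
  exact Finset.sum_congr rfl fun k _ => by rw [Int.cast_one, one_mul]

end Vale.Agent.Lib.P058
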