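import Vale.Agent.Lib.P058L.NecLA
import Vale.Agent.Lib.P058C.NecB

/-!
# P058L, module NecLB: Ramsey sets satisfy the list criterion

PROOF.  As NecB: let `A` be finite, nonempty and not good; take `b`, `l` from `exists_dual_list`,
`K = |A|`.  For `v : EuclideanSpace ℝ (Fin D)` and `x : A` let `β x v = ∑ i, b x (v i)`.
(1) `∑ x, β x v = 0`.
(2) If `F : A → EuclideanSpace ℝ (Fin D)` preserves distances then `∑ x, β x (F x) = -1`: every
coordinate `x ↦ F x i` is the restriction of an affine function (`exists_affine`).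
(3) Colour `v` by `x ↦ (⌊2 K β x v⌋ : ZMod (4 K))`.
-/

namespace Vale.Agent.Lib.P058

theorem listGood_of_isRamsey {d : ℕ} (A : Set (EuclideanSpace ℝ (Fin d))) (hfin : A.Finite)
    (hne : A.Nonempty) (h : IsRamsey A) : ListGood A := by
  classical
  by_contra hbad
  have : Fintype A := hfin.fintype
  have : Nonempty A := hne.to_subtype
  obtain ⟨b, l, hb, hl, hone⟩ := exists_dual_list A hbad
  set K : ℕ := Fintype.card A with hK
  have hKpos : 0 < K := Fintype.card_pos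
  have : NeZero (4 * K) := ⟨by omega⟩
  have : Fact (1 < 4 * K) := ⟨by omega⟩
  -- the functions
  let β : (n : ℕ) → A → EuclideanSpace ℝ (Fin n) → ℝ := fun n x v => ∑ i, b x (v i)
  have hβ0 : ∀ n (v : EuclideanSpace ℝ (Fin n)), ∑ x, β n x v = 0 := by
    intro n v
    show ∑ x, ∑ i, b x (v i) = 0
    rw [Finset.sum_comm]
    exact Finset.sum_eq_zero fun i _ => hb _
  have hβ1 : ∀ n (F : A → EuclideanSpace ℝ (Fin n)), Isometry F → ∑ x, β n x (F x) = -1 := by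
    intro n F hF
    choose f hf using exists_affine A F hF
    have h1 : ∑ x, β n x (F x) = ∑ i, ∑ x : A, b x (f i x) := by
      show ∑ x, ∑ i, b x (F x i) = _
      rw [Finset.sum_comm]
      simp only [hf]
    have h2 : ∀ i, ∑ x : A, b x (f i x) = - l (fun x y => (f i x - f i y) ^ 2) := by
      intro i
      have := hl (f i)
      linarith
    rw [h1, Finset.sum_congr rfl fun i _ => h2 i, Finset.sum_neg_distrib, ← map_sum, ← hone]
    congr 2
    funext x y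
    rw [Finset.sum_apply, Finset.sum_apply]
    have h3 : dist (x : EuclideanSpace ℝ (Fin d)) y = dist (F x) (F y) := (hF.dist_eq x y).symm
    rw [h3, EuclideanSpace.dist_eq, Real.sq_sqrt (Finset.sum_nonneg fun i _ => sq_nonneg _)]
    refine Finset.sum_congr rfl fun i _ => ?_
    rw [Real.dist_eq, sq_abs, hf, hf]
  -- the colouring
  let C := A → ZMod (4 * K)
  have : Fintype C := inferInstanceAs (Fintype (A → ZMod (4 * K)))
  have : Nontrivial C := inferInstanceAs (Nontrivial (A → ZMod (4 * K)))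
  let e : C ≃ Fin (Fintype.card C) := Fintype.equivFin C
  obtain ⟨D, -, hD⟩ := h (Fintype.card C) (Fintype.one_lt_card (α := C))
  obtain ⟨F, hF, hmono⟩ := hD (fun v => e (fun x => ((⌊2 * (K : ℝ) * β D x v⌋ : ℤ) : ZMod (4 * K))))
  obtain ⟨x₀⟩ := ‹Nonempty A›
  have h1 : ∀ x, ((4 * K : ℕ) : ℤ) ∣ ⌊2 * (K : ℝ) * β D x (F x₀)⌋ - ⌊2 * (K : ℝ) * β D x (F x)⌋ := by
    intro x
    have := congrFun (e.injective (hmono x x₀)) x
    exact (ZMod.intCast_eq_intCast_iff_dvd_sub _ _ _).mp this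
  have h2 : ((4 * K : ℕ) : ℤ) ∣
      ∑ x, ⌊2 * (K : ℝ) * β D x (F x₀)⌋ - ∑ x, ⌊2 * (K : ℝ) * β D x (F x)⌋ := by
    rw [← Finset.sum_sub_distrib]
    exact Finset.dvd_sum fun x _ => h1 x
  have h3 : ∑ x, 2 * (K : ℝ) * β D x (F x₀) = 0 := by
    rw [← Finset.mul_sum, hβ0, mul_zero]
  have h4 : ∑ x, 2 * (K : ℝ) * β D x (F x) = -(2 * K) := by
    rw [← Finset.mul_sum, hβ1 D F hF]
    ring
  have hcard : ∑ _x : A, (1 : ℝ) = K := by simp [hK]
  have h5 : (∑ x, ⌊2 * (K : ℝ) * β D x (F x₀)⌋ : ℤ) ≤ (0 : ℝ) := by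
    push_cast
    rw [← h3]
    exact Finset.sum_le_sum fun x _ => Int.floor_le _
  have h6 : (-(K : ℝ)) < (∑ x, ⌊2 * (K : ℝ) * β D x (F x₀)⌋ : ℤ) := by
    push_cast
    have : ∑ x, 2 * (K : ℝ) * β D x (F x₀)
        < ∑ x, (((⌊2 * (K : ℝ) * β D x (F x₀)⌋ : ℤ) : ℝ) + 1) :=
      Finset.sum_lt_sum_of_nonempty ⟨x₀, Finset.mem_univ _⟩ fun x _ => Int.lt_floor_add_one _
    rw [Finset.sum_add_distrib, h3, hcard] at this
    linarith
  have h7 : ((∑ x, ⌊2 * (K : ℝ) * β D x (F x)⌋ : ℤ) : ℝ) ≤ -(2 * K) := by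
    push_cast
    rw [← h4]
    exact Finset.sum_le_sum fun x _ => Int.floor_le _
  have h8 : (-(3 * (K : ℝ))) < (∑ x, ⌊2 * (K : ℝ) * β D x (F x)⌋ : ℤ) := by
    push_cast
    have : ∑ x, 2 * (K : ℝ) * β D x (F x)
        < ∑ x, (((⌊2 * (K : ℝ) * β D x (F x)⌋ : ℤ) : ℝ) + 1) :=
      Finset.sum_lt_sum_of_nonempty ⟨x₀, Finset.mem_univ _⟩ fun x _ => Int.lt_floor_add_one _
    rw [Finset.sum_add_distrib, h4, hcard] at this
    linarith
  obtain ⟨m, hm⟩ := h2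
  have h9 : (∑ x, ⌊2 * (K : ℝ) * β D x (F x₀)⌋ : ℤ) ≤ 0 := by exact_mod_cast h5
  have h10 : -(K : ℤ) < ∑ x, ⌊2 * (K : ℝ) * β D x (F x₀)⌋ := by exact_mod_cast h6
  have h11 : ∑ x, ⌊2 * (K : ℝ) * β D x (F x)⌋ ≤ -(2 * (K : ℤ)) := by exact_mod_cast h7
  have h12 : -(3 * (K : ℤ)) < ∑ x, ⌊2 * (K : ℝ) * β D x (F x)⌋ := by exact_mod_cast h8
  have hK' : (0 : ℤ) < K := by exact_mod_cast hKpos
  have h13 : (0 : ℤ) < (4 * K : ℕ) * m := by rw [← hm]; linarith
  have h14 : ((4 * K : ℕ) : ℤ) * m < 4 * K := by rw [← hm]; linarith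
  push_cast at h13 h14
  have h15 : 0 < m := by
    by_contra hm0
    have : (4 * (K : ℤ)) * m ≤ 0 := mul_nonpos_of_nonneg_of_nonpos (by linarith) (not_lt.mp hm0)
    linarith
  nlinarith

end Vale.Agent.Lib.P058
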